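import Claimed.Agent.R316.Base.LiYau.Evol

/-!
# Row 316, `BP-G9`, file 15: the Karp-Li `L²` maximum principle     (leaves `G9-KL-A` (`ly_exists_beta`, `ly_kl_pointwise`), `G9-KL-B` (`ly_karp_li_energy`), `G9-KL-C` (`ly_karp_li_step`, `ly_karp_li`))

Sub-captain: helper201.  Statements are frozen; the owner of a leaf replaces its `sorry`s.

To stay inside classical `C¹/C²` calculus we replace `u₊²` by `β(u)`, `β s = s³/(s+1)` for `s > 0`, `β = 0` for `s ≤ 0`.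

* `ly_exists_beta`.  For `s > 0`: `β' = (2s³+3s²)/(s+1)²`, `β'' = (2s³+6s²+6s)/(s+1)³`, `β'²/(β β'') = (4s²+12s+9)/(2s²+6s+6) ≤ 2`, `β ≤ s²`.  `C²` at `0`: `β, β', β'' → 0`.
  (Write `β s = (max s 0)³ / (max s 0 + 1)`; `s ↦ (max s 0)³` is `C²`: it is `s³` for `s ≥ 0` and `0` for `s ≤ 0`, derivatives `3 (max s 0)²`, `6 max s 0`; then quotient by... is NOT smooth in `max s 0`; better: prove `HasDerivAt` for `β`, `β₁`, with explicit piecewise formulas `β₁ s = (2m³+3m²)/(m+1)²`, `β₂ s = (2m³+6m²+6m)/(m+1)³`, `m = max s 0`, separately for `s < 0`, `s > 0`, `s = 0` (squeeze), `β₂` continuous; `contDiff_succ_iff_deriv`.)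
* `ly_kl_pointwise` (real algebra): from `b₁² ≤ 2 b b₂`, `m₁² ≤ x p`, `m₂² ≤ y p`  (`p = |∂u|²`, `x = |∂ξ|²`, `y = |∂φ|²`, `m₁ = ⟨∂ξ,∂u⟩`, `m₂ = ⟨∂φ,∂u⟩`):
  `- φ² b₂ p - b₁ φ² m₁ - 2 b₁ φ m₂ ≤ φ² b x + 4 b y`   (`|b₁ m₁| ≤ b₂ p/2 + b x`, `2 φ |b₁ m₂| ≤ φ² b₂ p/2 + 4 b y`, AM-GM).
* `ly_karp_li_energy`.  `ρ` from `ly_exists_rho` for `(o, ε = 1)`, `ξ s y = - (ρ y + 2)/(2 (2η - s))` on `s ∈ [0,η]`: `∂_s ξ + |∂ξ|² = (ρ+2)(-1/2)/(2η-s)² + |∂ρ|²/(4(2η-s)²) ≤ 0` since `|∂ρ|² ≤ (d+1)² ≤ 2d²+2 ≤ 2(ρ+2)`; `e^ξ ≤ e^{-d²/4η} ≤ e^{-c d²}`.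
  `φ` = cutoff of `ly_cutoff` for `(o,R)`, `E s = ∫ φ² e^{ξ s} β(u s)`.  On `(0,η]`: `hasDerivWithinAt_integral_hvol` (integrand and its time derivative jointly continuous, compact support):
  `E' = ∫ φ² e^ξ (ξ_s β(u) + β'(u) u_s) ≤ ∫ φ² e^ξ ξ_s β(u) + ∫ ψ Δu`, `ψ = φ² e^ξ β'(u) ≥ 0` (`LocLip`, `CSupp`).  Green I (`integral_mul_lap`): `∫ ψ Δu = - ∫ ⟨∂ψ,∂u⟩`,
  `⟨∂ψ,∂u⟩ = φ² e^ξ β''(u)|∂u|² + β' φ² e^ξ ⟨∂ξ,∂u⟩ + 2 β' φ e^ξ ⟨∂φ,∂u⟩` (`gradInner_mul_left`, `gradInner_comp_left`).  `ly_kl_pointwise`: `E' ≤ ∫ φ² e^ξ β (ξ_s + |∂ξ|²) + 4 ∫ e^ξ β |∂φ|² ≤ (4C/R²) ∫ e^{-c d²} u₊²`.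
  `E` is continuous on `[0,η]` (`continuousOn_integral_hvol`), `E 0 = 0`.  Integrate (`image_le_of_deriv_right_le_deriv_boundary`/FTC); Fubini for `hint` gives `∫_0^η ∫ e^{-cd²} u₊² = I`.
* `ly_karp_li_step`: `∫_{B(o,R₀)} e^ξ β(u t) ≤ E_R t ≤ 4 C I/R² → 0`; so `β(u t) = 0` on `M` (`eq_zero_of_integral_hvol_eq_zero` for the continuous compactly supported `φ_{R₀}² e^ξ β(u t)`), i.e. `u t ≤ 0`.
* `ly_karp_li`: if `c ≤ 0` replace `c` by `1` (`e^{-d²} ≤ e^{-c d²}`).  `η = 1/(4c)`; induction on `k`: `u ≤ 0` on `[0, kη] ∩ [0,T]` (translate time).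
-/

set_option autoImplicit false
open scoped ContDiff ComplexOrder Topology
open MeasureTheory Filter

namespace Claimed.Agent.R316

/-- composition with the positive part of a function whose derivative vanishes at `0`. -/
theorem kl_hasDerivAt_comp_max {f f' : ℝ → ℝ} (hf : ∀ t, 0 ≤ t → HasDerivAt f (f' t) t) (h0 : f' 0 = 0)
    (s : ℝ) : HasDerivAt (fun s => f (max s 0)) (f' (max s 0)) s := by
  rcases lt_trichotomy s 0 with hs | rfl | hs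
  · have e : (fun s => f (max s 0)) =ᶠ[𝓝 s] fun _ => f 0 := by
      filter_upwards [Iio_mem_nhds hs] with t ht
      rw [max_eq_right (le_of_lt ht)]
    rw [max_eq_right hs.le, h0]
    exact (hasDerivAt_const s (f 0)).congr_of_eventuallyEq e
  · rw [max_self, h0]
    have h1 : HasDerivWithinAt (fun s => f (max s 0)) 0 (Set.Ici 0) 0 := by
      have := (hf 0 le_rfl).hasDerivWithinAt (s := Set.Ici 0)
      rw [h0] at this
      refine this.congr (fun t ht => ?_) (by rw [max_self])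
      rw [max_eq_left ht]
    have h2 : HasDerivWithinAt (fun s => f (max s 0)) 0 (Set.Iic 0) 0 := by
      refine (hasDerivWithinAt_const (0 : ℝ) (Set.Iic 0) (f 0)).congr (fun t ht => ?_) (by rw [max_self])
      rw [max_eq_right ht]
    have h3 := h2.union h1
    rwa [Set.Iic_union_Ici, hasDerivWithinAt_univ] at h3
  · have e : (fun s => f (max s 0)) =ᶠ[𝓝 s] f := by
      filter_upwards [Ioi_mem_nhds hs] with t ht
      rw [max_eq_left (le_of_lt ht)]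
    rw [max_eq_left hs.le]
    exact (hf s hs.le).congr_of_eventuallyEq e

/-- the `C²` convex substitute of `s₊²`. -/
theorem ly_exists_beta : ∃ β : ℝ → ℝ, ContDiff ℝ 2 β ∧ (∀ s, s ≤ 0 → β s = 0) ∧
    (∀ s, 0 ≤ β s ∧ β s ≤ (max s 0) ^ 2) ∧ (∀ s, 0 < s → 0 < β s) ∧ (∀ s, 0 ≤ deriv β s) ∧
    (∀ s, 0 ≤ deriv (deriv β) s) ∧ (∀ s, deriv β s ^ 2 ≤ 2 * β s * deriv (deriv β) s) := by
  set F : ℝ → ℝ := fun t => t ^ 3 / (t + 1) with hF
  set F₁ : ℝ → ℝ := fun t => (2 * t ^ 3 + 3 * t ^ 2) / (t + 1) ^ 2 with hF₁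
  set F₂ : ℝ → ℝ := fun t => (2 * t ^ 3 + 6 * t ^ 2 + 6 * t) / (t + 1) ^ 3 with hF₂
  have d1 : ∀ t, 0 ≤ t → HasDerivAt F (F₁ t) t := by
    intro t ht
    have hne : t + 1 ≠ 0 := by positivity
    have h : HasDerivAt (fun t : ℝ => t ^ 3 / (t + 1))
        ((((3 : ℕ) : ℝ) * t ^ (3 - 1) * (t + 1) - t ^ 3 * 1) / (t + 1) ^ 2) t :=
      (hasDerivAt_pow 3 t).div ((hasDerivAt_id' t).add_const 1) hne
    have e : F₁ t = (((3 : ℕ) : ℝ) * t ^ (3 - 1) * (t + 1) - t ^ 3 * 1) / (t + 1) ^ 2 := by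
      show (2 * t ^ 3 + 3 * t ^ 2) / (t + 1) ^ 2 = _
      congr 1
      norm_num
      ring
    rw [e]
    exact h
  have d2 : ∀ t, 0 ≤ t → HasDerivAt F₁ (F₂ t) t := by
    intro t ht
    have hne : (t + 1) ^ 2 ≠ 0 := by positivity
    have hne' : t + 1 ≠ 0 := by positivity
    have h : HasDerivAt (fun t : ℝ => (2 * t ^ 3 + 3 * t ^ 2) / (t + 1) ^ 2)
        (((2 * (((3 : ℕ) : ℝ) * t ^ (3 - 1)) + 3 * (((2 : ℕ) : ℝ) * t ^ (2 - 1))) * (t + 1) ^ 2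
          - (2 * t ^ 3 + 3 * t ^ 2) * (((2 : ℕ) : ℝ) * (t + 1) ^ (2 - 1) * 1)) / ((t + 1) ^ 2) ^ 2) t :=
      (((hasDerivAt_pow 3 t).const_mul 2).add ((hasDerivAt_pow 2 t).const_mul 3)).div
        (((hasDerivAt_id' t).add_const 1).pow 2) hne
    have e : F₂ t = ((2 * (((3 : ℕ) : ℝ) * t ^ (3 - 1)) + 3 * (((2 : ℕ) : ℝ) * t ^ (2 - 1))) * (t + 1) ^ 2
          - (2 * t ^ 3 + 3 * t ^ 2) * (((2 : ℕ) : ℝ) * (t + 1) ^ (2 - 1) * 1)) / ((t + 1) ^ 2) ^ 2 := by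
      show (2 * t ^ 3 + 6 * t ^ 2 + 6 * t) / (t + 1) ^ 3 = _
      norm_num
      field_simp
      ring
    rw [e]
    exact h
  have D1 : ∀ s, HasDerivAt (fun s => F (max s 0)) (F₁ (max s 0)) s :=
    kl_hasDerivAt_comp_max d1 (by simp [hF₁])
  have D2 : ∀ s, HasDerivAt (fun s => F₁ (max s 0)) (F₂ (max s 0)) s :=
    kl_hasDerivAt_comp_max d2 (by simp [hF₂])
  have e1 : deriv (fun s => F (max s 0)) = fun s => F₁ (max s 0) := funext fun s => (D1 s).deriv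
  have e2 : deriv (fun s => F₁ (max s 0)) = fun s => F₂ (max s 0) := funext fun s => (D2 s).deriv
  have hm : ∀ s : ℝ, 0 ≤ max s 0 := fun s => le_max_right _ _
  have c2 : Continuous (fun s : ℝ => F₂ (max s 0)) := by
    simp only [hF₂]
    refine Continuous.div (by fun_prop) (by fun_prop) fun s => ?_
    have := hm s
    positivity
  refine ⟨fun s => F (max s 0), ?_, ?_, ?_, ?_, ?_, ?_, ?_⟩
  · have h2 : ContDiff ℝ 1 (fun s => F₁ (max s 0)) := by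
      rw [show (1 : WithTop ℕ∞) = 0 + 1 by norm_num, contDiff_succ_iff_deriv]
      refine ⟨fun s => (D2 s).differentiableAt, by simp, ?_⟩
      rw [e2]
      exact contDiff_zero.2 c2
    rw [show (2 : WithTop ℕ∞) = 1 + 1 by norm_num, contDiff_succ_iff_deriv]
    refine ⟨fun s => (D1 s).differentiableAt, by simp, ?_⟩
    rw [e1]
    exact h2
  · intro s hs
    simp [hF, max_eq_right hs]
  · intro s
    have := hm s
    refine ⟨by simp only [hF]; positivity, ?_⟩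
    simp only [hF]
    rw [div_le_iff₀ (by positivity)]
    nlinarith [pow_nonneg this 2]
  · intro s hs
    simp only [hF, max_eq_left hs.le]
    positivity
  · intro s
    rw [e1]
    have := hm s
    simp only [hF₁]
    positivity
  · intro s
    rw [e1, e2]
    have := hm s
    simp only [hF₂]
    positivity
  · intro s
    rw [e1, e2]
    have hm0 := hm s
    set m := max s 0 with hmdef
    simp only [hF, hF₁, hF₂]
    have hp : 0 < m + 1 := by positivity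
    rw [div_pow, show 2 * (m ^ 3 / (m + 1)) * ((2 * m ^ 3 + 6 * m ^ 2 + 6 * m) / (m + 1) ^ 3)
      = (2 * m ^ 3 * (2 * m ^ 3 + 6 * m ^ 2 + 6 * m)) / ((m + 1) ^ 2) ^ 2 by field_simp]
    refine div_le_div_of_nonneg_right ?_ (by positivity)
    nlinarith [pow_nonneg hm0 4]

theorem ly_kl_pointwise {φ b b₁ b₂ p x y m₁ m₂ : ℝ} (hb : 0 ≤ b) (hb₂ : 0 ≤ b₂)
    (hbb : b₁ ^ 2 ≤ 2 * b * b₂) (hp : 0 ≤ p) (hx : 0 ≤ x) (hy : 0 ≤ y) (h1 : m₁ ^ 2 ≤ x * p)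
    (h2 : m₂ ^ 2 ≤ y * p) :
    -(φ ^ 2 * b₂ * p) - b₁ * φ ^ 2 * m₁ - 2 * b₁ * φ * m₂ ≤ φ ^ 2 * b * x + 4 * b * y := by
  have k1 : -(b₁ * m₁) ≤ b₂ * p / 2 + b * x := by
    have hs : (b₁ * m₁) ^ 2 ≤ (b₂ * p / 2 + b * x) ^ 2 := by
      have : (b₁ * m₁) ^ 2 ≤ (2 * b * b₂) * (x * p) := by
        rw [mul_pow]
        exact mul_le_mul hbb h1 (sq_nonneg _) (by positivity)
      nlinarith [sq_nonneg (b₂ * p / 2 - b * x)]
    have := abs_le_of_sq_le_sq hs (by positivity)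
    exact (neg_le_abs _).trans this
  have k2 : -(2 * b₁ * φ * m₂) ≤ φ ^ 2 * b₂ * p / 2 + 4 * b * y := by
    have hs : (2 * b₁ * φ * m₂) ^ 2 ≤ (φ ^ 2 * b₂ * p / 2 + 4 * b * y) ^ 2 := by
      have h3 : (b₁ * m₂) ^ 2 ≤ (2 * b * b₂) * (y * p) := by
        rw [mul_pow]
        exact mul_le_mul hbb h2 (sq_nonneg _) (by positivity)
      have h4 : (2 * b₁ * φ * m₂) ^ 2 = 4 * φ ^ 2 * (b₁ * m₂) ^ 2 := by ring
      have h5 : 4 * φ ^ 2 * (b₁ * m₂) ^ 2 ≤ 4 * φ ^ 2 * ((2 * b * b₂) * (y * p)) :=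
        mul_le_mul_of_nonneg_left h3 (by positivity)
      nlinarith [sq_nonneg (φ ^ 2 * b₂ * p / 2 - 4 * b * y)]
    have := abs_le_of_sq_le_sq hs (by positivity)
    exact (neg_le_abs _).trans this
  have k3 := mul_le_mul_of_nonneg_left k1 (sq_nonneg φ)
  nlinarith

variable {V : Type} [NormedAddCommGroup V] [NormedSpace ℝ V] [FiniteDimensional ℝ V]
  [MeasurableSpace V] [BorelSpace V]
variable {n : ℕ} {𝓜 : CMfd V (Fin n)} {g : HFam V (Fin n)}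

/-- the space part of the energy inequality, at a fixed time. -/
theorem kl_space (S : AnaSetting 𝓜 g) {β : ℝ → ℝ} (hβ : ContDiff ℝ 2 β)
    (hβ1 : ∀ s, 0 ≤ β s ∧ β s ≤ (max s 0) ^ 2)
    (hβ2 : ∀ s, 0 ≤ deriv β s) (hβ3 : ∀ s, 0 ≤ deriv (deriv β) s)
    (hβ4 : ∀ s, deriv β s ^ 2 ≤ 2 * β s * deriv (deriv β) s)
    {φ ξ ξt w wt D : V → ℝ} {A : ℝ} (hA : 0 ≤ A) (hφ : 𝓜.Smooth φ) (hφc : 𝓜.CSupp φ)
    (hφ0 : ∀ y ∈ 𝓜.carrier, 0 ≤ φ y) (hφg : ∀ y ∈ 𝓜.carrier, gradSq 𝓜 g φ y ≤ A * φ y)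
    (hξ : 𝓜.Smooth ξ) (hξt : ContinuousOn ξt 𝓜.carrier)
    (hξi : ∀ y ∈ 𝓜.carrier, ξt y + gradSq 𝓜 g ξ y ≤ 0)
    (hD : ContinuousOn D 𝓜.carrier) (hξD : ∀ y ∈ 𝓜.carrier, ξ y ≤ D y)
    (hw : 𝓜.Smooth w) (hwt : ContinuousOn wt 𝓜.carrier)
    (hwl : ∀ y ∈ 𝓜.carrier, wt y ≤ lap 𝓜 g w y) :
    ∫ y, φ y ^ 2 * Real.exp (ξ y) * (ξt y * β (w y) + deriv β (w y) * wt y) ∂(hvol 𝓜 g)
      ≤ 4 * A * ∫ y, φ y * ((max (w y) 0) ^ 2 * Real.exp (D y)) ∂(hvol 𝓜 g) := by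
  have hm : IsMetric 𝓜 g := S.kahler.toIsMetric
  have hβ' : ContDiff ℝ 1 (deriv β) := by
    have := hβ
    rw [show (2 : WithTop ℕ∞) = 1 + 1 by norm_num, contDiff_succ_iff_deriv] at this
    exact this.2.2
  have hβd : Differentiable ℝ β := hβ.differentiable (by norm_num)
  have hβ'd : Differentiable ℝ (deriv β) := hβ'.differentiable (by norm_num)
  have hwc : ContinuousOn w 𝓜.carrier := hw.continuousOn
  have hφcont : ContinuousOn φ 𝓜.carrier := hφ.continuousOn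
  have hξc : ContinuousOn ξ 𝓜.carrier := hξ.continuousOn
  have hβw : ContinuousOn (fun y => β (w y)) 𝓜.carrier := hβ.continuous.comp_continuousOn hwc
  have hβ'w : ContinuousOn (fun y => deriv β (w y)) 𝓜.carrier := hβ'.continuous.comp_continuousOn hwc
  have hpre : ContinuousOn (fun y => φ y ^ 2 * Real.exp (ξ y)) 𝓜.carrier :=
    (hφcont.pow 2).mul (Real.continuous_exp.comp_continuousOn hξc)
  have hφ2c : 𝓜.CSupp (fun y => φ y ^ 2) := hφc.pow two_ne_zero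
  set ψ : V → ℝ := fun y => φ y ^ 2 * Real.exp (ξ y) * deriv β (w y) with hψ
  have hψL : 𝓜.LocLip ψ :=
    ((hφ.pow 2).mul hξ.exp).locLip.mul (CMfd.LocLip.comp hβ'.locallyLipschitz hw.locLip)
  have hψc : 𝓜.CSupp ψ := (hφ2c.mul_right _).mul_right _
  have hψ0 : ∀ y ∈ 𝓜.carrier, 0 ≤ ψ y := fun y _ =>
    mul_nonneg (mul_nonneg (sq_nonneg _) (Real.exp_pos _).le) (hβ2 _)
  have green := integral_mul_lap S.kahler hψL hψc hw
  set T1 : V → ℝ := fun y => φ y ^ 2 * Real.exp (ξ y) * (ξt y * β (w y)) with hT1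
  have I_T1 : Integrable T1 (hvol 𝓜 g) :=
    integrable_hvol_of_csupp hm (hpre.mul (hξt.mul hβw)) ((hφ2c.mul_right _).mul_right _)
  have I_L : Integrable (fun y => φ y ^ 2 * Real.exp (ξ y) * (ξt y * β (w y) + deriv β (w y) * wt y))
      (hvol 𝓜 g) :=
    integrable_hvol_of_csupp hm (hpre.mul ((hξt.mul hβw).add (hβ'w.mul hwt)))
      ((hφ2c.mul_right _).mul_right _)
  have I_l : Integrable (fun y => ψ y * lap 𝓜 g w y) (hvol 𝓜 g) :=
    integrable_mul_lap_of_csupp hm hψL.continuousOn hψc hw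
  have I_g : Integrable (gradInner 𝓜 g ψ w) (hvol 𝓜 g) :=
    integrable_gradInner_of_csupp_left hm hψL hψc hw.locLip
  have I_R : Integrable (fun y => φ y * ((max (w y) 0) ^ 2 * Real.exp (D y))) (hvol 𝓜 g) :=
    integrable_hvol_of_csupp hm
      (hφcont.mul (((ContinuousOn.sup hwc continuousOn_const).pow 2).mul (Real.continuous_exp.comp_continuousOn hD)))
      (hφc.mul_right _)
  -- the gradient of `ψ`
  have hgrad : ∀ y ∈ 𝓜.carrier, gradInner 𝓜 g ψ w y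
      = Real.exp (ξ y) * (φ y ^ 2 * deriv (deriv β) (w y) * gradSq 𝓜 g w y
        + deriv β (w y) * φ y ^ 2 * gradInner 𝓜 g ξ w y
        + 2 * deriv β (w y) * φ y * gradInner 𝓜 g φ w y) := by
    intro y hy
    have dφ := hφ.diffAt hy
    have dξ := hξ.diffAt hy
    have dw := hw.diffAt hy
    have d1 : 𝓜.DiffAt (fun y => φ y ^ 2) y := (hφ.pow 2).diffAt hy
    have d2 : 𝓜.DiffAt (fun y => Real.exp (ξ y)) y := hξ.exp.diffAt hy
    have d3 : 𝓜.DiffAt (fun y => φ y ^ 2 * Real.exp (ξ y)) y := ((hφ.pow 2).mul hξ.exp).diffAt hy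
    have d4 : 𝓜.DiffAt (fun y => deriv β (w y)) y := CMfd.DiffAt.comp hy (hβ'd _) dw
    have e1 := gradInner_mul_left g hy d3 d4 w
    have e2 := gradInner_comp_left g hy (hβ'd (w y)) dw w
    have e3 := gradInner_mul_left g hy d1 d2 w
    have e4 := gradInner_comp_left g hy (Real.differentiableAt_exp (x := ξ y)) dξ w
    have e5 := gradInner_comp_left g hy ((differentiable_pow 2).differentiableAt (x := φ y)) dφ w
    rw [Real.deriv_exp] at e4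
    have e6 : deriv (fun t : ℝ => t ^ 2) (φ y) = 2 * φ y := by simp
    rw [e6] at e5
    rw [hψ, e1, e2, e3, e4, e5, gradInner_self]
    ring
  calc ∫ y, φ y ^ 2 * Real.exp (ξ y) * (ξt y * β (w y) + deriv β (w y) * wt y) ∂(hvol 𝓜 g)
      ≤ ∫ y, (T1 y + ψ y * lap 𝓜 g w y) ∂(hvol 𝓜 g) := by
        refine integral_hvol_mono I_L (I_T1.add I_l) fun y hy => ?_
        have := mul_le_mul_of_nonneg_left (hwl y hy) (hψ0 y hy)
        simp only [hT1, hψ] at this ⊢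
        nlinarith
    _ = ∫ y, (T1 y - gradInner 𝓜 g ψ w y) ∂(hvol 𝓜 g) := by
        rw [integral_add I_T1 I_l, integral_sub I_T1 I_g, green]
        ring
    _ ≤ ∫ y, 4 * A * (φ y * ((max (w y) 0) ^ 2 * Real.exp (D y))) ∂(hvol 𝓜 g) := by
        refine integral_hvol_mono (I_T1.sub I_g) (I_R.const_mul _) fun y hy => ?_
        rw [hgrad y hy]
        have hb := hβ1 (w y)
        have k := ly_kl_pointwise (φ := φ y) hb.1 (hβ3 (w y)) (hβ4 (w y)) (gradSq_nonneg hm w hy)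
          (gradSq_nonneg hm ξ hy) (gradSq_nonneg hm φ hy) (gradInner_sq_le hm hy ξ w)
          (gradInner_sq_le hm hy φ w)
        have he : 0 < Real.exp (ξ y) := Real.exp_pos _
        have heD : Real.exp (ξ y) ≤ Real.exp (D y) := Real.exp_le_exp.2 (hξD y hy)
        have h1 : φ y ^ 2 * β (w y) * (ξt y + gradSq 𝓜 g ξ y) ≤ 0 :=
          mul_nonpos_of_nonneg_of_nonpos (mul_nonneg (sq_nonneg _) hb.1) (hξi y hy)
        have h2 : β (w y) * gradSq 𝓜 g φ y ≤ (max (w y) 0) ^ 2 * (A * φ y) :=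
          mul_le_mul hb.2 (hφg y hy) (gradSq_nonneg hm φ hy) (sq_nonneg _)
        have h3 : φ y ^ 2 * (ξt y * β (w y)) - (φ y ^ 2 * deriv (deriv β) (w y) * gradSq 𝓜 g w y
            + deriv β (w y) * φ y ^ 2 * gradInner 𝓜 g ξ w y
            + 2 * deriv β (w y) * φ y * gradInner 𝓜 g φ w y) ≤ 4 * ((max (w y) 0) ^ 2 * (A * φ y)) := by
          nlinarith
        have h4 : 0 ≤ 4 * ((max (w y) 0) ^ 2 * (A * φ y)) :=
          mul_nonneg (by norm_num) (mul_nonneg (sq_nonneg _) (mul_nonneg hA (hφ0 y hy)))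
        calc T1 y - Real.exp (ξ y) * (φ y ^ 2 * deriv (deriv β) (w y) * gradSq 𝓜 g w y
              + deriv β (w y) * φ y ^ 2 * gradInner 𝓜 g ξ w y
              + 2 * deriv β (w y) * φ y * gradInner 𝓜 g φ w y)
            = Real.exp (ξ y) * (φ y ^ 2 * (ξt y * β (w y))
              - (φ y ^ 2 * deriv (deriv β) (w y) * gradSq 𝓜 g w y
              + deriv β (w y) * φ y ^ 2 * gradInner 𝓜 g ξ w y
              + 2 * deriv β (w y) * φ y * gradInner 𝓜 g φ w y)) := by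
              simp only [hT1]
              ring
          _ ≤ Real.exp (ξ y) * (4 * ((max (w y) 0) ^ 2 * (A * φ y))) := mul_le_mul_of_nonneg_left h3 he.le
          _ ≤ Real.exp (D y) * (4 * ((max (w y) 0) ^ 2 * (A * φ y))) := mul_le_mul_of_nonneg_right heD h4
          _ = 4 * A * (φ y * ((max (w y) 0) ^ 2 * Real.exp (D y))) := by ring
    _ = 4 * A * ∫ y, φ y * ((max (w y) 0) ^ 2 * Real.exp (D y)) ∂(hvol 𝓜 g) := integral_const_mul _ _

/-- the Karp-Li exponent `ξ s y = - (ρ y + 2) / (2 (2η - s))`. -/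
noncomputable def klXi (ρ : V → ℝ) (η s : ℝ) (y : V) : ℝ := -((2 * (2 * η - s))⁻¹ * (ρ y + 2))

/-- its time derivative. -/
noncomputable def klXit (ρ : V → ℝ) (η s : ℝ) (y : V) : ℝ := -(2 * ((2 * (2 * η - s))⁻¹) ^ 2 * (ρ y + 2))

theorem kl_hasDerivAt_xi (ρ : V → ℝ) {η s : ℝ} (hs : s < 2 * η) (y : V) :
    HasDerivAt (fun σ => klXi ρ η σ y) (klXit ρ η s y) s := by
  have hne : 2 * (2 * η - s) ≠ 0 := by
    have : 0 < 2 * η - s := by linarith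
    positivity
  have h1 : HasDerivAt (fun σ : ℝ => 2 * (2 * η - σ)) (2 * (0 - 1)) s :=
    ((hasDerivAt_const s (2 * η)).sub (hasDerivAt_id' s)).const_mul 2
  have h2 := ((h1.inv hne).mul_const (ρ y + 2)).neg
  unfold klXi klXit
  refine h2.congr_deriv ?_
  field_simp
  ring

theorem kl_xi_le {ρ : V → ℝ} {η c s d : ℝ} {y : V} (hη : 0 < η) (hc : 0 < c) (hηc : 4 * c * η ≤ 1)
    (hs : s ∈ Set.Icc 0 η) (hρ : |ρ y - d ^ 2| ≤ 1) : klXi ρ η s y ≤ -(c * d ^ 2) := by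
  have hpos : 0 < 2 * (2 * η - s) := by
    have := hs.2
    linarith
  have h1 := (abs_le.1 hρ).1
  unfold klXi
  rw [neg_le_neg_iff, ← div_eq_inv_mul, le_div_iff₀ hpos]
  have h2 : 0 ≤ c * d ^ 2 := by positivity
  have h3 : 2 * (2 * η - s) ≤ 4 * η := by
    have := hs.1
    linarith
  calc c * d ^ 2 * (2 * (2 * η - s)) ≤ c * d ^ 2 * (4 * η) := mul_le_mul_of_nonneg_left h3 h2
    _ = (4 * c * η) * d ^ 2 := by ring
    _ ≤ 1 * d ^ 2 := mul_le_mul_of_nonneg_right hηc (sq_nonneg d)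
    _ ≤ ρ y + 2 := by linarith

theorem kl_smooth_xi {ρ : V → ℝ} (hρ : 𝓜.Smooth ρ) (η s : ℝ) : 𝓜.Smooth (klXi ρ η s) :=
  ((hρ.add_const 2).const_mul _).neg

theorem kl_xi_ineq (hm : IsMetric 𝓜 g) {ρ : V → ℝ} (hρ : 𝓜.Smooth ρ) {η s d : ℝ} {y : V}
    (hy : y ∈ 𝓜.carrier) (hρd : |ρ y - d ^ 2| ≤ 1) (hρg : gradSq 𝓜 g ρ y ≤ (d + 1) ^ 2) :
    klXit ρ η s y + gradSq 𝓜 g (klXi ρ η s) y ≤ 0 := by
  set a : ℝ := (2 * (2 * η - s))⁻¹ with ha
  have e1 : gradSq 𝓜 g (klXi ρ η s) y = a ^ 2 * gradSq 𝓜 g ρ y := by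
    have h1 : klXi ρ η s = fun y => -(a * (ρ y + 2)) := rfl
    rw [h1, gradSq_neg, gradSq_const_mul g a ((hρ.add_const 2).diffAt hy), gradSq_add_const]
  have h1 := (abs_le.1 hρd).1
  rw [e1]
  unfold klXit
  rw [← ha]
  have h2 : gradSq 𝓜 g ρ y ≤ 2 * (ρ y + 2) := by nlinarith [sq_nonneg (d - 1)]
  nlinarith [mul_le_mul_of_nonneg_left h2 (sq_nonneg a)]

theorem kl_continuousOn_snd {f : V → ℝ} (hf : ContinuousOn f 𝓜.carrier) (I : Set ℝ) :
    ContinuousOn (fun p : ℝ × V => f p.2) (I ×ˢ 𝓜.carrier) :=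
  hf.comp continuousOn_snd fun _ hp => hp.2

theorem kl_continuousOn_inv {η : ℝ} (hη : 0 < η) :
    ContinuousOn (fun p : ℝ × V => (2 * (2 * η - p.1))⁻¹) (Set.Icc 0 η ×ˢ 𝓜.carrier) := by
  refine ContinuousOn.inv₀ (by fun_prop) fun p hp => ?_
  have := hp.1.2
  have h : 0 < 2 * η - p.1 := by linarith
  positivity

theorem kl_continuousOn_xi {ρ : V → ℝ} (hρ : 𝓜.Smooth ρ) {η : ℝ} (hη : 0 < η) :
    ContinuousOn (fun p : ℝ × V => klXi ρ η p.1 p.2) (Set.Icc 0 η ×ˢ 𝓜.carrier) :=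
  ((kl_continuousOn_inv hη).mul ((kl_continuousOn_snd hρ.continuousOn _).add continuousOn_const)).neg

theorem kl_continuousOn_xit {ρ : V → ℝ} (hρ : 𝓜.Smooth ρ) {η : ℝ} (hη : 0 < η) :
    ContinuousOn (fun p : ℝ × V => klXit ρ η p.1 p.2) (Set.Icc 0 η ×ˢ 𝓜.carrier) :=
  ((continuousOn_const.mul ((kl_continuousOn_inv hη).pow 2)).mul
    ((kl_continuousOn_snd hρ.continuousOn _).add continuousOn_const)).neg

/-- the energy inequality in integrated form, for one cutoff. -/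
theorem kl_energy_le (S : AnaSetting 𝓜 g) {o : V} {β : ℝ → ℝ}
    (hβ : ContDiff ℝ 2 β) (hβ0 : ∀ s, s ≤ 0 → β s = 0) (hβ1 : ∀ s, 0 ≤ β s ∧ β s ≤ (max s 0) ^ 2)
    (hβ2 : ∀ s, 0 ≤ deriv β s) (hβ3 : ∀ s, 0 ≤ deriv (deriv β) s)
    (hβ4 : ∀ s, deriv β s ^ 2 ≤ 2 * β s * deriv (deriv β) s)
    {η c : ℝ} (hη : 0 < η) (hc : 0 < c) (hηc : 4 * c * η ≤ 1)
    {ρ : V → ℝ} (hρ : 𝓜.Smooth ρ) (hρd : ∀ y ∈ 𝓜.carrier, |ρ y - hdist 𝓜 g o y ^ 2| ≤ 1)
    (hρg : ∀ y ∈ 𝓜.carrier, gradSq 𝓜 g ρ y ≤ (hdist 𝓜 g o y + 1) ^ 2)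
    {D : V → ℝ} (hD : ContinuousOn D 𝓜.carrier) (hDd : ∀ y ∈ 𝓜.carrier, D y = -(c * hdist 𝓜 g o y ^ 2))
    {φ : V → ℝ} {A : ℝ} (hA : 0 ≤ A) (hφ : 𝓜.Smooth φ) (hφc : 𝓜.CSupp φ)
    (hφ0 : ∀ y ∈ 𝓜.carrier, 0 ≤ φ y) (hφg : ∀ y ∈ 𝓜.carrier, gradSq 𝓜 g φ y ≤ A * φ y)
    {u : ℝ → V → ℝ} (hu : IsHeatSub 𝓜 g (Set.Ioc 0 η) u)
    (hcont : ContinuousOn (fun p : ℝ × V => u p.1 p.2) (Set.Icc 0 η ×ˢ 𝓜.carrier))
    (h0 : ∀ x ∈ 𝓜.carrier, u 0 x ≤ 0) {t : ℝ} (ht : t ∈ Set.Icc 0 η) :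
    ContinuousOn (fun s => ∫ y, φ y * ((max (u s y) 0) ^ 2 * Real.exp (D y)) ∂(hvol 𝓜 g)) (Set.Icc 0 η) ∧
    ∫ x, φ x ^ 2 * Real.exp (klXi ρ η t x) * β (u t x) ∂(hvol 𝓜 g)
      ≤ 4 * A * ∫ s in (0 : ℝ)..t, ∫ y, φ y * ((max (u s y) 0) ^ 2 * Real.exp (D y)) ∂(hvol 𝓜 g) := by
  have hm : IsMetric 𝓜 g := S.kahler.toIsMetric
  have hI : IsTimeDom (Set.Ioc 0 η) := isTimeDom_Ioc hη
  have hsub : Set.Ioc 0 η ⊆ Set.Icc 0 η := Set.Ioc_subset_Icc_self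
  have hsubP : Set.Ioc 0 η ×ˢ 𝓜.carrier ⊆ Set.Icc 0 η ×ˢ 𝓜.carrier := Set.prod_mono hsub subset_rfl
  have hβd : Differentiable ℝ β := hβ.differentiable (by norm_num)
  have hβ' : ContDiff ℝ 1 (deriv β) := by
    have := hβ
    rw [show (2 : WithTop ℕ∞) = 1 + 1 by norm_num, contDiff_succ_iff_deriv] at this
    exact this.2.2
  set ut : ℝ → V → ℝ := fun s x => derivWithin (fun σ => u σ x) (Set.Ioc 0 η) s with hut
  have hutS : 𝓜.SmoothST (Set.Ioc 0 η) ut := hu.1.derivWithin hI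
  have hutd : ∀ s ∈ Set.Ioc 0 η, ∀ x ∈ 𝓜.carrier, HasDerivWithinAt (fun σ => u σ x) (ut s x) (Set.Ioc 0 η) s :=
    fun s hs x hx => hu.1.hasDerivWithinAt hs hx
  have hutl : ∀ s ∈ Set.Ioc 0 η, ∀ x ∈ 𝓜.carrier, ut s x ≤ lap 𝓜 g (u s) x := by
    intro s hs x hx
    obtain ⟨a, h1, h2⟩ := hu.2 s hs x hx
    rw [(hI.uniqueDiffWithinAt hs).eq_deriv _ (hutd s hs x hx) h1]
    exact h2
  set G : ℝ → V → ℝ := fun s x => φ x ^ 2 * Real.exp (klXi ρ η s x) * β (u s x) with hG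
  set G' : ℝ → V → ℝ := fun s x => φ x ^ 2 * Real.exp (klXi ρ η s x)
    * (klXit ρ η s x * β (u s x) + deriv β (u s x) * ut s x) with hG'
  have cφ : ContinuousOn (fun p : ℝ × V => φ p.2) (Set.Icc 0 η ×ˢ 𝓜.carrier) :=
    kl_continuousOn_snd hφ.continuousOn _
  have cpre : ContinuousOn (fun p : ℝ × V => φ p.2 ^ 2 * Real.exp (klXi ρ η p.1 p.2))
      (Set.Icc 0 η ×ˢ 𝓜.carrier) :=
    (cφ.pow 2).mul (Real.continuous_exp.comp_continuousOn (kl_continuousOn_xi hρ hη))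
  have cβ : ContinuousOn (fun p : ℝ × V => β (u p.1 p.2)) (Set.Icc 0 η ×ˢ 𝓜.carrier) :=
    hβ.continuous.comp_continuousOn hcont
  have cβ' : ContinuousOn (fun p : ℝ × V => deriv β (u p.1 p.2)) (Set.Icc 0 η ×ˢ 𝓜.carrier) :=
    hβ'.continuous.comp_continuousOn hcont
  have cG : ContinuousOn (fun p : ℝ × V => G p.1 p.2) (Set.Icc 0 η ×ˢ 𝓜.carrier) := cpre.mul cβ
  have cG' : ContinuousOn (fun p : ℝ × V => G' p.1 p.2) (Set.Ioc 0 η ×ˢ 𝓜.carrier) :=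
    (cpre.mono hsubP).mul ((((kl_continuousOn_xit hρ hη).mul cβ).mono hsubP).add
      ((cβ'.mono hsubP).mul hutS.continuousOn))
  obtain ⟨K, hK, hKsub, hK0⟩ := hφc
  have hφc' : 𝓜.CSupp φ := ⟨K, hK, hKsub, hK0⟩
  have sG : 𝓜.CSuppST (Set.Icc 0 η) G := ⟨K, hK, hKsub, fun s _ x hx hxK => by
    simp only [hG, hK0 x hx hxK]; ring⟩
  have dG : ∀ s ∈ Set.Ioc 0 η, ∀ x ∈ 𝓜.carrier,
      HasDerivWithinAt (fun σ => G σ x) (G' s x) (Set.Ioc 0 η) s := by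
    intro s hs x hx
    have h1 : HasDerivWithinAt (fun σ => klXi ρ η σ x) (klXit ρ η s x) (Set.Ioc 0 η) s :=
      (kl_hasDerivAt_xi ρ (by linarith [hs.2]) x).hasDerivWithinAt
    have h2 := h1.exp
    have h3 : HasDerivWithinAt (fun σ => β (u σ x)) (deriv β (u s x) * ut s x) (Set.Ioc 0 η) s :=
      (hβd (u s x)).hasDerivAt.comp_hasDerivWithinAt s (hutd s hs x hx)
    have h4 := (h2.mul h3).const_mul (φ x ^ 2)
    have e : (fun σ => G σ x) = fun σ => φ x ^ 2 * (Real.exp (klXi ρ η σ x) * β (u σ x)) := by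
      funext σ
      simp only [hG]
      ring
    rw [e]
    refine h4.congr_deriv ?_
    simp only [hG']
    ring
  set E : ℝ → ℝ := fun s => ∫ x, G s x ∂(hvol 𝓜 g) with hE
  have cE : ContinuousOn E (Set.Icc 0 η) := continuousOn_integral_hvol hm cG sG
  have sG' : 𝓜.CSuppST (Set.Ioc 0 η) G := ⟨K, hK, hKsub, fun s _ x hx hxK => by
    simp only [hG, hK0 x hx hxK]; ring⟩
  have dE : ∀ s ∈ Set.Ioc 0 η, HasDerivWithinAt E (∫ x, G' s x ∂(hvol 𝓜 g)) (Set.Ioc 0 η) s := fun s hs =>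
    hasDerivWithinAt_integral_hvol hm Set.ordConnected_Ioc (cG.mono hsubP) cG' dG sG' hs
  set J : ℝ → ℝ := fun s => ∫ y, φ y * ((max (u s y) 0) ^ 2 * Real.exp (D y)) ∂(hvol 𝓜 g) with hJ
  have cJ : ContinuousOn J (Set.Icc 0 η) := by
    refine continuousOn_integral_hvol hm
      (G := fun s y => φ y * ((max (u s y) 0) ^ 2 * Real.exp (D y))) ?_
      ⟨K, hK, hKsub, fun s _ x hx hxK => by simp only [hK0 x hx hxK, zero_mul]⟩
    exact cφ.mul (((ContinuousOn.sup hcont continuousOn_const).pow 2).mul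
      (Real.continuous_exp.comp_continuousOn (kl_continuousOn_snd hD _)))
  refine ⟨cJ, ?_⟩
  set P : ℝ → ℝ := fun s => ∫ σ in (0 : ℝ)..s, J σ with hP
  have cP : ContinuousOn P (Set.Icc 0 η) := by
    have := intervalIntegral.continuousOn_primitive_interval (μ := volume) (f := J) (a := 0) (b := η)
      (by rw [Set.uIcc_of_le hη.le]; exact cJ.integrableOn_Icc)
    rwa [Set.uIcc_of_le hη.le] at this
  have key : ∀ s ∈ Set.Ioo 0 η,
      HasDerivAt (fun s => E s - 4 * A * P s) (∫ x, G' s x ∂(hvol 𝓜 g) - 4 * A * J s) s := by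
    intro s hs
    have h1 : HasDerivAt E (∫ x, G' s x ∂(hvol 𝓜 g)) s :=
      (dE s ⟨hs.1, hs.2.le⟩).hasDerivAt (Ioc_mem_nhds hs.1 hs.2)
    have h2 : HasDerivAt P (J s) s := by
      refine intervalIntegral.integral_hasDerivAt_right ?_ ?_ ?_
      · exact (cJ.mono (Set.uIcc_subset_Icc (Set.left_mem_Icc.2 hη.le) ⟨hs.1.le, hs.2.le⟩)).intervalIntegrable
      · exact (cJ.mono Set.Ioo_subset_Icc_self).stronglyMeasurableAtFilter isOpen_Ioo s hs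
      · exact cJ.continuousAt (Icc_mem_nhds hs.1 hs.2)
    exact h1.sub (h2.const_mul (4 * A))
  have anti : AntitoneOn (fun s => E s - 4 * A * P s) (Set.Icc 0 η) := by
    refine antitoneOn_of_deriv_nonpos (convex_Icc 0 η) (cE.sub (continuousOn_const.mul cP)) ?_ ?_
    · rw [interior_Icc]
      exact fun s hs => (key s hs).differentiableAt.differentiableWithinAt
    · rw [interior_Icc]
      intro s hs
      rw [(key s hs).deriv, sub_nonpos]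
      have hs' : s ∈ Set.Ioc 0 η := ⟨hs.1, hs.2.le⟩
      have hs'' : s ∈ Set.Icc 0 η := ⟨hs.1.le, hs.2.le⟩
      exact kl_space S hβ hβ1 hβ2 hβ3 hβ4 hA hφ hφc' hφ0 hφg (kl_smooth_xi hρ η s)
        (continuousOn_slice_space_of_joint (G := klXit ρ η) (kl_continuousOn_xit hρ hη) hs'')
        (fun y hy => kl_xi_ineq hm hρ hy (hρd y hy) (hρg y hy)) hD
        (fun y hy => by rw [hDd y hy]; exact kl_xi_le hη hc hηc hs'' (hρd y hy))
        (hu.1.smooth hs') (continuousOn_slice_space_of_joint hutS.continuousOn hs') (hutl s hs')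
  have h1 := anti (Set.left_mem_Icc.2 hη.le) ht ht.1
  have hE0 : E 0 = 0 := by
    have : ∫ x, G 0 x ∂(hvol 𝓜 g) = ∫ x, (0 : ℝ) ∂(hvol 𝓜 g) :=
      integral_hvol_congr fun x hx => by simp only [hG, hβ0 _ (h0 x hx), mul_zero]
    show ∫ x, G 0 x ∂(hvol 𝓜 g) = 0
    rw [this, integral_zero]
  have hP0 : P 0 = 0 := by simp [hP]
  simp only [hE0, hP0, mul_zero, sub_zero] at h1
  linarith


/-- Fubini: the time integral of the cut-off space integrals is at most the space-time integral. -/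
theorem kl_fubini (hm : IsMetric 𝓜 g) {η : ℝ} (hη : 0 < η) {F : ℝ → V → ℝ}
    (hF0 : ∀ s, ∀ y ∈ 𝓜.carrier, 0 ≤ F s y)
    (hint : IntegrableOn (fun p : ℝ × V => F p.1 p.2) (Set.Icc 0 η ×ˢ Set.univ) (volume.prod (hvol 𝓜 g)))
    {φ : V → ℝ} (hφ1 : ∀ y ∈ 𝓜.carrier, φ y ≤ 1)
    (hφi : ∀ s ∈ Set.Icc 0 η, Integrable (fun y => φ y * F s y) (hvol 𝓜 g))
    (cJ : ContinuousOn (fun s => ∫ y, φ y * F s y ∂(hvol 𝓜 g)) (Set.Icc 0 η)) :
    ∫ s in (0 : ℝ)..η, ∫ y, φ y * F s y ∂(hvol 𝓜 g)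
      ≤ ∫ p in Set.Icc 0 η ×ˢ Set.univ, F p.1 p.2 ∂(volume.prod (hvol 𝓜 g)) := by
  have := sigmaFinite_hvol hm
  have hint' : Integrable (fun p : ℝ × V => F p.1 p.2)
      ((volume.restrict (Set.Icc 0 η)).prod (hvol 𝓜 g)) := by
    have := hint
    unfold IntegrableOn at this
    rwa [← Measure.prod_restrict, Measure.restrict_univ] at this
  have e1 : ∫ p in Set.Icc 0 η ×ˢ Set.univ, F p.1 p.2 ∂(volume.prod (hvol 𝓜 g))
      = ∫ s in Set.Icc 0 η, ∫ y, F s y ∂(hvol 𝓜 g) := by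
    rw [← Measure.prod_restrict, Measure.restrict_univ, integral_prod _ hint']
  rw [e1, intervalIntegral.integral_of_le hη.le, ← integral_Icc_eq_integral_Ioc]
  refine integral_mono_ae cJ.integrableOn_Icc hint'.integral_prod_left ?_
  filter_upwards [hint'.prod_right_ae, ae_restrict_mem measurableSet_Icc] with s hs hsI
  refine integral_hvol_mono (hφi s hsI) hs fun y hy => ?_
  have := mul_le_mul_of_nonneg_right (hφ1 y hy) (hF0 s y hy)
  simpa using this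

/-- **the weighted energy inequality**: there are a positive continuous weight `W` on `[0,η] × M` and a constant `C` such that for all `R`
the energy on `B(o,R)` is at most `C I / R²`. -/
theorem ly_karp_li_energy (S : AnaSetting 𝓜 g) {o : V} (ho : o ∈ 𝓜.carrier) {β : ℝ → ℝ}
    (hβ : ContDiff ℝ 2 β) (hβ0 : ∀ s, s ≤ 0 → β s = 0) (hβ1 : ∀ s, 0 ≤ β s ∧ β s ≤ (max s 0) ^ 2)
    (hβ2 : ∀ s, 0 ≤ deriv β s) (hβ3 : ∀ s, 0 ≤ deriv (deriv β) s)
    (hβ4 : ∀ s, deriv β s ^ 2 ≤ 2 * β s * deriv (deriv β) s)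
    {η c : ℝ} (hη : 0 < η) (hc : 0 < c) (hηc : 4 * c * η ≤ 1) :
    ∃ (W : ℝ → V → ℝ) (C : ℝ), (∀ t ∈ Set.Icc 0 η, ∀ x ∈ 𝓜.carrier, 0 < W t x) ∧
      (∀ t ∈ Set.Icc 0 η, ContinuousOn (W t) 𝓜.carrier) ∧
      ∀ u : ℝ → V → ℝ, IsHeatSub 𝓜 g (Set.Ioc 0 η) u →
        ContinuousOn (fun p : ℝ × V => u p.1 p.2) (Set.Icc 0 η ×ˢ 𝓜.carrier) →
        IntegrableOn (fun p : ℝ × V => (max (u p.1 p.2) 0) ^ 2 * Real.exp (-(c * hdist 𝓜 g o p.2 ^ 2)))
          (Set.Icc 0 η ×ˢ Set.univ) (volume.prod (hvol 𝓜 g)) →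
        (∀ x ∈ 𝓜.carrier, u 0 x ≤ 0) →
        ∀ R : ℝ, 0 < R → ∀ t ∈ Set.Icc 0 η,
          ∫ x in hball 𝓜 g o R, W t x * β (u t x) ∂(hvol 𝓜 g) ≤
            C / R ^ 2 * ∫ p in Set.Icc 0 η ×ˢ Set.univ,
              (max (u p.1 p.2) 0) ^ 2 * Real.exp (-(c * hdist 𝓜 g o p.2 ^ 2))
                ∂(volume.prod (hvol 𝓜 g)) := by
  have hm : IsMetric 𝓜 g := S.kahler.toIsMetric
  obtain ⟨ρ, hρ, hρd, -, hρg, -⟩ := ly_exists_rho S ho (ε := 1) one_pos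
  obtain ⟨C₀, hC₀, hcut⟩ := ly_cutoff S
  refine ⟨fun t x => Real.exp (klXi ρ η t x), 4 * C₀, fun t _ x _ => Real.exp_pos _,
    fun t _ => Real.continuous_exp.comp_continuousOn (kl_smooth_xi hρ η t).continuousOn, ?_⟩
  intro u hu hcont hint h0 R hR t ht
  obtain ⟨φ, hφ, hφ01, hφ1, hφ0, hφg, -⟩ := hcut o ho R hR
  have hφc : 𝓜.CSupp φ := ly_csupp_of_eq_zero S ho hφ0
  have hA : 0 ≤ C₀ / R ^ 2 := by positivity
  set D : V → ℝ := fun y => -(c * hdist 𝓜 g o y ^ 2) with hD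
  have cD : ContinuousOn D 𝓜.carrier :=
    (continuousOn_const.mul ((continuousOn_hdist_right hm S.conn ho).pow 2)).neg
  obtain ⟨cJ, hE⟩ := kl_energy_le S hβ hβ0 hβ1 hβ2 hβ3 hβ4 hη hc hηc hρ hρd hρg cD (fun y _ => rfl)
    hA hφ hφc (fun y hy => (hφ01 y hy).1) hφg hu hcont h0 ht
  have cu : ∀ s ∈ Set.Icc 0 η, ContinuousOn (u s) 𝓜.carrier := fun s hs =>
    continuousOn_slice_space_of_joint hcont hs
  have hJ0 : ∀ s, 0 ≤ ∫ y, φ y * ((max (u s y) 0) ^ 2 * Real.exp (D y)) ∂(hvol 𝓜 g) := fun s =>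
    integral_hvol_nonneg fun y hy => mul_nonneg (hφ01 y hy).1 (by positivity)
  have hfub := kl_fubini hm hη (F := fun s y => (max (u s y) 0) ^ 2 * Real.exp (D y))
    (fun s y _ => by positivity) hint (fun y hy => (hφ01 y hy).2)
    (fun s hs => integrable_hvol_of_csupp hm
      (hφ.continuousOn.mul ((((cu s hs).sup continuousOn_const).pow 2).mul
        (Real.continuous_exp.comp_continuousOn cD))) (hφc.mul_right _)) cJ
  have hmono : ∫ s in (0 : ℝ)..t, ∫ y, φ y * ((max (u s y) 0) ^ 2 * Real.exp (D y)) ∂(hvol 𝓜 g)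
      ≤ ∫ s in (0 : ℝ)..η, ∫ y, φ y * ((max (u s y) 0) ^ 2 * Real.exp (D y)) ∂(hvol 𝓜 g) := by
    refine intervalIntegral.integral_mono_interval le_rfl ht.1 ht.2
      (Filter.Eventually.of_forall fun s => hJ0 s) ?_
    exact ContinuousOn.intervalIntegrable (by rwa [Set.uIcc_of_le hη.le])
  have hbl : ∫ x in hball 𝓜 g o R, Real.exp (klXi ρ η t x) * β (u t x) ∂(hvol 𝓜 g)
      ≤ ∫ x, φ x ^ 2 * Real.exp (klXi ρ η t x) * β (u t x) ∂(hvol 𝓜 g) := by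
    have e : ∫ x in hball 𝓜 g o R, Real.exp (klXi ρ η t x) * β (u t x) ∂(hvol 𝓜 g)
        = ∫ x in hball 𝓜 g o R, φ x ^ 2 * Real.exp (klXi ρ η t x) * β (u t x) ∂(hvol 𝓜 g) :=
      setIntegral_congr_fun (measurableSet_hball hm S.conn o R) fun x hx => by
        simp only [hφ1 x hx]; ring
    rw [e]
    refine setIntegral_le_integral ?_ (ae_hvol_of_forall_mem fun x hx => ?_)
    · refine integrable_hvol_of_csupp hm (((hφ.continuousOn.pow 2).mul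
        (Real.continuous_exp.comp_continuousOn (kl_smooth_xi hρ η t).continuousOn)).mul
        (hβ.continuous.comp_continuousOn (cu t ht))) (((hφc.pow two_ne_zero).mul_right _).mul_right _)
    · exact mul_nonneg (by positivity) (hβ1 _).1
  calc ∫ x in hball 𝓜 g o R, Real.exp (klXi ρ η t x) * β (u t x) ∂(hvol 𝓜 g)
      ≤ 4 * (C₀ / R ^ 2) * ∫ s in (0 : ℝ)..t, ∫ y, φ y * ((max (u s y) 0) ^ 2 * Real.exp (D y)) ∂(hvol 𝓜 g) :=
        hbl.trans hE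
    _ ≤ 4 * (C₀ / R ^ 2) * ∫ p in Set.Icc 0 η ×ˢ Set.univ,
              (max (u p.1 p.2) 0) ^ 2 * Real.exp (-(c * hdist 𝓜 g o p.2 ^ 2))
                ∂(volume.prod (hvol 𝓜 g)) :=
        mul_le_mul_of_nonneg_left (hmono.trans hfub) (by positivity)
    _ = 4 * C₀ / R ^ 2 * ∫ p in Set.Icc 0 η ×ˢ Set.univ,
              (max (u p.1 p.2) 0) ^ 2 * Real.exp (-(c * hdist 𝓜 g o p.2 ^ 2))
                ∂(volume.prod (hvol 𝓜 g)) := by ring

/-- a continuous nonnegative function whose integral over a ball vanishes, vanishes on the ball. -/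
theorem kl_eq_zero_of_setIntegral (hm : IsMetric 𝓜 g) (hconn : IsConnected 𝓜.carrier) {o x : V}
    (ho : o ∈ 𝓜.carrier) {R : ℝ} (hx : x ∈ hball 𝓜 g o R) {f : V → ℝ}
    (hf : ContinuousOn f 𝓜.carrier) (h0 : ∀ y ∈ 𝓜.carrier, 0 ≤ f y)
    (hi : IntegrableOn f (hball 𝓜 g o R) (hvol 𝓜 g))
    (hz : ∫ y in hball 𝓜 g o R, f y ∂(hvol 𝓜 g) = 0) : f x = 0 := by
  by_contra hne
  have hB := measurableSet_hball hm hconn o R
  have h1 : f =ᵐ[(hvol 𝓜 g).restrict (hball 𝓜 g o R)] 0 :=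
    (setIntegral_eq_zero_iff_of_nonneg_ae (ae_restrict_of_ae (ae_hvol_of_forall_mem h0)) hi).1 hz
  have h2 : ∀ᵐ y ∂(hvol 𝓜 g), y ∈ hball 𝓜 g o R → f y = 0 := (ae_restrict_iff' hB).1 h1
  have h3 : {y | ¬ (y ∈ hball 𝓜 g o R → f y = 0)} ∈ 𝓝[𝓜.carrier] x := by
    have a1 : {y | hdist 𝓜 g o y < R} ∈ 𝓝[𝓜.carrier] x :=
      (continuousOn_hdist_right hm hconn ho x hx.1).tendsto (Iio_mem_nhds hx.2)
    have a2 : {y | f y ≠ 0} ∈ 𝓝[𝓜.carrier] x :=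
      (hf x hx.1).tendsto (isOpen_ne.mem_nhds hne)
    filter_upwards [a1, a2, self_mem_nhdsWithin] with y b1 b2 b3
    intro hcon
    exact b2 (hcon ⟨b3, b1⟩)
  exact (hvol_pos_of_mem_nhdsWithin hm hx.1 h3).ne' (ae_iff.1 h2)

/-- one time step of length `η ≤ 1/(4c)`. -/
theorem ly_karp_li_step (S : AnaSetting 𝓜 g) {o : V} (ho : o ∈ 𝓜.carrier) {η c : ℝ} (hη : 0 < η)
    (hc : 0 < c) (hηc : 4 * c * η ≤ 1) {u : ℝ → V → ℝ} (hu : IsHeatSub 𝓜 g (Set.Ioc 0 η) u)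
    (hcont : ContinuousOn (fun p : ℝ × V => u p.1 p.2) (Set.Icc 0 η ×ˢ 𝓜.carrier))
    (hint : IntegrableOn
      (fun p : ℝ × V => (max (u p.1 p.2) 0) ^ 2 * Real.exp (-(c * hdist 𝓜 g o p.2 ^ 2)))
      (Set.Icc 0 η ×ˢ Set.univ) (volume.prod (hvol 𝓜 g)))
    (h0 : ∀ x ∈ 𝓜.carrier, u 0 x ≤ 0) : ∀ t ∈ Set.Icc 0 η, ∀ x ∈ 𝓜.carrier, u t x ≤ 0 := by
  have hm : IsMetric 𝓜 g := S.kahler.toIsMetric
  obtain ⟨β, hβ, hβ0, hβ1, hβp, hβ2, hβ3, hβ4⟩ := ly_exists_beta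
  obtain ⟨W, C, hW, cW, hE⟩ := ly_karp_li_energy S ho hβ hβ0 hβ1 hβ2 hβ3 hβ4 hη hc hηc
  intro t ht x hx
  by_contra hcon
  have hpos : 0 < u t x := not_le.1 hcon
  set I : ℝ := ∫ p in Set.Icc 0 η ×ˢ Set.univ,
    (max (u p.1 p.2) 0) ^ 2 * Real.exp (-(c * hdist 𝓜 g o p.2 ^ 2)) ∂(volume.prod (hvol 𝓜 g)) with hI
  set f : V → ℝ := fun y => W t y * β (u t y) with hf
  have cf : ContinuousOn f 𝓜.carrier :=
    (cW t ht).mul (hβ.continuous.comp_continuousOn (continuousOn_slice_space_of_joint hcont ht))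
  have f0 : ∀ y ∈ 𝓜.carrier, 0 ≤ f y := fun y hy => mul_nonneg (hW t ht y hy).le (hβ1 _).1
  have fi : ∀ R : ℝ, IntegrableOn f (hball 𝓜 g o R) (hvol 𝓜 g) := fun R =>
    (integrableOn_hvol_of_continuousOn hm (S.proper o ho R) (hcball_subset_carrier _ _ _ _)
      (cf.mono (hcball_subset_carrier _ _ _ _))).mono_set (hball_subset_hcball _ _ _ _)
  set R₀ : ℝ := hdist 𝓜 g o x + 1 with hR₀
  have hR₀pos : 0 < R₀ := by
    have := hdist_nonneg 𝓜 g o x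
    linarith
  have hxB : x ∈ hball 𝓜 g o R₀ := ⟨hx, by linarith⟩
  have hle : ∀ R : ℝ, R₀ ≤ R → ∫ y in hball 𝓜 g o R₀, f y ∂(hvol 𝓜 g) ≤ C / R ^ 2 * I := by
    intro R hR
    refine le_trans ?_ (hE u hu hcont hint h0 R (hR₀pos.trans_le hR) t ht)
    refine setIntegral_mono_set (fi R) (ae_restrict_of_ae (ae_hvol_of_forall_mem f0)) ?_
    exact Filter.Eventually.of_forall fun y hy => ⟨hy.1, hy.2.trans_le hR⟩
  have hlim : Tendsto (fun R : ℝ => C / R ^ 2 * I) atTop (𝓝 0) := by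
    have := (tendsto_const_nhds (x := C)).div_atTop (tendsto_pow_atTop (α := ℝ) two_ne_zero)
    simpa using this.mul_const I
  have hz : ∫ y in hball 𝓜 g o R₀, f y ∂(hvol 𝓜 g) = 0 := by
    refine le_antisymm ?_ (setIntegral_nonneg (measurableSet_hball hm S.conn o R₀)
      fun y hy => f0 y hy.1)
    refine ge_of_tendsto hlim ?_
    filter_upwards [eventually_ge_atTop R₀] with R hR using hle R hR
  have := kl_eq_zero_of_setIntegral hm S.conn ho hxB cf f0 (fi R₀) hz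
  exact (mul_pos (hW t ht x hx) (hβp _ hpos)).ne' this

/-- time translation of a subsolution. -/
theorem kl_isHeatSub_shift {T a η : ℝ} (ha : 0 ≤ a) (haη : a + η ≤ T) {u : ℝ → V → ℝ}
    (hu : IsHeatSub 𝓜 g (Set.Ioc 0 T) u) : IsHeatSub 𝓜 g (Set.Ioc 0 η) (fun s x => u (s + a) x) := by
  have hmaps : Set.MapsTo (fun s : ℝ => s + a) (Set.Ioc 0 η) (Set.Ioc 0 T) :=
    fun s hs => ⟨by linarith [hs.1], by linarith [hs.2]⟩
  refine ⟨hu.1.comp_time (a := fun s : ℝ => s + a) (contDiff_id.add contDiff_const).contDiffOn hmaps,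
    fun s hs x hx => ?_⟩
  obtain ⟨ut, h1, h2⟩ := hu.2 (s + a) (hmaps hs) x hx
  refine ⟨ut, ?_, h2⟩
  have h3 : HasDerivWithinAt (fun s' : ℝ => s' + a) 1 (Set.Ioc 0 η) s :=
    ((hasDerivAt_id s).add_const a).hasDerivWithinAt
  have := h1.comp s h3 hmaps
  rw [mul_one] at this
  exact this

theorem kl_continuousOn_shift {T a η : ℝ} (ha : 0 ≤ a) (haη : a + η ≤ T) {u : ℝ → V → ℝ}
    (hc : ContinuousOn (fun p : ℝ × V => u p.1 p.2) (Set.Icc 0 T ×ˢ 𝓜.carrier)) :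
    ContinuousOn (fun p : ℝ × V => u (p.1 + a) p.2) (Set.Icc 0 η ×ˢ 𝓜.carrier) :=
  hc.comp (f := fun p : ℝ × V => (p.1 + a, p.2)) (by fun_prop)
    fun p hp => ⟨⟨by linarith [hp.1.1], by linarith [hp.1.2]⟩, hp.2⟩

theorem kl_integrableOn_shift (hm : IsMetric 𝓜 g) {T a η : ℝ} (ha : 0 ≤ a) (haη : a + η ≤ T)
    {F : ℝ × V → ℝ} (hF : IntegrableOn F (Set.Icc 0 T ×ˢ Set.univ) (volume.prod (hvol 𝓜 g))) :
    IntegrableOn (fun p : ℝ × V => F (p.1 + a, p.2)) (Set.Icc 0 η ×ˢ Set.univ)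
      (volume.prod (hvol 𝓜 g)) := by
  have := sigmaFinite_hvol hm
  have mp : MeasurePreserving (Prod.map (fun s : ℝ => s + a) (id : V → V))
      (volume.prod (hvol 𝓜 g)) (volume.prod (hvol 𝓜 g)) :=
    (measurePreserving_add_right volume a).prod (MeasurePreserving.id _)
  have me : MeasurableEmbedding (Prod.map (fun s : ℝ => s + a) (id : V → V)) :=
    (measurableEmbedding_addRight a).prodMap MeasurableEmbedding.id
  refine ((mp.integrableOn_comp_preimage me).2 hF).mono_set fun p hp => ?_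
  exact ⟨⟨by have := hp.1.1; simp only [Prod.map_fst]; linarith,
    by have := hp.1.2; simp only [Prod.map_fst]; linarith⟩, trivial⟩

theorem kl_integrableOn_of_le (hm : IsMetric 𝓜 g) (hconn : IsConnected 𝓜.carrier) (o : V)
    {c c' : ℝ} (hcc : c ≤ c') {s : Set (ℝ × V)} {w : ℝ × V → ℝ}
    (h : IntegrableOn (fun p : ℝ × V => w p * Real.exp (-(c * hdist 𝓜 g o p.2 ^ 2))) s
      (volume.prod (hvol 𝓜 g))) :
    IntegrableOn (fun p : ℝ × V => w p * Real.exp (-(c' * hdist 𝓜 g o p.2 ^ 2))) s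
      (volume.prod (hvol 𝓜 g)) := by
  have e : (fun p : ℝ × V => w p * Real.exp (-(c' * hdist 𝓜 g o p.2 ^ 2)))
      = fun p => (w p * Real.exp (-(c * hdist 𝓜 g o p.2 ^ 2)))
        * Real.exp (-((c' - c) * hdist 𝓜 g o p.2 ^ 2)) := by
    funext p
    rw [mul_assoc, ← Real.exp_add]
    congr 2
    ring
  rw [e]
  refine Integrable.mul_bdd (c := 1) h ?_ (Filter.Eventually.of_forall fun p => ?_)
  · have hmeas : Measurable fun p : ℝ × V => Real.exp (-((c' - c) * hdist 𝓜 g o p.2 ^ 2)) :=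
      Real.measurable_exp.comp
        ((((measurable_hdist_right hm hconn o).comp measurable_snd).pow_const 2).const_mul _).neg
    exact hmeas.aestronglyMeasurable
  · rw [Real.norm_eq_abs, abs_of_pos (Real.exp_pos _), Real.exp_le_one_iff, neg_nonpos]
    exact mul_nonneg (sub_nonneg.2 hcc) (sq_nonneg _)

/-- **Karp-Li** (= `karp_li` of `Base/Heat/Api.lean`). -/
theorem ly_karp_li (S : AnaSetting 𝓜 g) {o : V} (ho : o ∈ 𝓜.carrier) {T : ℝ} (hT : 0 < T)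
    {u : ℝ → V → ℝ} (hu : IsHeatSub 𝓜 g (Set.Ioc 0 T) u)
    (hc : ContinuousOn (fun p : ℝ × V => u p.1 p.2) (Set.Icc 0 T ×ˢ 𝓜.carrier))
    (hint : ∃ c : ℝ, IntegrableOn
      (fun p : ℝ × V => (max (u p.1 p.2) 0) ^ 2 * Real.exp (-(c * hdist 𝓜 g o p.2 ^ 2)))
      (Set.Icc 0 T ×ˢ Set.univ) (volume.prod (hvol 𝓜 g)))
    (h0 : ∀ x ∈ 𝓜.carrier, u 0 x ≤ 0) : ∀ t ∈ Set.Icc 0 T, ∀ x ∈ 𝓜.carrier, u t x ≤ 0 := by
  have hm : IsMetric 𝓜 g := S.kahler.toIsMetric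
  obtain ⟨c₀, hc₀⟩ := hint
  set c : ℝ := max c₀ 1 with hcdef
  have hcpos : 0 < c := lt_of_lt_of_le one_pos (le_max_right _ _)
  have hintc : IntegrableOn
      (fun p : ℝ × V => (max (u p.1 p.2) 0) ^ 2 * Real.exp (-(c * hdist 𝓜 g o p.2 ^ 2)))
      (Set.Icc 0 T ×ˢ Set.univ) (volume.prod (hvol 𝓜 g)) :=
    kl_integrableOn_of_le hm S.conn o (le_max_left _ _) (w := fun p => (max (u p.1 p.2) 0) ^ 2) hc₀
  obtain ⟨N, hN⟩ := exists_nat_gt (4 * c * T)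
  have hNpos : (0 : ℝ) < N := lt_trans (by positivity) hN
  set η : ℝ := T / N with hηdef
  have hη : 0 < η := div_pos hT hNpos
  have hNη : (N : ℝ) * η = T := by
    rw [hηdef]
    field_simp
  have hηc : 4 * c * η ≤ 1 := by
    rw [hηdef, ← mul_div_assoc, div_le_one hNpos]
    exact hN.le
  have key : ∀ k : ℕ, k ≤ N → ∀ t ∈ Set.Icc 0 ((k : ℝ) * η), ∀ x ∈ 𝓜.carrier, u t x ≤ 0 := by
    intro k
    induction k with
    | zero =>
      intro _ t ht x hx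
      have : t = 0 := by
        have h1 := ht.1
        have h2 := ht.2
        simp only [Nat.cast_zero, zero_mul] at h2
        exact le_antisymm h2 h1
      rw [this]
      exact h0 x hx
    | succ k ih =>
      intro hk t ht x hx
      have ihk := ih (Nat.le_of_succ_le hk)
      set a : ℝ := (k : ℝ) * η with hadef
      have ha : 0 ≤ a := by positivity
      have haη : a + η ≤ T := by
        have h1 : ((k + 1 : ℕ) : ℝ) ≤ N := by exact_mod_cast hk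
        have h2 := mul_le_mul_of_nonneg_right h1 hη.le
        rw [hNη] at h2
        push_cast at h2
        rw [hadef]
        linarith
      rcases le_total t a with hta | hta
      · exact ihk t ⟨ht.1, hta⟩ x hx
      · have hstep := ly_karp_li_step S ho hη hcpos hηc (kl_isHeatSub_shift ha haη hu)
          (kl_continuousOn_shift ha haη hc) (kl_integrableOn_shift hm ha haη hintc)
          (fun y hy => by
            show u (0 + a) y ≤ 0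
            rw [zero_add]
            exact ihk a ⟨ha, le_rfl⟩ y hy)
          (t - a) ⟨by linarith, by
            have := ht.2
            push_cast at this
            rw [hadef]
            linarith⟩ x hx
        simpa using hstep
  intro t ht
  exact key N le_rfl t (by rwa [hNη])

end Claimed.Agent.R316
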