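import Claimed.Agent.R316.Base.LiYau.Evol

/-!
# Row 316, `BP-G9`, file 7: local Bernstein estimates     (leaves `G9-BERN-A` (`ly_bernstein`), `G9-BERN-B` (`ly_bernstein_lap`, `ly_bernstein_iter`))

Sub-captain: helper201.  Statements are frozen.  PROVED (helper141): both leaves complete.

Notation: `I = Icc a t₀`, `a = t₀ - R²`, `q = |∂u|²`, `B = bochD (u t) ≥ 0`, `C₀` the constant of `ly_cutoff`, `φ` the cutoff for `(x₀, R/4)` (so `φ = 0` for `d ≥ R/2`, `φ x₀ = 1`,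
`|∂φ|² ≤ (16C₀/R²) φ`, `Δφ ≥ - 16C₀/R²`), `θ s = (s - a)/R² ∈ [0,1]`, `ψ s y = θ s φ y`.

* `ly_bernstein`.  `G = ψ q + K (u² - A²)`, `K = (2 + 48 C₀)/R²`.  `ly_heatOp_mul`, `ly_heatOp_gradSq`, `ly_heatOp_sq`, `ly_heatOp_time`, `ly_heatOp_space`:
  `heatOp G = q (φ/R² - θ Δφ) - ψ B - 2 θ ⟨∂φ,∂q⟩ - 2 K q`.   By `abs_gradInner_le`, `ly_kato`: `2θ|⟨∂φ,∂q⟩| ≤ 2θ √(|∂φ|²) √(2 q B) ≤ ψ B + 2 θ q |∂φ|²/φ` where `φ > 0`
  (`2xy ≤ x² + y²`, `x = √(ψ B)`, `y = √(2 θ q |∂φ|²/φ)`).  So `heatOp G ≤ q (1 + 16C₀ + 32C₀)/R² - 2 K q ≤ - 3 q/R²`.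
  `ly_exists_max` with the compact set `hcball x₀ (R/2) ⊆ hball x₀ R` and `O` from `ly_exists_ball_pair` (radius `R/2`): at `s = a` and where `d = R/2` we have `ψ = 0`, so `G = K (u² - A²) ≤ 0`.
  At an interior maximum with `G > 0`: `φ > 0` (else `G = K(u² - A²) ≤ 0`), `0 ≤ heatOp G ≤ - 3q/R²`, so `q = 0` and `G = K (u² - A²) ≤ 0`: contradiction.  Hence `G ≤ 0`; at `(t₀,x₀)`: `q ≤ K A²`.
* `ly_bernstein_lap`.  `n = 0`: `ly_dim_zero`.  Step 1: `ly_bernstein` at every centre `x ∈ B(x₀,R/2)`, top time `t ∈ [t₀ - R²/4, t₀]`, radius `R/2` (`hball_subset_hball`, `ly_heatSol_mono`):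
  `q ≤ Q := 4 C₁ A²/R²` there.  Step 2: `v = Δu` is a solution (`ly_heatSol_lap`), on `Icc (t₀ - R²/4) t₀ × B(x₀,R/2)`: `G = ψ v² + K (q - Q)`,
  `heatOp G = v² (ψ_t - θΔφ) - 2ψ|∂v|² - 4 θ v ⟨∂φ,∂v⟩ - K B`, `4θ|v⟨∂φ,∂v⟩| ≤ 2ψ|∂v|² + 2θ v²|∂φ|²/φ`, `B ≥ v²/n` (`ly_bochner_lap`): `heatOp G ≤ v² (c₁/R² - K/n) < 0` unless `v = 0`, `K = n (c₁ + 1)/R²`.
  As before `G ≤ 0`: `v² ≤ K Q` at `(t₀,x₀)`.
* `ly_bernstein_iter`: induction on `j` with radii `R/2^j`: `Δ^j u` is a solution bounded by `C_j A/R^{2j}` on `B(x₀,R/2^j) × [t₀ - R²/4^j, t₀]` (apply `ly_bernstein_lap` at all centres/top times of the smaller cylinder).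
-/

set_option autoImplicit false
open scoped ContDiff ComplexOrder Topology
open MeasureTheory Filter

namespace Claimed.Agent.R316

variable {V : Type} [NormedAddCommGroup V] [NormedSpace ℝ V] [FiniteDimensional ℝ V]
  [MeasurableSpace V] [BorelSpace V]
variable {n : ℕ} {𝓜 : CMfd V (Fin n)} {g : HFam V (Fin n)}

/-- real algebra at the maximum point of the Bernstein function. -/
theorem bn_alg {θ φ p e hP Δφ m hZ κ δ r K : ℝ} (hθ0 : 0 ≤ θ) (hθ1 : θ ≤ 1) (hφ0 : 0 ≤ φ)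
    (hφ1 : φ ≤ 1) (hp : 0 ≤ p) (he : 0 ≤ e) (hκ : 0 ≤ κ) (hr : 0 < r) (hK : 0 ≤ K)
    (hKδ : K * δ = 2 * r + 3 * κ) (h1 : hP ≤ - e) (h2 : -κ ≤ Δφ) (h3 : m ^ 2 ≤ κ * φ * (2 * p * e))
    (h4 : hZ ≤ - (δ * p))
    (h : 0 ≤ θ * (φ * hP + p * (- Δφ) - 2 * m) + φ * p * r + K * hZ) : p = 0 := by
  have hm : -2 * m ≤ φ * e + 2 * κ * p := by
    have hB : 0 ≤ φ * e + 2 * κ * p := by positivity
    have hsq : (-2 * m) ^ 2 ≤ (φ * e + 2 * κ * p) ^ 2 := by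
      nlinarith [sq_nonneg (φ * e - 2 * κ * p)]
    exact (abs_le_of_sq_le_sq' hsq hB).2
  have a1 : φ * hP ≤ - (φ * e) := by nlinarith
  have a2 : p * (- Δφ) ≤ p * κ := by nlinarith
  have a3 : φ * hP + p * (- Δφ) - 2 * m ≤ 3 * κ * p := by linarith
  have a4 : θ * (φ * hP + p * (- Δφ) - 2 * m) ≤ 3 * κ * p := by
    have b1 : θ * (φ * hP + p * (- Δφ) - 2 * m) ≤ θ * (3 * κ * p) :=
      mul_le_mul_of_nonneg_left a3 hθ0
    have b2 : θ * (3 * κ * p) ≤ 1 * (3 * κ * p) :=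
      mul_le_mul_of_nonneg_right hθ1 (by positivity)
    linarith
  have a5 : φ * p * r ≤ p * r := by
    have : φ * (p * r) ≤ 1 * (p * r) := mul_le_mul_of_nonneg_right hφ1 (by positivity)
    linarith
  have a6 : K * hZ ≤ - ((2 * r + 3 * κ) * p) := by
    have : K * hZ ≤ K * (- (δ * p)) := mul_le_mul_of_nonneg_left h4 hK
    have e1 : K * (- (δ * p)) = - ((K * δ) * p) := by ring
    rw [e1, hKδ] at this
    exact this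
  have a7 : p * r ≤ 0 := by nlinarith
  have a8 : p ≤ 0 := by
    by_contra hh
    push Not at hh
    have : 0 < p * r := mul_pos hh hr
    linarith
  exact le_antisymm a8 hp

/-- **one Bernstein step**: `(∂_t - Δ) P ≤ - E`, `|∂P|² ≤ 2 P E`, `(∂_t - Δ) Z ≤ - δ P`, `Z ≤ M` on the
cylinder give `P ≤ C (M - Z)/(δ R²)` at the top centre. -/
theorem bn_step (S : AnaSetting 𝓜 g) : ∃ C : ℝ, 0 ≤ C ∧
    ∀ (x₀ : V) (t₀ R M δ : ℝ) (P Z E : ℝ → V → ℝ), x₀ ∈ 𝓜.carrier → 0 < R → 0 < δ →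
    𝓜.SmoothST (Set.Icc (t₀ - R ^ 2) t₀) P → 𝓜.SmoothST (Set.Icc (t₀ - R ^ 2) t₀) Z →
    (∀ t ∈ Set.Icc (t₀ - R ^ 2) t₀, ∀ y ∈ 𝓜.carrier, 0 ≤ P t y) →
    (∀ t ∈ Set.Icc (t₀ - R ^ 2) t₀, ∀ y ∈ 𝓜.carrier, 0 ≤ E t y) →
    (∀ t ∈ Set.Icc (t₀ - R ^ 2) t₀, ∀ y ∈ 𝓜.carrier,
      heatOp 𝓜 g (Set.Icc (t₀ - R ^ 2) t₀) P t y ≤ - E t y) →
    (∀ t ∈ Set.Icc (t₀ - R ^ 2) t₀, ∀ y ∈ 𝓜.carrier, gradSq 𝓜 g (P t) y ≤ 2 * P t y * E t y) →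
    (∀ t ∈ Set.Icc (t₀ - R ^ 2) t₀, ∀ y ∈ 𝓜.carrier,
      heatOp 𝓜 g (Set.Icc (t₀ - R ^ 2) t₀) Z t y ≤ - (δ * P t y)) →
    (∀ t ∈ Set.Icc (t₀ - R ^ 2) t₀, ∀ y ∈ hball 𝓜 g x₀ R, Z t y ≤ M) →
    P t₀ x₀ ≤ C / (δ * R ^ 2) * (M - Z t₀ x₀) := by
  obtain ⟨C₀, hC₀, hcut⟩ := ly_cutoff S
  refine ⟨2 + 48 * C₀, by positivity,
    fun x₀ t₀ R M δ P Z E hx₀ hR hδ hPs hZs hP0 hE0 hPh hPg hZh hZM => ?_⟩
  have hg : IsMetric 𝓜 g := S.kahler.toIsMetric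
  set a : ℝ := t₀ - R ^ 2 with ha
  have hR2 : 0 < R ^ 2 := by positivity
  have hab : a < t₀ := by simp only [ha]; linarith
  have hI : IsTimeDom (Set.Icc a t₀) := isTimeDom_Icc hab
  obtain ⟨φ, hφs, hφ01, hφ1, hφ0, hφg, hφl⟩ := hcut x₀ hx₀ (R / 4) (by positivity)
  set κ : ℝ := 16 * C₀ / R ^ 2 with hκ
  have hκe : C₀ / (R / 4) ^ 2 = κ := by
    rw [hκ]; field_simp; ring
  rw [hκe] at hφg hφl
  have hκ0 : 0 ≤ κ := by positivity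
  set r : ℝ := 1 / R ^ 2 with hr
  have hr0 : 0 < r := by positivity
  set K : ℝ := (2 + 48 * C₀) / (δ * R ^ 2) with hK
  have hK0 : 0 ≤ K := by positivity
  have hKδ : K * δ = 2 * r + 3 * κ := by
    rw [hK, hr, hκ]; field_simp; ring
  have hφST : 𝓜.SmoothST (Set.Icc a t₀) (fun _ => φ) := hφs.smoothST _
  set F₂ : ℝ → V → ℝ := fun s y => φ y * P s y with hF₂
  have hF₂s : 𝓜.SmoothST (Set.Icc a t₀) F₂ := hφST.mul hPs
  have htime : 𝓜.SmoothST (Set.Icc a t₀) (fun s (_ : V) => (s - a) * r) :=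
    CMfd.smoothST_of_time ((contDiff_id.sub contDiff_const).mul contDiff_const).contDiffOn
  set F₃ : ℝ → V → ℝ := fun s y => (s - a) * r * F₂ s y with hF₃
  have hF₃s : 𝓜.SmoothST (Set.Icc a t₀) F₃ := htime.mul hF₂s
  set G : ℝ → V → ℝ := fun s y => F₃ s y + K * Z s y + (- (K * M)) with hG
  have hKZs : 𝓜.SmoothST (Set.Icc a t₀) (fun s y => K * Z s y) := hZs.const_mul K
  have hGs : 𝓜.SmoothST (Set.Icc a t₀) G := (hF₃s.add hKZs).add_const _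
  obtain ⟨O, hO, hOe, hKc, hKM, hOK, hbdO⟩ := ly_exists_ball_pair S hx₀ (R / 2)
  have hsub : hcball 𝓜 g x₀ (R / 2) ⊆ hball 𝓜 g x₀ R := fun y hy => ⟨hy.1, by linarith [hy.2]⟩
  have hKZ : ∀ t ∈ Set.Icc a t₀, ∀ y ∈ hcball 𝓜 g x₀ (R / 2), K * Z t y + (- (K * M)) ≤ 0 := by
    intro t ht y hy
    have := mul_le_mul_of_nonneg_left (hZM t ht y (hsub hy)) hK0
    linarith
  have hx₀K : x₀ ∈ hcball 𝓜 g x₀ (R / 2) := ⟨hx₀, by rw [hdist_self hx₀]; positivity⟩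
  have htop : t₀ ∈ Set.Icc a t₀ := ⟨hab.le, le_rfl⟩
  have hfin : G t₀ x₀ ≤ 0 → P t₀ x₀ ≤ K * (M - Z t₀ x₀) := by
    intro h
    have h1 : φ x₀ = 1 := hφ1 x₀ (mem_hball_self hx₀ (by positivity))
    have h2 : (t₀ - a) * r = 1 := by
      rw [ha, hr]; field_simp; ring
    simp only [hG, hF₃, hF₂, h1, h2, one_mul] at h
    linarith
  apply hfin
  rcases ly_exists_max hg hab hGs hKc hKM hO hOK
    (fun t ht x hx hxO => by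
      have h1 : φ x = 0 := hφ0 x hx.1 (by rw [hbdO x hx hxO]; linarith)
      have h2 := hKZ t ht x hx
      simp only [hG, hF₃, hF₂, h1, zero_mul, mul_zero, zero_add]
      linarith)
    (fun x hx => by
      have h2 := hKZ a ⟨le_rfl, hab.le⟩ x hx
      simp only [hG, hF₃, sub_self, zero_mul, zero_add]
      linarith) with hcase | ⟨t₁, ht₁, x₁, hx₁, hGpos, -, hGt, hGlap, -⟩
  · exact hcase t₀ htop x₀ hx₀K
  · exfalso
    have ht₁I : t₁ ∈ Set.Icc a t₀ := ⟨ht₁.1.le, ht₁.2⟩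
    have hx₁M : x₁ ∈ 𝓜.carrier := hx₁.1
    have hx₁K : x₁ ∈ hcball 𝓜 g x₀ (R / 2) := hOK hx₁
    have hH0 : 0 ≤ heatOp 𝓜 g (Set.Icc a t₀) G t₁ x₁ := by
      rw [heatOp]; linarith
    have hHF₂ : heatOp 𝓜 g (Set.Icc a t₀) F₂ t₁ x₁ =
        φ x₁ * heatOp 𝓜 g (Set.Icc a t₀) P t₁ x₁ + P t₁ x₁ * (- lap 𝓜 g φ x₁)
          - 2 * gradInner 𝓜 g φ (P t₁) x₁ := by
      have h1 := ly_heatOp_mul hg hI hφST hPs ht₁I hx₁M
      rw [ly_heatOp_space] at h1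
      exact h1
    have hHF₃ : heatOp 𝓜 g (Set.Icc a t₀) F₃ t₁ x₁ =
        (t₁ - a) * r * heatOp 𝓜 g (Set.Icc a t₀) F₂ t₁ x₁ + φ x₁ * P t₁ x₁ * r := by
      have h1 := ly_heatOp_mul hg hI htime hF₂s ht₁I hx₁M
      have h2 : heatOp 𝓜 g (Set.Icc a t₀) (fun s (_ : V) => (s - a) * r) t₁ x₁ = r := by
        have h3 : HasDerivWithinAt (fun s : ℝ => (s - a) * r) (1 * r) (Set.Icc a t₀) t₁ :=
          (((hasDerivAt_id t₁).sub_const a).mul_const r).hasDerivWithinAt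
        rw [ly_heatOp_time hI ht₁I h3, one_mul]
      rw [h2, gradInner_const_left] at h1
      rw [hF₃, h1]
      ring
    have hHG : heatOp 𝓜 g (Set.Icc a t₀) G t₁ x₁ =
        heatOp 𝓜 g (Set.Icc a t₀) F₃ t₁ x₁ + K * heatOp 𝓜 g (Set.Icc a t₀) Z t₁ x₁ := by
      rw [hG, ly_heatOp_add_const, ly_heatOp_add hI hF₃s hKZs ht₁I hx₁M,
        ly_heatOp_const_mul hI K hZs ht₁I hx₁M]
    rw [hHG, hHF₃, hHF₂] at hH0
    have hθ0 : 0 ≤ (t₁ - a) * r := mul_nonneg (by linarith [ht₁.1]) hr0.le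
    have hθ1 : (t₁ - a) * r ≤ 1 := by
      have h1 : (t₁ - a) * r ≤ (t₀ - a) * r :=
        mul_le_mul_of_nonneg_right (by linarith [ht₁.2]) hr0.le
      have h2 : (t₀ - a) * r = 1 := by
        rw [ha, hr]; field_simp; ring
      linarith
    have hm : gradInner 𝓜 g φ (P t₁) x₁ ^ 2 ≤ κ * φ x₁ * (2 * P t₁ x₁ * E t₁ x₁) :=
      (gradInner_sq_le hg hx₁M φ (P t₁)).trans
        (mul_le_mul (hφg x₁ hx₁M) (hPg t₁ ht₁I x₁ hx₁M) (gradSq_nonneg hg _ hx₁M)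
          (mul_nonneg hκ0 (hφ01 x₁ hx₁M).1))
    have hp0 : P t₁ x₁ = 0 := bn_alg hθ0 hθ1 (hφ01 x₁ hx₁M).1 (hφ01 x₁ hx₁M).2 (hP0 t₁ ht₁I x₁ hx₁M)
      (hE0 t₁ ht₁I x₁ hx₁M) hκ0 hr0 hK0 hKδ (hPh t₁ ht₁I x₁ hx₁M) (hφl x₁ hx₁M) hm
      (hZh t₁ ht₁I x₁ hx₁M) hH0
    have h2 := hKZ t₁ ht₁I x₁ hx₁K
    simp only [hG, hF₃, hF₂, hp0, mul_zero, zero_add] at hGpos
    linarith

/-- **local Bernstein gradient estimate** (= `bernstein` of `Base/Heat/Api.lean`). -/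
theorem ly_bernstein (S : AnaSetting 𝓜 g) : ∃ C : ℝ, ∀ (x₀ : V) (t₀ R A : ℝ) (u : ℝ → V → ℝ),
    x₀ ∈ 𝓜.carrier → 0 < R → IsHeatSol 𝓜 g (Set.Icc (t₀ - R ^ 2) t₀) u →
    (∀ t ∈ Set.Icc (t₀ - R ^ 2) t₀, ∀ y ∈ hball 𝓜 g x₀ R, |u t y| ≤ A) →
    gradSq 𝓜 g (u t₀) x₀ ≤ C * A ^ 2 / R ^ 2 := by
  obtain ⟨C, hC, hstep⟩ := bn_step S
  refine ⟨C / 2, fun x₀ t₀ R A u hx₀ hR hu hA => ?_⟩
  have hg : IsMetric 𝓜 g := S.kahler.toIsMetric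
  have hR2 : 0 < R ^ 2 := by positivity
  have hab : t₀ - R ^ 2 < t₀ := by linarith
  have hI : IsTimeDom (Set.Icc (t₀ - R ^ 2) t₀) := isTimeDom_Icc hab
  have h1 := hstep x₀ t₀ R (A ^ 2) 2 (fun s => gradSq 𝓜 g (u s)) (fun s y => u s y ^ 2)
    (fun s => bochD 𝓜 g (u s)) hx₀ hR two_pos (smoothST_gradSq hI (isMetricST_const hg _) hu.1)
    (hu.1.pow 2) (fun t _ y hy => gradSq_nonneg hg _ hy)
    (fun t ht y hy => ly_bochD_nonneg S.kahler S.ric (hu.1.smooth ht) hy)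
    (fun t ht y hy => (ly_heatOp_gradSq hg hI hu ht hy).le)
    (fun t ht y hy => ly_kato S.kahler S.ric (hu.1.smooth ht) hy)
    (fun t ht y hy => (ly_heatOp_sq hI hu ht hy).le)
    (fun t ht y hy => by
      have := hA t ht y hy
      rw [← sq_abs]
      exact pow_le_pow_left₀ (abs_nonneg _) this 2)
  refine h1.trans ?_
  have h2 : C / (2 * R ^ 2) * (A ^ 2 - u t₀ x₀ ^ 2) ≤ C / (2 * R ^ 2) * A ^ 2 :=
    mul_le_mul_of_nonneg_left (by nlinarith [sq_nonneg (u t₀ x₀)]) (by positivity)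
  refine h2.trans (le_of_eq ?_)
  field_simp

/-- the half cylinder with any top point `(t,y)` of the half cylinder of `(t₀,x₀)` lies in the cylinder. -/
theorem bn_half_cyl (S : AnaSetting 𝓜 g) {x₀ y : V} {t₀ t R A : ℝ} {u : ℝ → V → ℝ}
    (hx₀ : x₀ ∈ 𝓜.carrier) (hu : IsHeatSol 𝓜 g (Set.Icc (t₀ - R ^ 2) t₀) u)
    (hA : ∀ t ∈ Set.Icc (t₀ - R ^ 2) t₀, ∀ y ∈ hball 𝓜 g x₀ R, |u t y| ≤ A)
    (ht : t ∈ Set.Icc (t₀ - (R / 2) ^ 2) t₀) (hy : y ∈ hball 𝓜 g x₀ (R / 2)) :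
    IsHeatSol 𝓜 g (Set.Icc (t - (R / 2) ^ 2) t) u ∧
      ∀ s ∈ Set.Icc (t - (R / 2) ^ 2) t, ∀ z ∈ hball 𝓜 g y (R / 2), |u s z| ≤ A := by
  have hg : IsMetric 𝓜 g := S.kahler.toIsMetric
  have hsub : Set.Icc (t - (R / 2) ^ 2) t ⊆ Set.Icc (t₀ - R ^ 2) t₀ := by
    intro s hs
    refine ⟨?_, hs.2.trans ht.2⟩
    have h1 := hs.1
    have h2 := ht.1
    nlinarith [sq_nonneg R]
  have hball : hball 𝓜 g y (R / 2) ⊆ hball 𝓜 g x₀ R :=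
    hball_subset_hball hg S.conn hy.1 hx₀ (by
      rw [hdist_comm hg y x₀]
      linarith [hy.2])
  exact ⟨ly_heatSol_mono hu hsub, fun s hs z hz => hA s (hsub hs) z (hball hz)⟩

/-- time derivative version (= `bernstein_lap` of `Base/Heat/Api.lean`). -/
theorem ly_bernstein_lap (S : AnaSetting 𝓜 g) : ∃ C : ℝ, ∀ (x₀ : V) (t₀ R A : ℝ) (u : ℝ → V → ℝ),
    x₀ ∈ 𝓜.carrier → 0 < R → IsHeatSol 𝓜 g (Set.Icc (t₀ - R ^ 2) t₀) u →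
    (∀ t ∈ Set.Icc (t₀ - R ^ 2) t₀, ∀ y ∈ hball 𝓜 g x₀ R, |u t y| ≤ A) →
    |lap 𝓜 g (u t₀) x₀| ≤ C * A / R ^ 2 := by
  obtain ⟨C₁, hbern⟩ := ly_bernstein S
  obtain ⟨C, hC, hstep⟩ := bn_step S
  refine ⟨Real.sqrt (16 * C * max C₁ 0 * n), fun x₀ t₀ R A u hx₀ hR hu hA => ?_⟩
  have hg : IsMetric 𝓜 g := S.kahler.toIsMetric
  have hR2 : 0 < R ^ 2 := by positivity
  have hA0 : 0 ≤ A := (abs_nonneg _).trans
    (hA t₀ ⟨by linarith, le_rfl⟩ x₀ (mem_hball_self hx₀ hR))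
  rcases Nat.eq_zero_or_pos n with hn | hn
  · subst hn
    have h0 : lap 𝓜 g (u t₀) x₀ = 0 := by simp [lap, tr, CMfd.scal, trF]
    rw [h0, abs_zero]
    positivity
  have hnR : (0 : ℝ) < n := by exact_mod_cast hn
  have hRh : 0 < R / 2 := by positivity
  have hab : t₀ - (R / 2) ^ 2 < t₀ := by
    have : 0 < (R / 2) ^ 2 := by positivity
    linarith
  have hI : IsTimeDom (Set.Icc (t₀ - (R / 2) ^ 2) t₀) := isTimeDom_Icc hab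
  have hsub : Set.Icc (t₀ - (R / 2) ^ 2) t₀ ⊆ Set.Icc (t₀ - R ^ 2) t₀ := by
    intro s hs
    refine ⟨?_, hs.2⟩
    have h1 := hs.1
    nlinarith [sq_nonneg R]
  have hu' : IsHeatSol 𝓜 g (Set.Icc (t₀ - (R / 2) ^ 2) t₀) u := ly_heatSol_mono hu hsub
  have hv : IsHeatSol 𝓜 g (Set.Icc (t₀ - (R / 2) ^ 2) t₀) (fun t => lap 𝓜 g (u t)) :=
    ly_heatSol_lap hg hI hu'
  set Q : ℝ := max C₁ 0 * A ^ 2 / (R / 2) ^ 2 with hQ
  have hstep1 : ∀ t ∈ Set.Icc (t₀ - (R / 2) ^ 2) t₀, ∀ y ∈ hball 𝓜 g x₀ (R / 2),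
      gradSq 𝓜 g (u t) y ≤ Q := by
    intro t ht y hy
    obtain ⟨h1, h2⟩ := bn_half_cyl S hx₀ hu hA ht hy
    refine (hbern y t (R / 2) A u hy.1 hRh h1 h2).trans ?_
    rw [hQ]
    gcongr
    exact le_max_left _ _
  have h1 := hstep x₀ t₀ (R / 2) Q (1 / n) (fun s y => lap 𝓜 g (u s) y ^ 2)
    (fun s => gradSq 𝓜 g (u s)) (fun s y => 2 * gradSq 𝓜 g (lap 𝓜 g (u s)) y) hx₀ hRh
    (by positivity) (hv.1.pow 2) (smoothST_gradSq hI (isMetricST_const hg _) hu'.1)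
    (fun t _ y _ => sq_nonneg _)
    (fun t _ y hy => mul_nonneg two_pos.le (gradSq_nonneg hg _ hy))
    (fun t ht y hy => (ly_heatOp_sq hI hv ht hy).le)
    (fun t ht y hy => by
      have e1 := gradSq_comp (χ := fun s : ℝ => s ^ 2) g hy (by fun_prop)
        ((hv.1.smooth ht).diffAt hy)
      have e2 : deriv (fun s : ℝ => s ^ 2) (lap 𝓜 g (u t) y) = 2 * lap 𝓜 g (u t) y := by simp
      rw [e2] at e1
      show gradSq 𝓜 g (fun y => lap 𝓜 g (u t) y ^ 2) y ≤ _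
      rw [e1]
      exact le_of_eq (by ring))
    (fun t ht y hy => by
      rw [ly_heatOp_gradSq hg hI hu' ht hy, neg_le_neg_iff]
      have := ly_bochner_lap S.kahler S.ric (hu'.1.smooth ht) hy
      rw [one_div, inv_mul_le_iff₀ hnR]
      exact this)
    hstep1
  have h2 : lap 𝓜 g (u t₀) x₀ ^ 2 ≤ (Real.sqrt (16 * C * max C₁ 0 * n) * A / R ^ 2) ^ 2 := by
    refine h1.trans ?_
    have hq : 0 ≤ gradSq 𝓜 g (u t₀) x₀ := gradSq_nonneg hg _ hx₀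
    have h3 : C / (1 / n * (R / 2) ^ 2) * (Q - gradSq 𝓜 g (u t₀) x₀) ≤
        C / (1 / n * (R / 2) ^ 2) * Q :=
      mul_le_mul_of_nonneg_left (by linarith) (by positivity)
    refine h3.trans (le_of_eq ?_)
    have hm : 0 ≤ max C₁ 0 := le_max_right _ _
    have e : (Real.sqrt (16 * C * max C₁ 0 * n) * A / R ^ 2) ^ 2 =
        16 * C * max C₁ 0 * n * A ^ 2 / (R ^ 2) ^ 2 := by
      rw [div_pow, mul_pow, Real.sq_sqrt (by positivity)]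
    rw [e, hQ]
    field_simp
    ring
  exact abs_le_of_sq_le_sq h2 (by positivity)

/-- iterated Laplacian. -/
noncomputable def lapIter (𝓜 : CMfd V (Fin n)) (g : HFam V (Fin n)) : ℕ → (V → ℝ) → V → ℝ
  | 0, u => u
  | j + 1, u => lap 𝓜 g (lapIter 𝓜 g j u)

theorem ly_heatSol_lapIter (hg : IsMetric 𝓜 g) {I : Set ℝ} (hI : IsTimeDom I) {u : ℝ → V → ℝ}
    (hu : IsHeatSol 𝓜 g I u) (j : ℕ) : IsHeatSol 𝓜 g I (fun t => lapIter 𝓜 g j (u t)) := by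
  induction j with
  | zero => exact hu
  | succ j ih => exact ly_heatSol_lap hg hI ih

/-- all time derivatives: `|Δ^j u| ≤ C_j A / R^{2j}` at the top centre of the cylinder. -/
theorem ly_bernstein_iter (S : AnaSetting 𝓜 g) (j : ℕ) : ∃ C : ℝ,
    ∀ (x₀ : V) (t₀ R A : ℝ) (u : ℝ → V → ℝ),
    x₀ ∈ 𝓜.carrier → 0 < R → IsHeatSol 𝓜 g (Set.Icc (t₀ - R ^ 2) t₀) u →
    (∀ t ∈ Set.Icc (t₀ - R ^ 2) t₀, ∀ y ∈ hball 𝓜 g x₀ R, |u t y| ≤ A) →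
    |lapIter 𝓜 g j (u t₀) x₀| ≤ C * A / R ^ (2 * j) := by
  induction j with
  | zero =>
    refine ⟨1, fun x₀ t₀ R A u hx₀ hR hu hA => ?_⟩
    have hR2 : 0 < R ^ 2 := by positivity
    have := hA t₀ ⟨by linarith, le_rfl⟩ x₀ (mem_hball_self hx₀ hR)
    simpa [lapIter] using this
  | succ j ih =>
    obtain ⟨Cj, hj⟩ := ih
    obtain ⟨C, hlap⟩ := ly_bernstein_lap S
    refine ⟨C * Cj * 2 ^ (2 * (j + 1)), fun x₀ t₀ R A u hx₀ hR hu hA => ?_⟩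
    have hg : IsMetric 𝓜 g := S.kahler.toIsMetric
    have hRh : 0 < R / 2 := by positivity
    have hab : t₀ - (R / 2) ^ 2 < t₀ := by
      have : 0 < (R / 2) ^ 2 := by positivity
      linarith
    have hI : IsTimeDom (Set.Icc (t₀ - (R / 2) ^ 2) t₀) := isTimeDom_Icc hab
    have hsub : Set.Icc (t₀ - (R / 2) ^ 2) t₀ ⊆ Set.Icc (t₀ - R ^ 2) t₀ := by
      intro s hs
      refine ⟨?_, hs.2⟩
      have h1 := hs.1
      nlinarith [sq_nonneg R]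
    have hv : IsHeatSol 𝓜 g (Set.Icc (t₀ - (R / 2) ^ 2) t₀) (fun t => lapIter 𝓜 g j (u t)) :=
      ly_heatSol_lapIter hg hI (ly_heatSol_mono hu hsub) j
    have h1 := hlap x₀ t₀ (R / 2) (Cj * A / (R / 2) ^ (2 * j)) (fun t => lapIter 𝓜 g j (u t)) hx₀ hRh
      hv (fun t ht y hy => by
        obtain ⟨a1, a2⟩ := bn_half_cyl S hx₀ hu hA ht hy
        exact hj y t (R / 2) A u hy.1 hRh a1 a2)
    refine h1.trans (le_of_eq ?_)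
    have e1 : 2 * (j + 1) = 2 * j + 2 := by ring
    rw [e1, div_pow, div_pow, pow_add, pow_add]
    field_simp

end Claimed.Agent.R316
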