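import Claimed.Agent.R316.Base.LiYau.Harnack
import Claimed.Agent.R316.Base.LiYau.Bernstein

/-!
# Row 316, `BP-G9`, file 9: the interface `G8 → G9` (`HeatCore`) and Duhamel's formula for test functions     (leaf `G9-DUH`)

Sub-captain: helper201.

`HeatCore 𝓜 g` is the COMPLETE list of facts about the kernel constructed in `BP-G8` that `BP-G9` uses.  No Davies-Gaffney, no minimality, no regularity of `P_t 1`; the `L²` theory enters only through `solL2` (used in `Reg.lean`).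

PLANS (`HC : HeatCore 𝓜 g`, `S : AnaSetting 𝓜 g`, `x ∈ M`, `t > 0`; write `k_τ y = HC.Hk τ y x = HC.Hk τ x y`: by `HC.smooth x`, `HC.heat` it is a smooth solution in `(τ,y)`, `τ > 0`).
* `ly_duhamel`.  `J s = ∫ k_{t-s}(y) F s y dy`, `s ∈ [0,t)`.  On `Icc 0 (t - δ)` the integrand is `SmoothST` (`SmoothST.comp_time`, `.mul`) and `CSuppST`, its time derivative is
  `- Δk_{t-s} · F s + k_{t-s} ∂_s F`; `hasDerivWithinAt_integral_hvol_of_smoothST` (`Base/Vol/Time.lean`) and Green II (`integral_mul_lap_comm`, `F s` test function):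
  `J' s = ∫ k_{t-s} (∂_s F - ΔF s) = E s`.  `E` is continuous on `[0,t)` (`continuousOn_integral_hvol`) and bounded by `sup |heatOp F|` (`HC.submarkov`, `HC.nonneg`), so interval integrable on `[0,t]`, and
  `J (t-δ) - J 0 = ∫_0^{t-δ} E` (`intervalIntegral.integral_eq_sub_of_hasDeriv_right`-type FTC).  `δ → 0`: `∫_0^{t-δ} E → ∫_0^t E` (continuity of the primitive);
  `J (t-δ) = ∫ Hk δ x y F (t-δ) y dy`, `|F (t-δ) y - F t y| ≤ L δ` uniformly (time derivative bounded on the compact support) and `∫ Hk ≤ 1`; `∫ Hk δ x y F t y dy → F t x` by `HC.test (F t)`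
  (continuity at `(0,x)` of a `SmoothST (Ici 0)` function along `δ ↓ 0`).
* `ly_P_le_of_super` / `ly_P_ge_of_sub`: `E s ≥ - κ ∫ Hk ≥ - κ` resp. `E s ≤ κ`; integrate.
-/

set_option autoImplicit false
open scoped ContDiff ComplexOrder Topology
open MeasureTheory Filter

namespace Claimed.Agent.R316

variable {V : Type} [NormedAddCommGroup V] [NormedSpace ℝ V] [MeasurableSpace V] [BorelSpace V]
variable {n : ℕ}

/-- **the output of `BP-G8`**: a symmetric nonnegative sub-Markov kernel solving the heat equation, acting on test functions smoothly up to `t = 0`. -/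
structure HeatCore (𝓜 : CMfd V (Fin n)) (g : HFam V (Fin n)) where
  /-- the kernel `H_t(x,y)` (TIME FIRST) -/
  Hk : ℝ → V → V → ℝ
  off : ∀ t x y, (x ∉ 𝓜.carrier ∨ y ∉ 𝓜.carrier) → Hk t x y = 0
  nonneg : ∀ t : ℝ, 0 < t → ∀ x y, 0 ≤ Hk t x y
  symm : ∀ t x y, Hk t x y = Hk t y x
  cont : ContinuousOn (fun p : ℝ × V × V => Hk p.1 p.2.1 p.2.2)
    (Set.Ioi 0 ×ˢ 𝓜.carrier ×ˢ 𝓜.carrier)
  integrable : ∀ t : ℝ, 0 < t → ∀ x ∈ 𝓜.carrier, Integrable (Hk t x) (hvol 𝓜 g)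
  submarkov : ∀ t : ℝ, 0 < t → ∀ x ∈ 𝓜.carrier, ∫ y, Hk t x y ∂(hvol 𝓜 g) ≤ 1
  semigroup : ∀ s t : ℝ, 0 < s → 0 < t → ∀ x ∈ 𝓜.carrier, ∀ y ∈ 𝓜.carrier,
    Integrable (fun z => Hk s x z * Hk t z y) (hvol 𝓜 g) ∧
    ∫ z, Hk s x z * Hk t z y ∂(hvol 𝓜 g) = Hk (s + t) x y
  smooth : ∀ y ∈ 𝓜.carrier, 𝓜.SmoothST (Set.Ioi 0) (fun t x => Hk t x y)
  heat : ∀ t : ℝ, 0 < t → ∀ x ∈ 𝓜.carrier, ∀ y ∈ 𝓜.carrier,
    HasDerivAt (fun s => Hk s x y) (lap 𝓜 g (fun x' => Hk t x' y) x) t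
  /-- `L²` data give smooth solutions -/
  solL2 : ∀ f : V → ℝ, MemLp f 2 (hvol 𝓜 g) →
    IsHeatSol 𝓜 g (Set.Ioi 0) (fun t x => ∫ y, Hk t x y * f y ∂(hvol 𝓜 g))
  /-- test functions: smooth up to `t = 0` -/
  test : ∀ f : V → ℝ, 𝓜.Smooth f → 𝓜.CSupp f →
    𝓜.SmoothST (Set.Ici 0) (fun t x => if t = 0 then f x else ∫ y, Hk t x y * f y ∂(hvol 𝓜 g))

namespace HeatCore

variable {𝓜 : CMfd V (Fin n)} {g : HFam V (Fin n)} (HC : HeatCore 𝓜 g)

/-- `P_t f (x) = ∫ H_t(x,y) f(y) dV_g(y)`. -/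
noncomputable def P (t : ℝ) (f : V → ℝ) (x : V) : ℝ := ∫ y, HC.Hk t x y * f y ∂(hvol 𝓜 g)

end HeatCore

variable [FiniteDimensional ℝ V]
variable {𝓜 : CMfd V (Fin n)} {g : HFam V (Fin n)} (HC : HeatCore 𝓜 g)

/-- the kernel with one argument fixed is a nonnegative heat solution. -/
theorem ly_isHeatSol_Hk {y : V} (hy : y ∈ 𝓜.carrier) :
    IsHeatSol 𝓜 g (Set.Ioi 0) (fun t x => HC.Hk t x y) :=
  ⟨HC.smooth y hy, fun t ht x hx => (HC.heat t ht x hx y hy).hasDerivWithinAt⟩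

/-- the same in the second space variable. -/
theorem ly_isHeatSol_Hk' {x : V} (hx : x ∈ 𝓜.carrier) :
    IsHeatSol 𝓜 g (Set.Ioi 0) (fun t y => HC.Hk t x y) := by
  have : (fun t y => HC.Hk t x y) = fun t y => HC.Hk t y x := by
    funext t y; exact HC.symm t x y
  rw [this]; exact ly_isHeatSol_Hk HC hx

/-- bounded measurable (here: continuous on the carrier) functions are integrable against the kernel. -/
theorem ly_integrable_Hk_mul (S : AnaSetting 𝓜 g) {t : ℝ} (ht : 0 < t) {x : V} (hx : x ∈ 𝓜.carrier)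
    {f : V → ℝ} (hf : ContinuousOn f 𝓜.carrier) {A : ℝ} (hA : ∀ y ∈ 𝓜.carrier, |f y| ≤ A) :
    Integrable (fun y => HC.Hk t x y * f y) (hvol 𝓜 g) ∧ |HC.P t f x| ≤ A := by
  have hA0 : 0 ≤ A := (abs_nonneg _).trans (hA x hx)
  have hi : Integrable (fun y => HC.Hk t x y * f y) (hvol 𝓜 g) :=
    (HC.integrable t ht x hx).mul_bdd (c := A) (aestronglyMeasurable_hvol_of_continuousOn hf)
      (ae_hvol_of_forall_mem fun y hy => by rw [Real.norm_eq_abs]; exact hA y hy)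
  refine ⟨hi, ?_⟩
  calc |HC.P t f x| ≤ ∫ y, |HC.Hk t x y * f y| ∂(hvol 𝓜 g) := abs_integral_le_integral_abs
    _ ≤ ∫ y, HC.Hk t x y * A ∂(hvol 𝓜 g) := by
        refine integral_hvol_mono hi.abs ((HC.integrable t ht x hx).mul_const A) (fun y hy => ?_)
        rw [abs_mul, abs_of_nonneg (HC.nonneg t ht x y)]
        exact mul_le_mul_of_nonneg_left (hA y hy) (HC.nonneg t ht x y)
    _ = (∫ y, HC.Hk t x y ∂(hvol 𝓜 g)) * A := integral_mul_const _ _
    _ ≤ 1 * A := mul_le_mul_of_nonneg_right (HC.submarkov t ht x hx) hA0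
    _ = A := one_mul A

/-- the heat operator of a smooth space-time function is smooth. -/
theorem ly_smoothST_heatOp (hg : IsMetric 𝓜 g) {I : Set ℝ} (hI : IsTimeDom I) {F : ℝ → V → ℝ}
    (hF : 𝓜.SmoothST I F) : 𝓜.SmoothST I (heatOp 𝓜 g I F) :=
  (hF.derivWithin hI).sub (smoothST_lap hI (isMetricST_const hg I) hF)

/-- the time derivative keeps the support. -/
theorem ly_csuppST_derivWithin {I : Set ℝ} {F : ℝ → V → ℝ} (hc : 𝓜.CSuppST I F) :
    𝓜.CSuppST I (fun t x => derivWithin (fun s => F s x) I t) := by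
  obtain ⟨K, hK, hsub, h0⟩ := hc
  refine ⟨K, hK, hsub, fun t ht x hx hxK => ?_⟩
  have h1 : derivWithin (fun s => F s x) I t = derivWithin (fun _ => (0 : ℝ)) I t :=
    derivWithin_congr (fun s hs => h0 s hs x hx hxK) (h0 t ht x hx hxK)
  show derivWithin (fun s => F s x) I t = 0
  rw [h1]; simp

/-- the heat operator keeps the support. -/
theorem ly_csuppST_heatOp {I : Set ℝ} {F : ℝ → V → ℝ} (hc : 𝓜.CSuppST I F) :
    𝓜.CSuppST I (heatOp 𝓜 g I F) := by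
  obtain ⟨K, hK, hsub, h0⟩ := hc
  refine ⟨K, hK, hsub, fun t ht x hx hxK => ?_⟩
  have h1 : derivWithin (fun s => F s x) I t = derivWithin (fun _ => (0 : ℝ)) I t :=
    derivWithin_congr (fun s hs => h0 s hs x hx hxK) (h0 t ht x hx hxK)
  rw [heatOp, h1, lap_eq_zero_of_notMem hK.isClosed (h0 t ht) g hx hxK]; simp

/-- continuous, uniformly compactly supported functions on a compact time interval are bounded. -/
theorem ly_exists_bound_ST {a b : ℝ} {G : ℝ → V → ℝ}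
    (hG : ContinuousOn (fun p : ℝ × V => G p.1 p.2) (Set.Icc a b ×ˢ 𝓜.carrier))
    (hc : 𝓜.CSuppST (Set.Icc a b) G) :
    ∃ B : ℝ, 0 ≤ B ∧ ∀ s ∈ Set.Icc a b, ∀ y ∈ 𝓜.carrier, |G s y| ≤ B := by
  obtain ⟨K, hK, hsub, h0⟩ := hc
  obtain ⟨C, hC⟩ := (isCompact_Icc.prod hK).exists_bound_of_continuousOn
    (hG.mono (Set.prod_mono le_rfl hsub))
  refine ⟨max C 0, le_max_right _ _, fun s hs y hy => ?_⟩
  by_cases hyK : y ∈ K
  · exact (hC (s, y) ⟨hs, hyK⟩).trans (le_max_left _ _)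
  · rw [h0 s hs y hy hyK, abs_zero]; exact le_max_right _ _

/-- uniform Lipschitz continuity in time. -/
theorem ly_lipschitz_time {a b : ℝ} (hab : a < b) {F : ℝ → V → ℝ} (hF : 𝓜.SmoothST (Set.Icc a b) F)
    (hc : 𝓜.CSuppST (Set.Icc a b) F) :
    ∃ L : ℝ, 0 ≤ L ∧ ∀ s ∈ Set.Icc a b, ∀ r ∈ Set.Icc a b, ∀ y ∈ 𝓜.carrier,
      |F s y - F r y| ≤ L * |s - r| := by
  obtain ⟨L, hL0, hL⟩ := ly_exists_bound_ST (hF.derivWithin (isTimeDom_Icc hab)).continuousOn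
    (ly_csuppST_derivWithin hc)
  refine ⟨L, hL0, fun s hs r hr y hy => ?_⟩
  have := Convex.norm_image_sub_le_of_norm_hasDerivWithin_le (f := fun s => F s y)
    (f' := fun s => derivWithin (fun s => F s y) (Set.Icc a b) s) (C := L) (s := Set.Icc a b)
    (fun q hq => hF.hasDerivWithinAt hq hy) (fun q hq => by rw [Real.norm_eq_abs]; exact hL q hq y hy)
    (convex_Icc a b) hr hs
  simpa [Real.norm_eq_abs] using this

/-- test functions: `P_τ f (x) → f x` as `τ ↓ 0`. -/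
theorem ly_tendsto_P_test {x : V} (hx : x ∈ 𝓜.carrier) {f : V → ℝ} (hf : 𝓜.Smooth f)
    (hc : 𝓜.CSupp f) : Tendsto (fun τ => HC.P τ f x) (𝓝[>] 0) (𝓝 (f x)) := by
  have h1 := (HC.test f hf hc).continuousOn
  have h2 : ContinuousWithinAt
      (fun p : ℝ × V => if p.1 = 0 then f p.2 else ∫ y, HC.Hk p.1 p.2 y * f y ∂(hvol 𝓜 g))
      (Set.Ici 0 ×ˢ 𝓜.carrier) (0, x) := h1 (0, x) ⟨Set.self_mem_Ici, hx⟩
  have h3 : Tendsto (fun τ : ℝ => ((τ, x) : ℝ × V)) (𝓝[>] 0) (𝓝[Set.Ici 0 ×ˢ 𝓜.carrier] (0, x)) := by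
    apply tendsto_nhdsWithin_of_tendsto_nhds_of_eventually_within
    · exact ((continuous_id.prodMk continuous_const).tendsto 0).mono_left nhdsWithin_le_nhds
    · filter_upwards [self_mem_nhdsWithin] with τ hτ
      exact ⟨le_of_lt (show (0:ℝ) < τ from hτ), hx⟩
  have h4 := h2.tendsto.comp h3
  simp only [if_true] at h4
  refine h4.congr' ?_
  filter_upwards [self_mem_nhdsWithin] with τ hτ
  have : τ ≠ 0 := ne_of_gt hτ
  simp [Function.comp, this, HeatCore.P]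

/-- the derivative of `s ↦ P_{t-s} F_s (x)` on `[0,t)`. -/
theorem ly_duhamel_deriv (S : AnaSetting 𝓜 g) {t : ℝ} (ht : 0 < t) {x : V} (hx : x ∈ 𝓜.carrier)
    {F : ℝ → V → ℝ} (hF : 𝓜.SmoothST (Set.Icc 0 t) F) (hc : 𝓜.CSuppST (Set.Icc 0 t) F) {s : ℝ}
    (hs : s ∈ Set.Ico 0 t) :
    HasDerivWithinAt (fun r => HC.P (t - r) (F r) x)
      (HC.P (t - s) (heatOp 𝓜 g (Set.Icc 0 t) F s) x) (Set.Ico 0 t) s := by
  have hg : IsMetric 𝓜 g := S.kahler.toIsMetric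
  have hI : IsTimeDom (Set.Icc 0 t) := isTimeDom_Icc ht
  have hJ : IsTimeDom (Set.Ico 0 t) := isTimeDom_Ico ht
  have hsub : Set.Ico 0 t ⊆ Set.Icc 0 t := Set.Ico_subset_Icc_self
  have hk := ly_isHeatSol_Hk' HC hx
  set kr : ℝ → V → ℝ := fun r y => HC.Hk (t - r) x y with hkr
  have hmaps : Set.MapsTo (fun r : ℝ => t - r) (Set.Ico 0 t) (Set.Ioi 0) := fun r hr => by
    simp only [Set.mem_Ioi]; linarith [hr.2]
  have hkrs : 𝓜.SmoothST (Set.Ico 0 t) kr :=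
    hk.1.comp_time (contDiff_const.sub contDiff_id).contDiffOn hmaps
  have hkrd : ∀ r ∈ Set.Ico 0 t, ∀ y ∈ 𝓜.carrier,
      HasDerivWithinAt (fun q => kr q y) (-(lap 𝓜 g (kr r) y)) (Set.Ico 0 t) r := by
    intro r hr y hy
    have h1 := hk.2 (t - r) (hmaps hr) y hy
    have h2 : HasDerivWithinAt (fun q : ℝ => t - q) (-1) (Set.Ico 0 t) r :=
      ((hasDerivAt_id r).const_sub t).hasDerivWithinAt
    have h3 := h1.comp r h2 hmaps
    simpa [Function.comp_def] using h3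
  set Ft : ℝ → V → ℝ := fun r y => derivWithin (fun q => F q y) (Set.Icc 0 t) r with hFt
  have hFts : 𝓜.SmoothST (Set.Ico 0 t) Ft := (hF.derivWithin hI).mono hsub
  have hFs : 𝓜.SmoothST (Set.Ico 0 t) F := hF.mono hsub
  have hcJ : 𝓜.CSuppST (Set.Ico 0 t) F := by
    obtain ⟨K, hK, hKs, h0⟩ := hc
    exact ⟨K, hK, hKs, fun r hr => h0 r (hsub hr)⟩
  have hder := hasDerivWithinAt_integral_hvol_of_smoothST (h := g) (I := Set.Ico 0 t)
    (G := fun r y => kr r y * F r y)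
    (G' := fun r y => -(lap 𝓜 g (kr r) y) * F r y + kr r y * Ft r y) hg Set.ordConnected_Ico
    (hkrs.mul hFs)
    (((smoothST_lap hJ (isMetricST_const hg _) hkrs).neg.mul hFs).add (hkrs.mul hFts))
    (fun r hr y hy => (hkrd r hr y hy).mul ((hF.hasDerivWithinAt (hsub hr) hy).mono hsub))
    (hcJ.mul_left kr) hs
  -- identify the derivative
  have hsI : s ∈ Set.Icc 0 t := hsub hs
  have hkS : 𝓜.Smooth (kr s) := hkrs.smooth hs
  have hFS : 𝓜.Smooth (F s) := hF.smooth hsI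
  have hFc : 𝓜.CSupp (F s) := hc.csupp hsI
  have hWs := (ly_smoothST_heatOp hg hI hF).smooth hsI
  have hWc : 𝓜.CSupp (heatOp 𝓜 g (Set.Icc 0 t) F s) := (ly_csuppST_heatOp hc).csupp hsI
  have i1 : Integrable (fun y => kr s y * heatOp 𝓜 g (Set.Icc 0 t) F s y) (hvol 𝓜 g) :=
    integrable_hvol_of_csupp hg (hkS.continuousOn.mul hWs.continuousOn) (hWc.mul_left _)
  have i2 : Integrable (fun y => kr s y * lap 𝓜 g (F s) y) (hvol 𝓜 g) :=
    integrable_mul_lap_of_csupp' hg hkS.continuousOn hFS hFc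
  have i3 : Integrable (fun y => F s y * lap 𝓜 g (kr s) y) (hvol 𝓜 g) :=
    integrable_mul_lap_of_csupp hg hFS.continuousOn hFc hkS
  have hval : ∫ y, (-(lap 𝓜 g (kr s) y) * F s y + kr s y * Ft s y) ∂(hvol 𝓜 g) =
      HC.P (t - s) (heatOp 𝓜 g (Set.Icc 0 t) F s) x := by
    have e1 : (fun y => -(lap 𝓜 g (kr s) y) * F s y + kr s y * Ft s y) =
        fun y => kr s y * heatOp 𝓜 g (Set.Icc 0 t) F s y
          + (kr s y * lap 𝓜 g (F s) y - F s y * lap 𝓜 g (kr s) y) := by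
      funext y; simp only [heatOp, hFt]; ring
    have i4 : Integrable (fun y => kr s y * lap 𝓜 g (F s) y - F s y * lap 𝓜 g (kr s) y)
        (hvol 𝓜 g) := i2.sub i3
    rw [e1, integral_add i1 i4, integral_sub i2 i3,
      integral_mul_lap_comm S.kahler hFS hFc hkS, sub_self, add_zero]
    rfl
  rw [hval] at hder
  exact hder

/-- `P_{t-r} F_r (x) → F_t (x)` as `r ↑ t`. -/
theorem ly_duhamel_tendsto (S : AnaSetting 𝓜 g) {t : ℝ} (ht : 0 < t) {x : V} (hx : x ∈ 𝓜.carrier)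
    {F : ℝ → V → ℝ} (hF : 𝓜.SmoothST (Set.Icc 0 t) F) (hc : 𝓜.CSuppST (Set.Icc 0 t) F) :
    Tendsto (fun r => HC.P (t - r) (F r) x) (𝓝[Set.Ico 0 t] t) (𝓝 (F t x)) := by
  obtain ⟨L, hL0, hL⟩ := ly_lipschitz_time ht hF hc
  have htI : t ∈ Set.Icc 0 t := ⟨ht.le, le_rfl⟩
  have hFt : 𝓜.Smooth (F t) := hF.smooth htI
  have hA : Tendsto (fun r => HC.P (t - r) (F t) x) (𝓝[Set.Ico 0 t] t) (𝓝 (F t x)) := by
    have h1 : Tendsto (fun r : ℝ => t - r) (𝓝[Set.Ico 0 t] t) (𝓝[>] 0) := by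
      apply tendsto_nhdsWithin_of_tendsto_nhds_of_eventually_within
      · have : Tendsto (fun r : ℝ => t - r) (𝓝 t) (𝓝 (t - t)) :=
          (continuous_const.sub continuous_id).tendsto t
        rw [sub_self] at this
        exact this.mono_left nhdsWithin_le_nhds
      · filter_upwards [self_mem_nhdsWithin] with r hr
        simp only [Set.mem_Ioi]; linarith [hr.2]
    exact (ly_tendsto_P_test HC hx hFt (hc.csupp htI)).comp h1
  have hR : Tendsto (fun r => HC.P (t - r) (fun y => F r y - F t y) x) (𝓝[Set.Ico 0 t] t) (𝓝 0) := by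
    apply squeeze_zero_norm' (a := fun r => L * |r - t|)
    · filter_upwards [self_mem_nhdsWithin] with r hr
      have hrI : r ∈ Set.Icc 0 t := Set.Ico_subset_Icc_self hr
      rw [Real.norm_eq_abs]
      exact (ly_integrable_Hk_mul HC S (by linarith [hr.2]) hx
        ((hF.smooth hrI).continuousOn.sub hFt.continuousOn) (fun y hy => hL r hrI t htI y hy)).2
    · have : Tendsto (fun r : ℝ => L * |r - t|) (𝓝 t) (𝓝 (L * |t - t|)) :=
        (continuous_const.mul (continuous_id.sub continuous_const).abs).tendsto t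
      rw [sub_self, abs_zero, mul_zero] at this
      exact this.mono_left nhdsWithin_le_nhds
  have hsum := hA.add hR
  rw [add_zero] at hsum
  refine hsum.congr' ?_
  filter_upwards [self_mem_nhdsWithin] with r hr
  have hrI : r ∈ Set.Icc 0 t := Set.Ico_subset_Icc_self hr
  have hpos : 0 < t - r := by linarith [hr.2]
  obtain ⟨B1, hB1⟩ := (hc.csupp htI).exists_bound hFt.continuousOn
  have i1 := (ly_integrable_Hk_mul HC S hpos hx hFt.continuousOn
    (fun y hy => by simpa [Real.norm_eq_abs] using hB1 y hy)).1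
  have i2 : Integrable (fun y => HC.Hk (t - r) x y * (F r y - F t y)) (hvol 𝓜 g) :=
    (ly_integrable_Hk_mul HC S hpos hx
      ((hF.smooth hrI).continuousOn.sub hFt.continuousOn) (fun y hy => hL r hrI t htI y hy)).1
  simp only [HeatCore.P]
  rw [← integral_add i1 i2]
  congr 1
  funext y
  ring

/-- **Duhamel's formula** for time dependent test functions. -/
theorem ly_duhamel (S : AnaSetting 𝓜 g) {t : ℝ} (ht : 0 < t) {x : V} (hx : x ∈ 𝓜.carrier)
    {F : ℝ → V → ℝ} (hF : 𝓜.SmoothST (Set.Icc 0 t) F) (hc : 𝓜.CSuppST (Set.Icc 0 t) F) :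
    IntervalIntegrable (fun s => HC.P (t - s) (heatOp 𝓜 g (Set.Icc 0 t) F s) x) volume 0 t ∧
    F t x - HC.P t (F 0) x = ∫ s in (0 : ℝ)..t, HC.P (t - s) (heatOp 𝓜 g (Set.Icc 0 t) F s) x := by
  have hg : IsMetric 𝓜 g := S.kahler.toIsMetric
  have hI : IsTimeDom (Set.Icc 0 t) := isTimeDom_Icc ht
  have hsub : Set.Ico 0 t ⊆ Set.Icc 0 t := Set.Ico_subset_Icc_self
  set W : ℝ → V → ℝ := heatOp 𝓜 g (Set.Icc 0 t) F with hW
  have hWs : 𝓜.SmoothST (Set.Icc 0 t) W := ly_smoothST_heatOp hg hI hF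
  have hWc : 𝓜.CSuppST (Set.Icc 0 t) W := ly_csuppST_heatOp hc
  obtain ⟨B, hB0, hB⟩ := ly_exists_bound_ST hWs.continuousOn hWc
  set E : ℝ → ℝ := fun s => HC.P (t - s) (W s) x with hE
  -- `E` is bounded and continuous on `[0,t)`
  have hEb : ∀ s ∈ Set.Ico 0 t, |E s| ≤ B := fun s hs =>
    (ly_integrable_Hk_mul HC S (by linarith [hs.2]) hx (hWs.smooth (hsub hs)).continuousOn
      (hB s (hsub hs))).2
  have hEc : ContinuousOn E (Set.Ico 0 t) := by
    have hk := ly_isHeatSol_Hk' HC hx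
    have hmaps : Set.MapsTo (fun r : ℝ => t - r) (Set.Ico 0 t) (Set.Ioi 0) := fun r hr => by
      simp only [Set.mem_Ioi]; linarith [hr.2]
    have hkrs : 𝓜.SmoothST (Set.Ico 0 t) (fun r y => HC.Hk (t - r) x y) :=
      hk.1.comp_time (contDiff_const.sub contDiff_id).contDiffOn hmaps
    have hcJ : 𝓜.CSuppST (Set.Ico 0 t) W := by
      obtain ⟨K, hK, hKs, h0⟩ := hWc
      exact ⟨K, hK, hKs, fun r hr => h0 r (hsub hr)⟩
    exact continuousOn_integral_hvol hg (hkrs.mul (hWs.mono hsub)).continuousOn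
      (hcJ.mul_left (fun r y => HC.Hk (t - r) x y))
  have hEi : IntervalIntegrable E volume 0 t := by
    rw [intervalIntegrable_iff_integrableOn_Ioo_of_le ht.le]
    refine ⟨(hEc.mono Set.Ioo_subset_Ico_self).aestronglyMeasurable measurableSet_Ioo,
      .restrict_of_bounded (C := B) (by simp) ?_⟩
    filter_upwards [ae_restrict_mem measurableSet_Ioo] with s hs
    rw [Real.norm_eq_abs]; exact hEb s (Set.Ioo_subset_Ico_self hs)
  refine ⟨hEi, ?_⟩
  -- the primitive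
  set J : ℝ → ℝ := fun s => if s < t then HC.P (t - s) (F s) x else F t x with hJ
  have hJeq : ∀ s, s < t → J s = HC.P (t - s) (F s) x := fun s hs => by simp [hJ, hs]
  have hJt : J t = F t x := by simp [hJ]
  have hJc : ContinuousOn J (Set.Icc 0 t) := by
    intro s hs
    rcases hs.2.lt_or_eq with hst | rfl
    · have hsJ : s ∈ Set.Ico 0 t := ⟨hs.1, hst⟩
      have h1 : ContinuousWithinAt (fun r => HC.P (t - r) (F r) x) (Set.Ico 0 t) s :=
        (ly_duhamel_deriv HC S ht hx hF hc hsJ).continuousWithinAt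
      have h2 : ContinuousWithinAt J (Set.Ico 0 t) s :=
        h1.congr (fun r hr => hJeq r hr.2) (hJeq s hst)
      have h3 : Set.Ico 0 t ∈ 𝓝[Set.Icc 0 t] s := by
        have : Set.Ico 0 t = Set.Icc 0 t ∩ Set.Iio t := by
          ext r; simp only [Set.mem_Ico, Set.mem_inter_iff, Set.mem_Icc, Set.mem_Iio]
          constructor
          · rintro ⟨a, b⟩; exact ⟨⟨a, b.le⟩, b⟩
          · rintro ⟨⟨a, -⟩, b⟩; exact ⟨a, b⟩
        rw [this]
        exact Filter.inter_mem self_mem_nhdsWithin (mem_nhdsWithin_of_mem_nhds (Iio_mem_nhds hst))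
      exact h2.mono_of_mem_nhdsWithin h3
    · rw [← Set.Ico_insert_right ht.le, continuousWithinAt_insert_self]
      have h1 := ly_duhamel_tendsto HC S ht hx hF hc
      show Tendsto J (𝓝[Set.Ico 0 s] s) (𝓝 (J s))
      rw [hJt]
      refine h1.congr' ?_
      filter_upwards [self_mem_nhdsWithin] with r hr
      exact (hJeq r hr.2).symm
  have hJd : ∀ s ∈ Set.Ioo 0 t, HasDerivWithinAt J (E s) (Set.Ioi s) s := by
    intro s hs
    have hsJ : s ∈ Set.Ico 0 t := Set.Ioo_subset_Ico_self hs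
    have h1 : HasDerivAt (fun r => HC.P (t - r) (F r) x) (E s) s :=
      (ly_duhamel_deriv HC S ht hx hF hc hsJ).hasDerivAt (Ico_mem_nhds hs.1 hs.2)
    have h2 : J =ᶠ[𝓝 s] fun r => HC.P (t - r) (F r) x := by
      filter_upwards [Iio_mem_nhds hs.2] with r hr using hJeq r hr
    exact (h1.congr_of_eventuallyEq h2).hasDerivWithinAt
  have hftc := intervalIntegral.integral_eq_sub_of_hasDeriv_right_of_le ht.le hJc hJd hEi
  rw [hftc, hJt, hJeq 0 ht, sub_zero]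

/-- monotonicity of `P_τ` against a constant, lower bound. -/
theorem ly_P_ge_const {τ : ℝ} (hτ : 0 < τ) {x : V} (hx : x ∈ 𝓜.carrier) {f : V → ℝ}
    (hi : Integrable (fun y => HC.Hk τ x y * f y) (hvol 𝓜 g)) {κ : ℝ} (hκ : 0 ≤ κ)
    (h : ∀ y ∈ 𝓜.carrier, -κ ≤ f y) : -κ ≤ HC.P τ f x := by
  calc -κ = 1 * (-κ) := by ring
    _ ≤ (∫ y, HC.Hk τ x y ∂(hvol 𝓜 g)) * (-κ) :=
        mul_le_mul_of_nonpos_right (HC.submarkov τ hτ x hx) (by linarith)
    _ = ∫ y, HC.Hk τ x y * (-κ) ∂(hvol 𝓜 g) := (integral_mul_const _ _).symm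
    _ ≤ HC.P τ f x := integral_hvol_mono ((HC.integrable τ hτ x hx).mul_const _) hi
        (fun y hy => mul_le_mul_of_nonneg_left (h y hy) (HC.nonneg τ hτ x y))

/-- monotonicity of `P_τ` against a constant, upper bound. -/
theorem ly_P_le_const {τ : ℝ} (hτ : 0 < τ) {x : V} (hx : x ∈ 𝓜.carrier) {f : V → ℝ}
    (hi : Integrable (fun y => HC.Hk τ x y * f y) (hvol 𝓜 g)) {κ : ℝ} (hκ : 0 ≤ κ)
    (h : ∀ y ∈ 𝓜.carrier, f y ≤ κ) : HC.P τ f x ≤ κ := by
  calc HC.P τ f x ≤ ∫ y, HC.Hk τ x y * κ ∂(hvol 𝓜 g) :=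
        integral_hvol_mono hi ((HC.integrable τ hτ x hx).mul_const _)
          (fun y hy => mul_le_mul_of_nonneg_left (h y hy) (HC.nonneg τ hτ x y))
    _ = (∫ y, HC.Hk τ x y ∂(hvol 𝓜 g)) * κ := integral_mul_const _ _
    _ ≤ 1 * κ := mul_le_mul_of_nonneg_right (HC.submarkov τ hτ x hx) hκ
    _ = κ := one_mul κ

/-- integrability of the kernel against the heat operator of a test function. -/
theorem ly_integrable_Hk_heatOp (S : AnaSetting 𝓜 g) {t : ℝ} (ht : 0 < t) {x : V}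
    (hx : x ∈ 𝓜.carrier) {F : ℝ → V → ℝ} (hF : 𝓜.SmoothST (Set.Icc 0 t) F)
    (hc : 𝓜.CSuppST (Set.Icc 0 t) F) {s τ : ℝ} (hs : s ∈ Set.Icc 0 t) (hτ : 0 < τ) :
    Integrable (fun y => HC.Hk τ x y * heatOp 𝓜 g (Set.Icc 0 t) F s y) (hvol 𝓜 g) := by
  have hg : IsMetric 𝓜 g := S.kahler.toIsMetric
  have hWs := ly_smoothST_heatOp hg (isTimeDom_Icc ht) hF
  obtain ⟨B, -, hB⟩ := ly_exists_bound_ST hWs.continuousOn (ly_csuppST_heatOp (g := g) hc)
  exact (ly_integrable_Hk_mul HC S hτ hx (hWs.smooth hs).continuousOn (hB s hs)).1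

/-- `(∂_t - Δ) F ≥ - κ ⟹ P_t F_0 ≤ F_t + κ t`. -/
theorem ly_P_le_of_super (S : AnaSetting 𝓜 g) {t : ℝ} (ht : 0 < t) {x : V} (hx : x ∈ 𝓜.carrier)
    {F : ℝ → V → ℝ} (hF : 𝓜.SmoothST (Set.Icc 0 t) F) (hc : 𝓜.CSuppST (Set.Icc 0 t) F) {κ : ℝ}
    (hκ : 0 ≤ κ) (h : ∀ s ∈ Set.Icc 0 t, ∀ y ∈ 𝓜.carrier, -κ ≤ heatOp 𝓜 g (Set.Icc 0 t) F s y) :
    HC.P t (F 0) x ≤ F t x + κ * t := by
  obtain ⟨hi, he⟩ := ly_duhamel HC S ht hx hF hc
  have h1 : ∫ _s in (0 : ℝ)..t, (-κ) ≤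
      ∫ s in (0 : ℝ)..t, HC.P (t - s) (heatOp 𝓜 g (Set.Icc 0 t) F s) x := by
    refine intervalIntegral.integral_mono_on_of_le_Ioo ht.le (by simp) hi (fun s hs => ?_)
    have hsI : s ∈ Set.Icc 0 t := Set.Ioo_subset_Icc_self hs
    have hτ : 0 < t - s := by linarith [hs.2]
    exact ly_P_ge_const HC hτ hx (ly_integrable_Hk_heatOp HC S ht hx hF hc hsI hτ) hκ (h s hsI)
  rw [← he] at h1
  simp only [intervalIntegral.integral_const, sub_zero, smul_eq_mul] at h1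
  linarith

/-- `(∂_t - Δ) F ≤ κ ⟹ P_t F_0 ≥ F_t - κ t`. -/
theorem ly_P_ge_of_sub (S : AnaSetting 𝓜 g) {t : ℝ} (ht : 0 < t) {x : V} (hx : x ∈ 𝓜.carrier)
    {F : ℝ → V → ℝ} (hF : 𝓜.SmoothST (Set.Icc 0 t) F) (hc : 𝓜.CSuppST (Set.Icc 0 t) F) {κ : ℝ}
    (hκ : 0 ≤ κ) (h : ∀ s ∈ Set.Icc 0 t, ∀ y ∈ 𝓜.carrier, heatOp 𝓜 g (Set.Icc 0 t) F s y ≤ κ) :
    F t x - κ * t ≤ HC.P t (F 0) x := by
  obtain ⟨hi, he⟩ := ly_duhamel HC S ht hx hF hc
  have h1 : ∫ s in (0 : ℝ)..t, HC.P (t - s) (heatOp 𝓜 g (Set.Icc 0 t) F s) x ≤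
      ∫ _s in (0 : ℝ)..t, κ := by
    refine intervalIntegral.integral_mono_on_of_le_Ioo ht.le hi (by simp) (fun s hs => ?_)
    have hsI : s ∈ Set.Icc 0 t := Set.Ioo_subset_Icc_self hs
    have hτ : 0 < t - s := by linarith [hs.2]
    exact ly_P_le_const HC hτ hx (ly_integrable_Hk_heatOp HC S ht hx hF hc hsI hτ) hκ (h s hsI)
  rw [← he] at h1
  simp only [intervalIntegral.integral_const, sub_zero, smul_eq_mul] at h1
  linarith

end Claimed.Agent.R316
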