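import Claimed.Agent.R316.Base.LiYau.Evol

/-!
# Row 316, `BP-G9`, file 8: maximum principles on the complete manifold     (leaves `G9-MP-A` (`ly_maxP_super`, `_bddAbove`), `G9-MP-B` (`_growth`))

Sub-captain: helper201.  Statements are frozen.  PROVED (helper141): both leaves complete (linear-in-time barrier exp((b+8b^2 s)(rho+2)+4nbs), b = 2B).

* `ly_maxP_super` (comparison with a proper strict supersolution; `u` only continuous at `t = 0`).  `w = u - Q`.  `w` is continuous on `Icc 0 T ×ˢ M`; `w ≤ 0` off the compact set `K` and at `t = 0`.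
  Suppose `w t₁ x₁ > 0`.  `e s y = w s y - δ s` with `δ = w t₁ x₁/(2T)` is still positive at `(t₁,x₁)`; it attains its maximum over `Icc 0 T ×ˢ K` at `(t₀,x₀)`, `t₀ > 0`; this is a maximum over `Icc 0 T ×ˢ M`.
  Apply `ly_exists_max`-type reasoning on `Icc (t₀/2) T`?  Simplest: `lap_nonpos_of_localMax` for `e t₀` at `x₀`, and the slope argument in time on `Ioc 0 T` (left slopes at `t₀`), exactly as in the proof of
  `ly_exists_max`: `0 ≤ ∂_t e`, `Δ e ≤ 0`; but `∂_t e - Δe = heatOp u - heatOp Q - δ ≤ - δ < 0`.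
* `ly_heatSub_nonpos_of_bddAbove`: fix `o ∈ M` (`S.conn.nonempty`), `ρ` from `ly_exists_rho` (`ε = 1`), `Q_N s y = (B⁺ + 1) (ρ y + 1 + 2 n s)/N ≥ 0`: `heatOp Q_N = (B⁺+1)(2n - Δρ)/N ≥ 0`; `u ≤ B ≤ Q_N` where `ρ ≥ N`.
  So `u ≤ Q_N` for all `N`; let `N → ∞`.
* `ly_heatSub_nonpos_of_growth` (Tychonoff).  WLOG `B > 0`.  `ρ` for `(o, ε = 1)`, `c = 2`.  For `T₁ > 0`: `Q s y = (T₁ - s)^{-n} exp ((ρ y + c)/(2 (T₁ - s)))` on `s ∈ [0, T₁/2]`:
  `heatOp Q = Q [ n/(T₁-s) + (ρ+c)/(2(T₁-s)²) - Δρ/(2(T₁-s)) - |∂ρ|²/(4(T₁-s)²) ] ≥ Q (ρ + c - (d+1)²/2)/(2(T₁-s)²) ≥ 0` since `(d+1)²/2 ≤ d² + 1 ≤ ρ + 2`.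
  `Q ≥ T₁^{-n} exp(d²/(2T₁) )·e^{…}`; take `T₁ = 1/(4B)`: `B e^{B d²} ≤ η Q` outside a compact set, for every `η > 0`.  `ly_maxP_super` with `η Q`: `u ≤ η Q` on `[0, min T (T₁/2)]`, `η → 0`.
  Iterate in time steps of length `T₁/2` (induction on `k`: `u ≤ 0` on `[0, k T₁/2] ∩ [0,T]`; `ly_heatSol_shift`-type translation for subsolutions).
-/

set_option autoImplicit false
set_option linter.unusedSectionVars false
open scoped ContDiff ComplexOrder Topology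
open MeasureTheory Filter

namespace Claimed.Agent.R316

variable {V : Type} [NormedAddCommGroup V] [NormedSpace ℝ V] [FiniteDimensional ℝ V]
  [MeasurableSpace V] [BorelSpace V]
variable {n : ℕ} {𝓜 : CMfd V (Fin n)} {g : HFam V (Fin n)}

/-- comparison of a subsolution with a supersolution which dominates it outside a compact set. -/
theorem ly_maxP_super (hg : IsMetric 𝓜 g) {T : ℝ} (hT : 0 < T) {u Q : ℝ → V → ℝ}
    (hu : IsHeatSub 𝓜 g (Set.Ioc 0 T) u)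
    (hc : ContinuousOn (fun p : ℝ × V => u p.1 p.2) (Set.Icc 0 T ×ˢ 𝓜.carrier))
    (hQ : 𝓜.SmoothST (Set.Icc 0 T) Q)
    (hQs : ∀ t ∈ Set.Ioc 0 T, ∀ x ∈ 𝓜.carrier, 0 ≤ heatOp 𝓜 g (Set.Icc 0 T) Q t x)
    {K : Set V} (hK : IsCompact K) (hKM : K ⊆ 𝓜.carrier)
    (hout : ∀ t ∈ Set.Icc 0 T, ∀ x ∈ 𝓜.carrier, x ∉ K → u t x ≤ Q t x)
    (h0 : ∀ x ∈ 𝓜.carrier, u 0 x ≤ Q 0 x) :
    ∀ t ∈ Set.Icc 0 T, ∀ x ∈ 𝓜.carrier, u t x ≤ Q t x := by
  by_contra hcon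
  push Not at hcon
  obtain ⟨t₁, ht₁, x₁, hx₁, hpos₁⟩ := hcon
  set w₁ : ℝ := u t₁ x₁ - Q t₁ x₁ with hw₁
  have hw₁0 : 0 < w₁ := by simp only [hw₁]; linarith
  set δ : ℝ := w₁ / (2 * T) with hδ
  have hδ0 : 0 < δ := by positivity
  set e : ℝ → V → ℝ := fun s y => u s y - Q s y + (- (δ * s)) with he
  have hx₁K : x₁ ∈ K := by
    by_contra h
    exact absurd (hout t₁ ht₁ x₁ hx₁ h) (not_le.2 hpos₁)
  have hcont : ContinuousOn (fun p : ℝ × V => e p.1 p.2) (Set.Icc 0 T ×ˢ K) :=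
    ((hc.mono (Set.prod_mono le_rfl hKM)).sub
      (hQ.continuousOn.mono (Set.prod_mono le_rfl hKM))).add
      (continuous_const.mul continuous_fst).neg.continuousOn
  obtain ⟨⟨t₀, x₀⟩, ⟨ht₀, hx₀⟩, hmax⟩ :=
    (isCompact_Icc.prod hK).exists_isMaxOn ⟨(t₁, x₁), ht₁, hx₁K⟩ hcont
  simp only at ht₀ hx₀
  have hmaxK : ∀ t ∈ Set.Icc 0 T, ∀ x ∈ K, e t x ≤ e t₀ x₀ := fun t ht x hx =>
    hmax (show ((t, x) : ℝ × V) ∈ Set.Icc 0 T ×ˢ K from ⟨ht, hx⟩)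
  have he₁ : 0 < e t₁ x₁ := by
    have h1 : δ * t₁ ≤ δ * T := mul_le_mul_of_nonneg_left ht₁.2 hδ0.le
    have h2 : δ * T = w₁ / 2 := by
      rw [hδ]; field_simp
    simp only [he]
    linarith
  have hpos : 0 < e t₀ x₀ := he₁.trans_le (hmaxK t₁ ht₁ x₁ hx₁K)
  have hmaxM : ∀ t ∈ Set.Icc 0 T, ∀ x ∈ 𝓜.carrier, e t x ≤ e t₀ x₀ := by
    intro t ht x hx
    by_cases hxK : x ∈ K
    · exact hmaxK t ht x hxK
    · have h1 := hout t ht x hx hxK
      have h2 : 0 ≤ δ * t := mul_nonneg hδ0.le ht.1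
      have h3 : e t x ≤ 0 := by
        simp only [he]
        linarith
      linarith
  have hx₀M := hKM hx₀
  have ht₀0 : t₀ ≠ 0 := by
    rintro rfl
    have h1 := h0 x₀ hx₀M
    simp only [he, mul_zero, neg_zero, add_zero] at hpos
    linarith
  have ht₀' : t₀ ∈ Set.Ioc 0 T := ⟨lt_of_le_of_ne ht₀.1 (Ne.symm ht₀0), ht₀.2⟩
  have hus : 𝓜.Smooth (u t₀) := hu.1.smooth ht₀'
  have hQsm : 𝓜.Smooth (Q t₀) := hQ.smooth ht₀
  have hes : 𝓜.Smooth (e t₀) := (hus.sub hQsm).add_const _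
  obtain ⟨hlap, -⟩ := lap_nonpos_of_localMax hg hes hx₀M
    (Filter.eventually_of_mem self_mem_nhdsWithin (fun y hy => hmaxM t₀ ht₀ y hy))
  have hlap' : lap 𝓜 g (e t₀) x₀ = lap 𝓜 g (u t₀) x₀ - lap 𝓜 g (Q t₀) x₀ := by
    simp only [he]
    rw [lap_add_const, lap_sub g (hus.c2At hx₀M) (hQsm.c2At hx₀M)]
  obtain ⟨ut, hut, hutle⟩ := hu.2 t₀ ht₀' x₀ hx₀M
  have hQt := hQ.hasDerivWithinAt ht₀ hx₀M
  have hsubI : Set.Icc (t₀ / 2) T ⊆ Set.Ioc 0 T := fun s hs =>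
    ⟨lt_of_lt_of_le (by linarith [ht₀'.1]) hs.1, hs.2⟩
  have hD : HasDerivWithinAt (fun s => e s x₀)
      (ut - derivWithin (fun s => Q s x₀) (Set.Icc 0 T) t₀ + (- (δ * 1))) (Set.Icc (t₀ / 2) T) t₀ :=
    ((hut.mono hsubI).sub (hQt.mono (hsubI.trans Set.Ioc_subset_Icc_self))).add
      (((hasDerivAt_id t₀).const_mul δ).neg.hasDerivWithinAt)
  have hD0 := ly_deriv_nonneg_of_max ⟨by linarith [ht₀'.1], ht₀.2⟩ hD
    (fun s hs => hmaxM s (Set.Ioc_subset_Icc_self (hsubI hs)) x₀ hx₀M)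
  have hQs' := hQs t₀ ht₀' x₀ hx₀M
  rw [heatOp] at hQs'
  linarith

/-- (= `heatSub_nonpos_of_bddAbove` of `Base/Heat/Api.lean`). -/
theorem ly_heatSub_nonpos_of_bddAbove (S : AnaSetting 𝓜 g) {T : ℝ} (hT : 0 < T) {u : ℝ → V → ℝ}
    (hu : IsHeatSub 𝓜 g (Set.Ioc 0 T) u)
    (hc : ContinuousOn (fun p : ℝ × V => u p.1 p.2) (Set.Icc 0 T ×ˢ 𝓜.carrier))
    (hB : ∃ B : ℝ, ∀ t ∈ Set.Icc 0 T, ∀ x ∈ 𝓜.carrier, u t x ≤ B) (h0 : ∀ x ∈ 𝓜.carrier, u 0 x ≤ 0) :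
    ∀ t ∈ Set.Icc 0 T, ∀ x ∈ 𝓜.carrier, u t x ≤ 0 := by
  obtain ⟨B, hB⟩ := hB
  have hg : IsMetric 𝓜 g := S.kahler.toIsMetric
  obtain ⟨o, ho⟩ := S.conn.nonempty
  obtain ⟨ρ, hρs, hρd, hρl, -, hρK⟩ := ly_exists_rho S ho one_pos
  have hI : IsTimeDom (Set.Icc 0 T) := isTimeDom_Icc hT
  set B' : ℝ := max B 0 + 1 with hB'
  have hB'0 : 0 < B' := by
    have := le_max_right B 0
    simp only [hB']; linarith
  have hBB' : B ≤ B' := by
    have := le_max_left B 0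
    simp only [hB']; linarith
  have hρ1 : ∀ y ∈ 𝓜.carrier, 0 ≤ ρ y + 1 := by
    intro y hy
    have h1 := (abs_le.1 (hρd y hy)).1
    have h2 := sq_nonneg (hdist 𝓜 g o y)
    linarith
  have key : ∀ N : ℝ, 0 < N → ∀ t ∈ Set.Icc 0 T, ∀ x ∈ 𝓜.carrier,
      u t x ≤ B' / N * (ρ x + (1 + 2 * n * t)) := by
    intro N hN
    have hc0 : 0 < B' / N := by positivity
    have hρST : 𝓜.SmoothST (Set.Icc 0 T) (fun _ => ρ) := hρs.smoothST _
    have htime : 𝓜.SmoothST (Set.Icc 0 T) (fun s (_ : V) => 1 + 2 * n * s) :=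
      CMfd.smoothST_of_time (contDiff_const.add (contDiff_const.mul contDiff_id)).contDiffOn
    have hF : 𝓜.SmoothST (Set.Icc 0 T) (fun s y => ρ y + (1 + 2 * n * s)) := hρST.add htime
    obtain ⟨K, hK, hKM, hKρ⟩ := hρK N
    refine ly_maxP_super hg hT hu hc (hF.const_mul (B' / N)) ?_ hK hKM ?_ ?_
    · intro t ht x hx
      have htI : t ∈ Set.Icc 0 T := Set.Ioc_subset_Icc_self ht
      have h3 : HasDerivWithinAt (fun s : ℝ => 1 + 2 * n * s) (2 * n * 1) (Set.Icc 0 T) t :=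
        (((hasDerivAt_id t).const_mul (2 * (n : ℝ))).const_add 1).hasDerivWithinAt
      rw [ly_heatOp_const_mul hI _ hF htI hx, ly_heatOp_add hI hρST htime htI hx, ly_heatOp_space,
        ly_heatOp_time hI htI h3]
      have := hρl x hx
      apply mul_nonneg hc0.le
      linarith
    · intro t ht x hx hxK
      have h1 : N < ρ x := by
        by_contra h
        exact hxK (hKρ x hx (not_lt.1 h))
      have h2 : 0 ≤ 2 * (n : ℝ) * t := mul_nonneg (by positivity) ht.1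
      have h3 : B' / N * N ≤ B' / N * (ρ x + (1 + 2 * n * t)) :=
        mul_le_mul_of_nonneg_left (by linarith) hc0.le
      have h4 : B' / N * N = B' := by field_simp
      linarith [hB t ht x hx]
    · intro x hx
      have h1 : 0 ≤ B' / N * (ρ x + (1 + 2 * n * 0)) :=
        mul_nonneg hc0.le (by linarith [hρ1 x hx])
      linarith [h0 x hx]
  intro t ht x hx
  have hlim : Tendsto (fun N : ℝ => B' / N * (ρ x + (1 + 2 * n * t))) atTop
      (𝓝 (0 * (ρ x + (1 + 2 * n * t)))) :=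
    (tendsto_const_nhds.div_atTop tendsto_id).mul_const _
  rw [zero_mul] at hlim
  exact ge_of_tendsto hlim (by
    filter_upwards [eventually_gt_atTop 0] with N hN using key N hN t ht x hx)

/-- time translation of subsolutions. -/
theorem mp_heatSub_shift {I : Set ℝ} {u : ℝ → V → ℝ} (hu : IsHeatSub 𝓜 g I u) (c : ℝ) :
    IsHeatSub 𝓜 g {t | t + c ∈ I} (fun t x => u (t + c) x) := by
  refine ⟨fun Φ U hΦ => ?_, fun t ht x hx => ?_⟩
  · have h1 : ContDiffOn ℝ ∞ (fun q : ℝ × CE (Fin n) => ((q.1 + c, q.2) : ℝ × CE (Fin n)))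
        ({t | t + c ∈ I} ×ˢ U) :=
      ((contDiff_fst.add contDiff_const).prodMk contDiff_snd).contDiffOn
    exact (hu.1 Φ U hΦ).comp h1 (fun q hq => ⟨hq.1, hq.2⟩)
  · obtain ⟨ut, h1, hle⟩ := hu.2 (t + c) ht x hx
    have h2 : HasDerivWithinAt (fun s : ℝ => s + c) 1 {t | t + c ∈ I} t :=
      ((hasDerivAt_id t).add_const c).hasDerivWithinAt
    have h3 := h1.comp t h2 (fun s hs => hs)
    exact ⟨ut, by simpa [Function.comp_def] using h3, hle⟩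

/-- the Tychonoff barrier is a supersolution: real algebra. -/
theorem mp_barrier_alg {β t N lapρ gρ ρ d : ℝ} (hβ : 0 < β) (ht0 : 0 ≤ t) (ht : t ≤ 1 / (8 * β))
    (hN : 0 ≤ N) (h1 : lapρ ≤ 2 * N) (h2 : 0 ≤ gρ) (h3 : gρ ≤ (d + 1) ^ 2) (h4 : d ^ 2 - 1 ≤ ρ) :
    0 ≤ (β + 8 * β ^ 2 * t) * (- lapρ) + (ρ + 2) * (8 * β ^ 2) + 4 * N * β
      - (β + 8 * β ^ 2 * t) ^ 2 * gρ := by
  set b : ℝ := β + 8 * β ^ 2 * t with hb
  have hb0 : 0 ≤ b := by positivity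
  have hb1 : b ≤ 2 * β := by
    have e1 : 8 * β ^ 2 * t ≤ 8 * β ^ 2 * (1 / (8 * β)) :=
      mul_le_mul_of_nonneg_left ht (by positivity)
    have e2 : 8 * β ^ 2 * (1 / (8 * β)) = β := by field_simp
    simp only [hb]; linarith
  have a1 : b * lapρ ≤ 4 * N * β := by
    have e1 : b * lapρ ≤ b * (2 * N) := mul_le_mul_of_nonneg_left h1 hb0
    have e2 : b * (2 * N) ≤ 2 * β * (2 * N) := mul_le_mul_of_nonneg_right hb1 (by positivity)
    linarith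
  have a2 : b ^ 2 * gρ ≤ (2 * β) ^ 2 * (d + 1) ^ 2 :=
    mul_le_mul (pow_le_pow_left₀ hb0 hb1 2) h3 h2 (by positivity)
  have a3 : (d + 1) ^ 2 ≤ 2 * (ρ + 2) := by nlinarith [sq_nonneg (d - 1)]
  have a4 : (2 * β) ^ 2 * (d + 1) ^ 2 ≤ (2 * β) ^ 2 * (2 * (ρ + 2)) :=
    mul_le_mul_of_nonneg_left a3 (by positivity)
  nlinarith

/-- one time step of the Tychonoff maximum principle. -/
theorem mp_tych_step (S : AnaSetting 𝓜 g) {o : V} (ho : o ∈ 𝓜.carrier) {B : ℝ} (hB0 : 0 < B) {T : ℝ}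
    (hT : 0 < T) (hTB : T ≤ 1 / (16 * B)) {u : ℝ → V → ℝ} (hu : IsHeatSub 𝓜 g (Set.Ioc 0 T) u)
    (hc : ContinuousOn (fun p : ℝ × V => u p.1 p.2) (Set.Icc 0 T ×ˢ 𝓜.carrier))
    (hB : ∀ t ∈ Set.Icc 0 T, ∀ x ∈ 𝓜.carrier, u t x ≤ B * Real.exp (B * hdist 𝓜 g o x ^ 2))
    (h0 : ∀ x ∈ 𝓜.carrier, u 0 x ≤ 0) : ∀ t ∈ Set.Icc 0 T, ∀ x ∈ 𝓜.carrier, u t x ≤ 0 := by
  have hg : IsMetric 𝓜 g := S.kahler.toIsMetric
  obtain ⟨ρ, hρs, hρd, hρl, hρg, hρK⟩ := ly_exists_rho S ho one_pos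
  have hI : IsTimeDom (Set.Icc 0 T) := isTimeDom_Icc hT
  set β : ℝ := 2 * B with hβ
  have hβ0 : 0 < β := by positivity
  have hTβ : T ≤ 1 / (8 * β) := by
    have : 8 * β = 16 * B := by rw [hβ]; ring
    rw [this]; exact hTB
  have hρlow : ∀ y ∈ 𝓜.carrier, hdist 𝓜 g o y ^ 2 - 1 ≤ ρ y := by
    intro y hy
    have h1 := (abs_le.1 (hρd y hy)).1
    linarith
  have hb : 𝓜.SmoothST (Set.Icc 0 T) (fun s (_ : V) => β + 8 * β ^ 2 * s) :=
    CMfd.smoothST_of_time (contDiff_const.add (contDiff_const.mul contDiff_id)).contDiffOn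
  have hρ2s : 𝓜.Smooth (fun y => ρ y + 2) := hρs.add_const 2
  have hρ2 : 𝓜.SmoothST (Set.Icc 0 T) (fun _ y => ρ y + 2) := hρ2s.smoothST _
  have hlin : 𝓜.SmoothST (Set.Icc 0 T) (fun s (_ : V) => 4 * n * β * s) :=
    CMfd.smoothST_of_time (contDiff_const.mul contDiff_id).contDiffOn
  set W : ℝ → V → ℝ := fun s y => (β + 8 * β ^ 2 * s) * (ρ y + 2) + 4 * n * β * s with hW
  have hW1 : 𝓜.SmoothST (Set.Icc 0 T) (fun s y => (β + 8 * β ^ 2 * s) * (ρ y + 2)) := hb.mul hρ2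
  have hWs : 𝓜.SmoothST (Set.Icc 0 T) W := hW1.add hlin
  have hEs : 𝓜.SmoothST (Set.Icc 0 T) (fun s y => Real.exp (W s y)) := hWs.exp
  have hsuper : ∀ t ∈ Set.Icc 0 T, ∀ x ∈ 𝓜.carrier,
      0 ≤ heatOp 𝓜 g (Set.Icc 0 T) (fun s y => Real.exp (W s y)) t x := by
    intro t ht x hx
    have d1 : HasDerivWithinAt (fun s : ℝ => β + 8 * β ^ 2 * s) (8 * β ^ 2 * 1) (Set.Icc 0 T) t :=
      (((hasDerivAt_id t).const_mul (8 * β ^ 2)).const_add β).hasDerivWithinAt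
    have d2 : HasDerivWithinAt (fun s : ℝ => 4 * n * β * s) (4 * n * β * 1) (Set.Icc 0 T) t :=
      ((hasDerivAt_id t).const_mul (4 * n * β)).hasDerivWithinAt
    have e1 : heatOp 𝓜 g (Set.Icc 0 T) W t x =
        (β + 8 * β ^ 2 * t) * (- lap 𝓜 g ρ x) + (ρ x + 2) * (8 * β ^ 2) + 4 * n * β := by
      rw [hW, ly_heatOp_add hI hW1 hlin ht hx, ly_heatOp_mul hg hI hb hρ2 ht hx,
        ly_heatOp_time hI ht d1, ly_heatOp_time hI ht d2, ly_heatOp_space, gradInner_const_left,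
        lap_add_const]
      ring
    have e2 : gradSq 𝓜 g (W t) x = (β + 8 * β ^ 2 * t) ^ 2 * gradSq 𝓜 g ρ x := by
      simp only [hW]
      rw [gradSq_add_const, gradSq_const_mul g _ (hρ2s.diffAt hx), gradSq_add_const]
    rw [ly_heatOp_comp hI (χ := Real.exp) Real.contDiff_exp.contDiffAt hWs ht hx, e1, e2]
    simp only [Real.deriv_exp]
    rw [← mul_sub]
    exact mul_nonneg (Real.exp_pos _).le (mp_barrier_alg hβ0 ht.1 (ht.2.trans hTβ)
      (Nat.cast_nonneg n) (hρl x hx) (gradSq_nonneg hg _ hx) (hρg x hx) (hρlow x hx))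
  have hWlow : ∀ t ∈ Set.Icc 0 T, ∀ x ∈ 𝓜.carrier, 2 * B * hdist 𝓜 g o x ^ 2 ≤ W t x := by
    intro t ht x hx
    have h1 := hρlow x hx
    have h2 : 0 ≤ ρ x + 2 := by nlinarith [sq_nonneg (hdist 𝓜 g o x)]
    have h3 : 0 ≤ 8 * β ^ 2 * t * (ρ x + 2) := mul_nonneg (mul_nonneg (by positivity) ht.1) h2
    have h4 : 0 ≤ 4 * n * β * t := mul_nonneg (by positivity) ht.1
    have h5 : β * hdist 𝓜 g o x ^ 2 ≤ β * (ρ x + 2) :=
      mul_le_mul_of_nonneg_left (by linarith) hβ0.le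
    simp only [hW]
    nlinarith
  have key : ∀ η : ℝ, 0 < η → ∀ t ∈ Set.Icc 0 T, ∀ x ∈ 𝓜.carrier,
      u t x ≤ η * Real.exp (W t x) := by
    intro η hη
    obtain ⟨K, hK, hKM, hKρ⟩ := hρK (1 / η + 1)
    refine ly_maxP_super hg hT hu hc (hEs.const_mul η) ?_ hK hKM ?_ ?_
    · intro t ht x hx
      have htI : t ∈ Set.Icc 0 T := Set.Ioc_subset_Icc_self ht
      rw [ly_heatOp_const_mul hI _ hEs htI hx]
      exact mul_nonneg hη.le (hsuper t htI x hx)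
    · intro t ht x hx hxK
      have h1 : 1 / η + 1 < ρ x := by
        by_contra h
        exact hxK (hKρ x hx (not_lt.1 h))
      set D : ℝ := hdist 𝓜 g o x ^ 2 with hD
      have h2 : 1 / η < D := by
        have := (abs_le.1 (hρd x hx)).2
        linarith
      have h3 : B / η ≤ B * D := by
        have : B * (1 / η) ≤ B * D := mul_le_mul_of_nonneg_left h2.le hB0.le
        rwa [mul_one_div] at this
      have h4 : B * D + 1 ≤ Real.exp (B * D) := Real.add_one_le_exp _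
      have h5 : Real.exp (B * D) * Real.exp (B * D) ≤ Real.exp (W t x) := by
        rw [← Real.exp_add]
        apply Real.exp_le_exp.2
        have := hWlow t ht x hx
        linarith
      have h6 : Real.exp (B * D) * (B / η) ≤ Real.exp (B * D) * Real.exp (B * D) :=
        mul_le_mul_of_nonneg_left (by linarith) (Real.exp_pos _).le
      have h7 : η * (Real.exp (B * D) * (B / η)) = B * Real.exp (B * D) := by field_simp
      have h8 : η * (Real.exp (B * D) * (B / η)) ≤ η * Real.exp (W t x) :=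
        mul_le_mul_of_nonneg_left (h6.trans h5) hη.le
      linarith [hB t ht x hx]
    · intro x hx
      have h1 : 0 ≤ η * Real.exp (W 0 x) := by positivity
      linarith [h0 x hx]
  intro t ht x hx
  by_contra hcon
  push Not at hcon
  have hE : 0 < Real.exp (W t x) := Real.exp_pos _
  have h1 := key (u t x / (2 * Real.exp (W t x))) (by positivity) t ht x hx
  have h2 : u t x / (2 * Real.exp (W t x)) * Real.exp (W t x) = u t x / 2 := by field_simp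
  rw [h2] at h1
  linarith

/-- iteration of the time steps. -/
theorem mp_tych_iter (S : AnaSetting 𝓜 g) {o : V} (ho : o ∈ 𝓜.carrier) {B : ℝ} (hB0 : 0 < B) (k : ℕ) :
    ∀ T : ℝ, 0 < T → T ≤ k * (1 / (16 * B)) → ∀ u : ℝ → V → ℝ, IsHeatSub 𝓜 g (Set.Ioc 0 T) u →
    ContinuousOn (fun p : ℝ × V => u p.1 p.2) (Set.Icc 0 T ×ˢ 𝓜.carrier) →
    (∀ t ∈ Set.Icc 0 T, ∀ x ∈ 𝓜.carrier, u t x ≤ B * Real.exp (B * hdist 𝓜 g o x ^ 2)) →
    (∀ x ∈ 𝓜.carrier, u 0 x ≤ 0) → ∀ t ∈ Set.Icc 0 T, ∀ x ∈ 𝓜.carrier, u t x ≤ 0 := by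
  induction k with
  | zero =>
    intro T hT hTk
    simp only [Nat.cast_zero, zero_mul] at hTk
    exact absurd hTk (not_le.2 hT)
  | succ k ih =>
    intro T hT hTk u hu hc hB h0
    set τ : ℝ := 1 / (16 * B) with hτ
    have hτ0 : 0 < τ := by positivity
    by_cases hTτ : T ≤ τ
    · exact mp_tych_step S ho hB0 hT hTτ hu hc hB h0
    push Not at hTτ
    have hsub : Set.Icc 0 τ ⊆ Set.Icc 0 T := Set.Icc_subset_Icc le_rfl hTτ.le
    have step1 := mp_tych_step S ho hB0 hτ0 le_rfl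
      (ly_heatSub_mono hu (Set.Ioc_subset_Ioc le_rfl hTτ.le))
      (hc.mono (Set.prod_mono hsub le_rfl)) (fun t ht x hx => hB t (hsub ht) x hx) h0
    have hT' : 0 < T - τ := by linarith
    have hT'k : T - τ ≤ k * τ := by
      push_cast at hTk
      linarith
    have hmaps : ∀ s ∈ Set.Icc 0 (T - τ), s + τ ∈ Set.Icc 0 T := fun s hs =>
      ⟨by linarith [hs.1], by linarith [hs.2]⟩
    have step2 := ih (T - τ) hT' hT'k (fun s x => u (s + τ) x)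
      (ly_heatSub_mono (mp_heatSub_shift hu τ) (fun s hs =>
        (⟨by linarith [hs.1], by linarith [hs.2]⟩ : s + τ ∈ Set.Ioc 0 T)))
      (hc.comp (f := fun p : ℝ × V => ((p.1 + τ, p.2) : ℝ × V))
        ((continuous_fst.add continuous_const).prodMk continuous_snd).continuousOn
        (fun p hp => ⟨hmaps p.1 hp.1, hp.2⟩))
      (fun s hs x hx => hB (s + τ) (hmaps s hs) x hx)
      (fun x hx => by
        have := step1 τ ⟨hτ0.le, le_rfl⟩ x hx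
        simpa using this)
    intro t ht x hx
    by_cases htτ : t ≤ τ
    · exact step1 t ⟨ht.1, htτ⟩ x hx
    · push Not at htτ
      have := step2 (t - τ) ⟨by linarith, by linarith [ht.2]⟩ x hx
      simpa using this

/-- (= `heatSub_nonpos_of_growth` of `Base/Heat/Api.lean`). -/
theorem ly_heatSub_nonpos_of_growth (S : AnaSetting 𝓜 g) {o : V} (ho : o ∈ 𝓜.carrier) {T : ℝ}
    (hT : 0 < T) {u : ℝ → V → ℝ} (hu : IsHeatSub 𝓜 g (Set.Ioc 0 T) u)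
    (hc : ContinuousOn (fun p : ℝ × V => u p.1 p.2) (Set.Icc 0 T ×ˢ 𝓜.carrier))
    (hB : ∃ B : ℝ, ∀ t ∈ Set.Icc 0 T, ∀ x ∈ 𝓜.carrier, u t x ≤ B * Real.exp (B * hdist 𝓜 g o x ^ 2))
    (h0 : ∀ x ∈ 𝓜.carrier, u 0 x ≤ 0) : ∀ t ∈ Set.Icc 0 T, ∀ x ∈ 𝓜.carrier, u t x ≤ 0 := by
  obtain ⟨B, hB⟩ := hB
  set B' : ℝ := max B 1 with hB'
  have hB'0 : 0 < B' := lt_of_lt_of_le one_pos (le_max_right _ _)
  have hBB' : B ≤ B' := le_max_left _ _
  have hgrow : ∀ t ∈ Set.Icc 0 T, ∀ x ∈ 𝓜.carrier,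
      u t x ≤ B' * Real.exp (B' * hdist 𝓜 g o x ^ 2) := by
    intro t ht x hx
    refine (hB t ht x hx).trans ?_
    rcases le_or_gt B 0 with hneg | hpos
    · have h1 : B * Real.exp (B * hdist 𝓜 g o x ^ 2) ≤ 0 :=
        mul_nonpos_of_nonpos_of_nonneg hneg (Real.exp_pos _).le
      have h2 : 0 ≤ B' * Real.exp (B' * hdist 𝓜 g o x ^ 2) := by positivity
      linarith
    · exact mul_le_mul hBB' (Real.exp_le_exp.2 (mul_le_mul_of_nonneg_right hBB' (sq_nonneg _)))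
        (Real.exp_pos _).le hB'0.le
  obtain ⟨k, hk⟩ := exists_nat_ge (T / (1 / (16 * B')))
  have hτ0 : 0 < 1 / (16 * B') := by positivity
  rw [div_le_iff₀ hτ0] at hk
  exact mp_tych_iter S ho hB'0 k T hT hk u hu hc hgrow h0

end Claimed.Agent.R316
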