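import Claimed.Agent.R316.Base.LiYau.Cutoff
import Claimed.Agent.R316.CM.Normal

/-!
# Row 316, `BP-G9`, file 3: the Bochner inequality and the Kato inequality     (leaves `G9-BOCH-A` (chart), `G9-BOCH-B` (manifold))

Sub-captain: helper201.  Statements are frozen.  PROVED (helper141): both leaves complete.

`bochD u = Δ|∂u|² - 2⟨∂u, ∂Δu⟩`.  On a Kaehler manifold `bochD u = ∑|u_{,kl}|² + ∑|u_{k\bar l}|² + Ric(∂u,∂u)` (covariant derivatives).  We never define the covariant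
Hessian: everything is computed at the centre of Kaehler normal coordinates.

NOTATION at the centre `0` of a parametrisation with `H 0 = 1`, `dH 0 = 0` (`H z = g Φ z`, `f = u ∘ Φ`, real valued):
`f_k = grad10 f 0 k`, `f_{kl} = dz l (fun w => grad10 f w k) 0`, `f_{k\bar l} = dzb l (fun w => grad10 f w k) 0 = levi f 0 l k`,
`q z = qf ((H z)⁻¹)ᵀ (grad10 f z) = Re ∑_{j,k} conj (f_j) (H⁻¹)_{kj} f_k`,   `L z = (((H z)⁻¹ * levi f z).trace).re`.

LEAF A (`ly_chart_grad`, `ly_chart_bochner`; pure calculus in one chart, tools: `CW/Basic.lean` (`dz`, `dzb` of sums, products, conjugates), `CW/MatFun.lean`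
(derivatives of `H⁻¹`, `det`), `CW/Levi.lean`).
 1. `∂_l conj(a) = conj(∂_{\bar l} a)`.  First derivatives of `(H⁻¹)_{kj}` vanish at `0` (`d(H⁻¹) = -H⁻¹ dH H⁻¹`), and
    `∂_{\bar l}∂_l (H⁻¹)_{kj}(0) = - ∂_{\bar l}∂_l H_{kj}(0)` (the other terms contain a first derivative of `H`).
 2. `∂_l q (0) = ∑_k (conj(f_{k\bar l}) f_k + conj(f_k) f_{kl})`.
 3. `∑_l ∂_{\bar l}∂_l q (0) = ∑_{k,l} (|f_{k\bar l}|² + |f_{kl}|²) + 2 Re ∑_k conj(f_k) ∑_l ∂_{\bar l}∂_l f_k - ∑_{j,k,l} conj(f_j) ∂_{\bar l}∂_l H_{kj} f_k`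
    (`conj(∂_l f_{k\bar l}) f_k` is the conjugate of `conj(f_k) ∂_l ∂_{\bar l} f_k`; mixed derivatives commute).
 4. `∂_k L (0) = ∑_l ∂_k f_{l \bar l}(0) = ∑_l ∂_{\bar l}∂_l f_k (0)` (first derivatives of `H⁻¹` vanish; derivatives commute).
 5. closedness `dz l (H j k) = dz k (H j l)` near `0` and its conjugate `dzb l (H j k) = dzb j (H l k)` (`H` Hermitian) give
    `∑_l ∂_{\bar l}∂_l H_{kj}(0) = ∑_l ∂_{\bar k}∂_j H_{ll}(0)`, which is `- (Ric)_{kj}`, `Ric = - levi (log det H) 0` (`d log det H = tr (H⁻¹ dH)`, at `0` only the term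
    `tr ∂\bar∂ H` survives; compare `IsNormalAt.ricF_eq`).

LEAF B: choose `Φ` by `exists_normal_coords`; `IsNormalAt.lap_eq`, `IsNormalAt.gradSq_eq`, `gradInner_eq`, `lap_eq_of_c2At`, `ipH_eq`; `gradSq 𝓜 g u ∘ Φ = q` and `lap 𝓜 g u ∘ Φ = L` on `U`
 (`gradSq_eq`/`lap_eq` of `CM/Forms.lean`).  `Ricᵀ ≥ 0` since `Ric ≥ 0`.
 * `ly_bochner`: drop `∑|f_{kl}|²` and the Ricci term; `ipH g (dd u)(dd u) = ∑|f_{k\bar l}|²` at the centre.
 * `ly_bochner_lap`: `tr_sq_le_card_mul_ipH`.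
 * `ly_kato`: `|∂q|² = ∑_l |∑_k (conj(f_{k\bar l}) f_k + conj(f_k) f_{kl})|² ≤ 2 (∑|f_k|²) (∑|f_{k\bar l}|² + ∑|f_{kl}|²)` (Cauchy-Schwarz twice).
-/

set_option autoImplicit false
set_option linter.unusedSectionVars false
open scoped ContDiff ComplexOrder Topology ComplexConjugate
open MeasureTheory Filter

namespace Claimed.Agent.R316

section chart

variable {ι : Type} [Fintype ι] [DecidableEq ι]

/-- hypotheses of the chart computation: a Kaehler metric matrix in normal form at `0`, a smooth real function. -/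
structure LyChart (U : Set (CE ι)) (H : CE ι → Matrix ι ι ℂ) (f : CE ι → ℝ) : Prop where
  isOpen : IsOpen U
  zero_mem : (0 : CE ι) ∈ U
  smoothH : ∀ j k, ContDiffOn ℝ ∞ (fun z => H z j k) U
  posDef : ∀ z ∈ U, (H z).PosDef
  closed : ∀ z ∈ U, ∀ j k l, dz l (fun w => H w j k) z = dz k (fun w => H w j l) z
  one : H 0 = 1
  dz0 : ∀ j k l, dz l (fun y => H y j k) 0 = 0
  dzb0 : ∀ j k l, dzb l (fun y => H y j k) 0 = 0
  smoothf : ContDiffOn ℝ ∞ f U

variable {U : Set (CE ι)} {H : CE ι → Matrix ι ι ℂ} {f : CE ι → ℝ}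

/-! ### triple products of matrix functions -/

section triple

open scoped Matrix

variable {m n p r : Type} [Fintype m] [Fintype n] [Fintype p] [Fintype r]
  [DecidableEq m] [DecidableEq n] [DecidableEq p] [DecidableEq r]
variable {A : CE ι → Matrix m n ℂ} {B : CE ι → Matrix n p ℂ} {C : CE ι → Matrix p r ℂ} {z : CE ι}

theorem bo_ev_diff (hA : ∀ a b, ContDiffAt ℝ 2 (fun w => A w a b) z) :
    ∀ᶠ w in 𝓝 z, ∀ a b, DifferentiableAt ℝ (fun y => A y a b) w := by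
  rw [Filter.eventually_all]
  intro a
  rw [Filter.eventually_all]
  intro b
  exact lv_eventually_differentiableAt (hA a b)

theorem bo_diff (hA : ∀ a b, ContDiffAt ℝ 2 (fun w => A w a b) z) (a : m) (b : n) :
    DifferentiableAt ℝ (fun y => A y a b) z :=
  (hA a b).differentiableAt (by norm_num)

theorem bo_diff_dzM (hA : ∀ a b, ContDiffAt ℝ 2 (fun w => A w a b) z) (l : ι) (a : m) (b : n) :
    DifferentiableAt ℝ (fun y => dzM l A y a b) z :=
  (contDiffAt_dzM (N := 1) hA (by norm_num) a b).differentiableAt (by norm_num)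

theorem bo_dzM_triple (hA : ∀ a b, DifferentiableAt ℝ (fun w => A w a b) z)
    (hB : ∀ a b, DifferentiableAt ℝ (fun w => B w a b) z)
    (hC : ∀ a b, DifferentiableAt ℝ (fun w => C w a b) z) (l : ι) :
    dzM l (fun w => A w * B w * C w) z =
      dzM l A z * B z * C z + A z * dzM l B z * C z + A z * B z * dzM l C z := by
  rw [dzM_mul (A := fun w => A w * B w) (differentiableAt_matMul hA hB) hC, dzM_mul hA hB,
    Matrix.add_mul]

theorem bo_dzbM_triple (hA : ∀ a b, DifferentiableAt ℝ (fun w => A w a b) z)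
    (hB : ∀ a b, DifferentiableAt ℝ (fun w => B w a b) z)
    (hC : ∀ a b, DifferentiableAt ℝ (fun w => C w a b) z) (l : ι) :
    dzbM l (fun w => A w * B w * C w) z =
      dzbM l A z * B z * C z + A z * dzbM l B z * C z + A z * B z * dzbM l C z := by
  rw [dzbM_mul (A := fun w => A w * B w) (differentiableAt_matMul hA hB) hC, dzbM_mul hA hB,
    Matrix.add_mul]

/-- mixed second derivative of `A B C` at a point where `B = 1` to first order. -/
theorem bo_dzbM_dzM_triple {B : CE ι → Matrix n n ℂ} {C : CE ι → Matrix n r ℂ}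
    (hA : ∀ a b, ContDiffAt ℝ 2 (fun w => A w a b) z)
    (hB : ∀ a b, ContDiffAt ℝ 2 (fun w => B w a b) z)
    (hC : ∀ a b, ContDiffAt ℝ 2 (fun w => C w a b) z) (h1 : B z = 1) {l l' : ι}
    (h2 : dzM l B z = 0) (h3 : dzbM l' B z = 0) :
    dzbM l' (dzM l (fun w => A w * B w * C w)) z =
      dzbM l' (dzM l A) z * C z + dzM l A z * dzbM l' C z + A z * dzbM l' (dzM l B) z * C z
        + dzbM l' A z * dzM l C z + A z * dzbM l' (dzM l C) z := by
  have e1 : ∀ᶠ w in 𝓝 z, dzM l (fun w => A w * B w * C w) w =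
      dzM l A w * B w * C w + A w * dzM l B w * C w + A w * B w * dzM l C w := by
    filter_upwards [bo_ev_diff hA, bo_ev_diff hB, bo_ev_diff hC] with w a b c
    exact bo_dzM_triple a b c l
  have dA := bo_diff hA
  have dB := bo_diff hB
  have dC := bo_diff hC
  have dAl := bo_diff_dzM hA l
  have dBl := bo_diff_dzM hB l
  have dCl := bo_diff_dzM hC l
  have t1 := differentiableAt_matMul (differentiableAt_matMul dAl dB) dC
  have t2 := differentiableAt_matMul (differentiableAt_matMul dA dBl) dC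
  have t3 := differentiableAt_matMul (differentiableAt_matMul dA dB) dCl
  have t12 : ∀ a b, DifferentiableAt ℝ
      (fun w => (dzM l A w * B w * C w + A w * dzM l B w * C w) a b) z :=
    fun a b => (t1 a b).add (t2 a b)
  rw [dzbM_congr e1,
    dzbM_add (A := fun w => dzM l A w * B w * C w + A w * dzM l B w * C w)
      (A₂ := fun w => A w * B w * dzM l C w) t12 t3,
    dzbM_add (A := fun w => dzM l A w * B w * C w) (A₂ := fun w => A w * dzM l B w * C w) t1 t2,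
    bo_dzbM_triple (A := fun w => dzM l A w) dAl dB dC,
    bo_dzbM_triple (B := fun w => dzM l B w) dA dBl dC,
    bo_dzbM_triple (C := fun w => dzM l C w) dA dB dCl, h1, h2, h3]
  simp only [Matrix.mul_one, Matrix.mul_zero, Matrix.zero_mul, add_zero, zero_add]
  abel

end triple

/-! ### the data of the chart computation -/

section chartlemmas

open scoped Matrix

/-- the column of the `(1,0)`-gradient. -/
noncomputable def boV (f : CE ι → ℝ) (w : CE ι) : Matrix ι Unit ℂ := fun k _ => grad10 f w k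

/-- the `1 × 1` matrix function with entry `|∂f|²_H`. -/
noncomputable def boQ (H : CE ι → Matrix ι ι ℂ) (f : CE ι → ℝ) (w : CE ι) : Matrix Unit Unit ℂ :=
  (boV f w)ᴴ * ((H w)⁻¹)ᵀ * boV f w

theorem LyChart.cdH (hc : LyChart U H f) {w : CE ι} (hw : w ∈ U) (a b : ι) :
    ContDiffAt ℝ ∞ (fun y => H y a b) w :=
  (hc.smoothH a b).contDiffAt (hc.isOpen.mem_nhds hw)

theorem LyChart.cdF (hc : LyChart U H f) {w : CE ι} (hw : w ∈ U) :
    ContDiffAt ℝ ∞ (fun y => ((f y : ℝ) : ℂ)) w :=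
  (contDiffOn_ofReal hc.smoothf).contDiffAt (hc.isOpen.mem_nhds hw)

theorem LyChart.cdf (hc : LyChart U H f) {w : CE ι} (hw : w ∈ U) : ContDiffAt ℝ ∞ f w :=
  hc.smoothf.contDiffAt (hc.isOpen.mem_nhds hw)

theorem LyChart.cdV (hc : LyChart U H f) {w : CE ι} (hw : w ∈ U) (a : ι) (b : Unit) :
    ContDiffAt ℝ ∞ (fun y => boV f y a b) w :=
  (contDiffOn_grad10 hc.isOpen hc.smoothf).contDiffAt (hc.isOpen.mem_nhds hw)

theorem LyChart.cdVH (hc : LyChart U H f) {w : CE ι} (hw : w ∈ U) (a : Unit) (b : ι) :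
    ContDiffAt ℝ ∞ (fun y => (boV f y)ᴴ a b) w :=
  contDiffAt_conjTranspose (hc.cdV hw) a b

theorem LyChart.cdG (hc : LyChart U H f) {w : CE ι} (hw : w ∈ U) (a b : ι) :
    ContDiffAt ℝ ∞ (fun y => (H y)⁻¹ a b) w :=
  contDiffAt_matInv (hc.cdH hw) (det_ne_zero_of_posDef (hc.posDef w hw)) a b

theorem LyChart.cdGT (hc : LyChart U H f) {w : CE ι} (hw : w ∈ U) (a b : ι) :
    ContDiffAt ℝ ∞ (fun y => ((H y)⁻¹)ᵀ a b) w :=
  hc.cdG hw b a

theorem LyChart.ev_mem (hc : LyChart U H f) : ∀ᶠ w in 𝓝 (0 : CE ι), w ∈ U :=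
  hc.isOpen.mem_nhds hc.zero_mem

theorem LyChart.ev_herm (hc : LyChart U H f) : ∀ᶠ w in 𝓝 (0 : CE ι), (H w).IsHermitian := by
  filter_upwards [hc.ev_mem] with w hw
  exact (hc.posDef w hw).isHermitian

theorem bo_two_le : (2 : WithTop ℕ∞) ≤ ∞ := lv_two_le_infty

theorem LyChart.dzM_H (hc : LyChart U H f) (l : ι) : dzM l H 0 = 0 := by
  ext a b
  rw [dzM_apply, hc.dz0]
  rfl

theorem LyChart.dzbM_H (hc : LyChart U H f) (l : ι) : dzbM l H 0 = 0 := by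
  ext a b
  rw [dzbM_apply, hc.dzb0]
  rfl

theorem LyChart.diffH (hc : LyChart U H f) {w : CE ι} (hw : w ∈ U) (a b : ι) :
    DifferentiableAt ℝ (fun y => H y a b) w :=
  (hc.cdH hw a b).differentiableAt (by simp)

theorem LyChart.GT_zero (hc : LyChart U H f) : ((H 0)⁻¹)ᵀ = 1 := by
  rw [hc.one, inv_one, Matrix.transpose_one]

theorem LyChart.dzM_GT (hc : LyChart U H f) (l : ι) : dzM l (fun w => ((H w)⁻¹)ᵀ) 0 = 0 := by
  rw [dzM_transpose (fun w => (H w)⁻¹), dzM_inv (hc.diffH hc.zero_mem)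
    (det_ne_zero_of_posDef (hc.posDef 0 hc.zero_mem)), hc.dzM_H]
  simp

theorem LyChart.dzbM_GT (hc : LyChart U H f) (l : ι) : dzbM l (fun w => ((H w)⁻¹)ᵀ) 0 = 0 := by
  rw [dzbM_transpose (fun w => (H w)⁻¹), dzbM_inv (hc.diffH hc.zero_mem)
    (det_ne_zero_of_posDef (hc.posDef 0 hc.zero_mem)), hc.dzbM_H]
  simp

theorem LyChart.dzbM_dzM_GT (hc : LyChart U H f) (l l' : ι) :
    dzbM l' (dzM l (fun w => ((H w)⁻¹)ᵀ)) 0 = - (dzbM l' (dzM l H) 0)ᵀ := by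
  have e0 : dzM l (fun w => ((H w)⁻¹)ᵀ) = fun w => (dzM l (fun y => (H y)⁻¹) w)ᵀ := by
    funext w
    exact dzM_transpose (fun w => (H w)⁻¹)
  have e1 : ∀ᶠ w in 𝓝 (0 : CE ι), dzM l (fun y => (H y)⁻¹) w =
      - ((H w)⁻¹ * dzM l H w * (H w)⁻¹) := by
    filter_upwards [hc.ev_mem] with w hw
    exact dzM_inv (hc.diffH hw) (det_ne_zero_of_posDef (hc.posDef w hw))
  have dG : ∀ a b, DifferentiableAt ℝ (fun y => (H y)⁻¹ a b) 0 := fun a b =>
    (hc.cdG hc.zero_mem a b).differentiableAt (by simp)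
  have dHl : ∀ a b, DifferentiableAt ℝ (fun y => dzM l H y a b) 0 :=
    bo_diff_dzM (fun a b => (hc.cdH hc.zero_mem a b).of_le bo_two_le) l
  rw [e0, dzbM_transpose (fun w => dzM l (fun y => (H y)⁻¹) w), dzbM_congr e1,
    dzbM_neg (fun w => (H w)⁻¹ * dzM l H w * (H w)⁻¹),
    bo_dzbM_triple (B := fun w => dzM l H w) dG dHl dG, hc.dzM_H, hc.one]
  simp

/-- `|∂f|²_H` is the entry of `boQ`. -/
theorem LyChart.ofReal_q (hc : LyChart U H f) {w : CE ι} (hw : w ∈ U) :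
    ((qf ((H w)⁻¹)ᵀ (grad10 f w) : ℝ) : ℂ) = boQ H f w () () := by
  show _ = ((boV f w)ᴴ * ((H w)⁻¹)ᵀ * boV f w) () ()
  have h1 := qf_ofReal (v := grad10 f w) (posDef_inv_transpose (hc.posDef w hw)).isHermitian
  refine h1.trans ?_
  simp only [Matrix.mul_apply, dotProduct, Matrix.mulVec, Matrix.conjTranspose_apply, boV,
    Pi.star_apply, Finset.sum_mul, Finset.mul_sum]
  rw [Finset.sum_comm]
  refine Finset.sum_congr rfl fun a _ => Finset.sum_congr rfl fun b _ => ?_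
  ring

theorem LyChart.ev_q (hc : LyChart U H f) :
    (fun w => ((qf ((H w)⁻¹)ᵀ (grad10 f w) : ℝ) : ℂ)) =ᶠ[𝓝 0] fun w => boQ H f w () () := by
  filter_upwards [hc.ev_mem] with w hw
  exact hc.ofReal_q hw

end chartlemmas

section chartmain

open scoped Matrix

theorem bo_entry (A B : Matrix ι Unit ℂ) : (Aᴴ * B) () () = ∑ k, conj (A k ()) * B k () := by
  simp only [Matrix.mul_apply, Matrix.conjTranspose_apply, Complex.star_def]

theorem bo_entry3 (A B : Matrix ι Unit ℂ) (M : Matrix ι ι ℂ) :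
    (Aᴴ * M * B) () () = star (fun k => A k ()) ⬝ᵥ (M *ᵥ fun k => B k ()) := by
  simp only [Matrix.mul_apply, dotProduct, Matrix.mulVec, Matrix.conjTranspose_apply,
    Pi.star_apply, Finset.sum_mul, Finset.mul_sum]
  rw [Finset.sum_comm]
  refine Finset.sum_congr rfl fun a _ => Finset.sum_congr rfl fun b _ => ?_
  ring

theorem LyChart.dzM_Q (hc : LyChart U H f) (l : ι) :
    dzM l (boQ H f) 0 = (dzbM l (boV f) 0)ᴴ * boV f 0 + (boV f 0)ᴴ * dzM l (boV f) 0 := by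
  have h0 := hc.zero_mem
  have dV : ∀ a b, DifferentiableAt ℝ (fun y => boV f y a b) 0 := fun a b =>
    (hc.cdV h0 a b).differentiableAt (by simp)
  have dVH : ∀ a b, DifferentiableAt ℝ (fun y => (boV f y)ᴴ a b) 0 := fun a b =>
    (hc.cdVH h0 a b).differentiableAt (by simp)
  have dG : ∀ a b, DifferentiableAt ℝ (fun y => ((H y)⁻¹)ᵀ a b) 0 := fun a b =>
    (hc.cdGT h0 a b).differentiableAt (by simp)
  show dzM l (fun w => (boV f w)ᴴ * ((H w)⁻¹)ᵀ * boV f w) 0 = _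
  rw [bo_dzM_triple dVH dG dV, hc.dzM_GT, hc.GT_zero, dzM_conjTranspose]
  simp only [Matrix.mul_one, Matrix.mul_zero, Matrix.zero_mul, add_zero]

theorem LyChart.dzbM_dzM_Q (hc : LyChart U H f) (l l' : ι) :
    dzbM l' (dzM l (boQ H f)) 0 =
      (dzM l' (dzbM l (boV f)) 0)ᴴ * boV f 0 + (dzbM l (boV f) 0)ᴴ * dzbM l' (boV f) 0
        + (boV f 0)ᴴ * (- (dzbM l' (dzM l H) 0)ᵀ) * boV f 0
        + (dzM l' (boV f) 0)ᴴ * dzM l (boV f) 0 + (boV f 0)ᴴ * dzbM l' (dzM l (boV f)) 0 := by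
  have h0 := hc.zero_mem
  have e0 : dzM l (fun w => (boV f w)ᴴ) = fun w => (dzbM l (boV f) w)ᴴ := by
    funext w
    exact dzM_conjTranspose (boV f)
  show dzbM l' (dzM l (fun w => (boV f w)ᴴ * ((H w)⁻¹)ᵀ * boV f w)) 0 = _
  rw [bo_dzbM_dzM_triple (fun a b => (hc.cdVH h0 a b).of_le bo_two_le)
    (fun a b => (hc.cdGT h0 a b).of_le bo_two_le) (fun a b => (hc.cdV h0 a b).of_le bo_two_le)
    hc.GT_zero (hc.dzM_GT l) (hc.dzbM_GT l'), hc.dzbM_dzM_GT, e0,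
    dzbM_conjTranspose (fun w => dzbM l (boV f) w), dzbM_conjTranspose (boV f)]

end chartmain

section chartricci

open scoped Matrix

theorem LyChart.dzb_symm (hc : LyChart U H f) {w : CE ι} (hw : w ∈ U) (j l : ι) :
    dzb l (fun y => H y j l) w = dzb j (fun y => H y l l) w := by
  have hh : ∀ᶠ y in 𝓝 w, (H y).IsHermitian := by
    filter_upwards [hc.isOpen.mem_nhds hw] with y hy
    exact (hc.posDef y hy).isHermitian
  have h1 : dzbM l H w j l = conj (dzM l H w l j) := by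
    rw [← conjTranspose_dzM_of_isHermitian hh]
    rfl
  have h2 : dzbM j H w l l = conj (dzM j H w l l) := by
    rw [← conjTranspose_dzM_of_isHermitian hh]
    rfl
  have h3 : dzM l H w l j = dzM j H w l l := hc.closed w hw l j l
  show dzbM l H w j l = dzbM j H w l l
  rw [h1, h2, h3]

theorem LyChart.ricci_entry (hc : LyChart U H f) (j k l : ι) :
    dzb l (dz l (fun y => H y j k)) 0 = dzb j (dz k (fun y => H y l l)) 0 := by
  have h0 := hc.zero_mem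
  have e1 : dz l (fun y => H y j k) =ᶠ[𝓝 0] dz k (fun y => H y j l) := by
    filter_upwards [hc.ev_mem] with w hw
    exact hc.closed w hw j k l
  have e2 : dzb l (fun y => H y j l) =ᶠ[𝓝 0] dzb j (fun y => H y l l) := by
    filter_upwards [hc.ev_mem] with w hw
    exact hc.dzb_symm hw j l
  rw [dzb_congr e1, ← dz_dzb_comm ((hc.cdH h0 j l).of_le bo_two_le), dz_congr e2,
    dz_dzb_comm ((hc.cdH h0 l l).of_le bo_two_le)]

theorem LyChart.sum_R (hc : LyChart U H f) :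
    ∑ l, dzbM l (dzM l H) 0 = levi (fun w => Real.log (H w).det.re) 0 := by
  have h0 := hc.zero_mem
  ext j k
  rw [levi_logDet (fun a b => (hc.cdH h0 a b).of_le bo_two_le) hc.ev_herm (hc.posDef 0 h0),
    hc.dzbM_H, hc.one, Matrix.sum_apply]
  simp only [inv_one, Matrix.one_mul, Matrix.zero_mul, Matrix.trace_zero, sub_zero]
  simp only [Matrix.trace, Matrix.diag_apply]
  exact Finset.sum_congr rfl fun l _ => hc.ricci_entry j k l

theorem LyChart.grad10_L (hc : LyChart U H f) (k : ι) :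
    grad10 (fun z => ((H z)⁻¹ * levi f z).trace.re) 0 k =
      ∑ a, dzbM a (dzM a (boV f)) 0 k () := by
  have h0 := hc.zero_mem
  have e1 : (fun w => ((((H w)⁻¹ * levi f w).trace.re : ℝ) : ℂ)) =ᶠ[𝓝 0]
      fun w => ((H w)⁻¹ * levi f w).trace := by
    filter_upwards [hc.ev_mem] with w hw
    exact ofReal_trace_inv_mul_re (hc.posDef w hw)
      (levi_isHermitian ((hc.cdf hw).of_le bo_two_le))
  have dL : ∀ a b, DifferentiableAt ℝ (fun w => levi f w a b) 0 := fun a b =>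
    ((contDiffOn_levi hc.isOpen hc.smoothf).contDiffAt (hc.isOpen.mem_nhds h0)).differentiableAt
      (by simp)
  rw [grad10_apply, dz_congr e1, dz_trace_inv_mul (hc.diffH h0)
    (det_ne_zero_of_posDef (hc.posDef 0 h0)) dL, hc.dzM_H, hc.one]
  simp only [inv_one, Matrix.one_mul, Matrix.zero_mul, Matrix.trace_zero, sub_zero]
  simp only [Matrix.trace, Matrix.diag_apply]
  refine Finset.sum_congr rfl fun a _ => ?_
  have cF : ContDiffAt ℝ ∞ (fun y => ((f y : ℝ) : ℂ)) 0 := hc.cdF h0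
  have c1 : ContDiffAt ℝ 2 (dz a (fun y => ((f y : ℝ) : ℂ))) 0 :=
    (contDiffAt_dz (m := ∞) cF (by simp)).of_le bo_two_le
  have e2 : dz k (dz a (fun y => ((f y : ℝ) : ℂ))) =ᶠ[𝓝 0]
      dz a (dz k (fun y => ((f y : ℝ) : ℂ))) := by
    filter_upwards [hc.ev_mem] with w hw
    exact dz_dz_comm ((hc.cdF hw).of_le bo_two_le)
  show dz k (dzb a (dz a (fun y => ((f y : ℝ) : ℂ)))) 0 =
    dzb a (dz a (dz k (fun y => ((f y : ℝ) : ℂ)))) 0
  rw [dz_dzb_comm c1, dzb_congr e2]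

end chartricci

section chartfinal

open scoped Matrix

theorem bo_re_conj_mul (a b : ℂ) : (conj a * b).re = (conj b * a).re := by
  simp only [Complex.mul_re, Complex.conj_re, Complex.conj_im]
  ring

theorem bo_re_sum_normSq (a : ι → ℂ) : (∑ k, conj (a k) * a k).re = ∑ k, ‖a k‖ ^ 2 := by
  rw [Complex.re_sum]
  refine Finset.sum_congr rfl fun k _ => ?_
  rw [Complex.conj_mul', ← Complex.ofReal_pow, Complex.ofReal_re]

theorem LyChart.levi_q_re (hc : LyChart U H f) (l : ι) :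
    (levi (fun z => qf ((H z)⁻¹).transpose (grad10 f z)) 0 l l).re =
      2 * (∑ k, conj (grad10 f 0 k) * dzbM l (dzM l (boV f)) 0 k ()).re
        + ∑ k, ‖levi f 0 l k‖ ^ 2 + ∑ k, ‖dz l (fun w => grad10 f w k) 0‖ ^ 2
        - qf (dzbM l (dzM l H) 0)ᵀ (grad10 f 0) := by
  have h0 := hc.zero_mem
  have hlevi : levi (fun z => qf ((H z)⁻¹).transpose (grad10 f z)) 0 l l =
      dzbM l (dzM l (boQ H f)) 0 () () := dzb_congr (dz_eventuallyEq hc.ev_q)
  have hcomm : dzM l (dzbM l (boV f)) 0 = dzbM l (dzM l (boV f)) 0 :=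
    dzM_dzbM_comm (fun a b => (hc.cdV h0 a b).of_le bo_two_le)
  rw [hlevi, hc.dzbM_dzM_Q, hcomm]
  simp only [Matrix.add_apply, Complex.add_re]
  rw [bo_entry, bo_entry, bo_entry, bo_entry, bo_entry3, bo_re_sum_normSq, bo_re_sum_normSq]
  have t1 : (∑ k, conj (dzbM l (dzM l (boV f)) 0 k ()) * boV f 0 k ()).re =
      (∑ k, conj (grad10 f 0 k) * dzbM l (dzM l (boV f)) 0 k ()).re := by
    rw [Complex.re_sum, Complex.re_sum]
    exact Finset.sum_congr rfl fun k _ => bo_re_conj_mul _ _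
  have t2 : (star (fun k => boV f 0 k ()) ⬝ᵥ
      ((- (dzbM l (dzM l H) 0)ᵀ) *ᵥ fun k => boV f 0 k ())).re =
      - qf (dzbM l (dzM l H) 0)ᵀ (grad10 f 0) := by
    rw [← qf_neg]
    rfl
  have t3 : (∑ k, conj (boV f 0 k ()) * dzbM l (dzM l (boV f)) 0 k ()).re =
      (∑ k, conj (grad10 f 0 k) * dzbM l (dzM l (boV f)) 0 k ()).re := rfl
  have t4 : ∑ k, ‖dzbM l (boV f) 0 k ()‖ ^ 2 = ∑ k, ‖levi f 0 l k‖ ^ 2 := rfl
  have t5 : ∑ k, ‖dzM l (boV f) 0 k ()‖ ^ 2 = ∑ k, ‖dz l (fun w => grad10 f w k) 0‖ ^ 2 := rfl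
  rw [t1, t2, t3, t4, t5]
  ring

end chartfinal

/-- gradient of `q = |∂f|²_H` at the centre. -/
theorem ly_chart_grad (hc : LyChart U H f) (l : ι) :
    grad10 (fun z => qf ((H z)⁻¹).transpose (grad10 f z)) 0 l =
      ∑ k, (conj (levi f 0 l k) * grad10 f 0 k
        + conj (grad10 f 0 k) * dz l (fun w => grad10 f w k) 0) := by
  have e1 : grad10 (fun z => qf ((H z)⁻¹).transpose (grad10 f z)) 0 l =
      dzM l (boQ H f) 0 () () := dz_congr hc.ev_q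
  rw [e1, hc.dzM_Q, Matrix.add_apply, bo_entry, bo_entry, ← Finset.sum_add_distrib]
  rfl

/-- **Bochner formula** at the centre of normal coordinates. -/
theorem ly_chart_bochner (hc : LyChart U H f) :
    ∑ l, (levi (fun z => qf ((H z)⁻¹).transpose (grad10 f z)) 0 l l).re
      - 2 * (∑ k, conj (grad10 f 0 k) * grad10 (fun z => ((H z)⁻¹ * levi f z).trace.re) 0 k).re =
    ∑ k, ∑ l, ‖dz l (fun w => grad10 f w k) 0‖ ^ 2 + ∑ k, ∑ l, ‖levi f 0 l k‖ ^ 2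
      + qf (- levi (fun w => Real.log (H w).det.re) 0).transpose (grad10 f 0) := by
  have e1 : (∑ k, conj (grad10 f 0 k) * grad10 (fun z => ((H z)⁻¹ * levi f z).trace.re) 0 k).re =
      ∑ l, (∑ k, conj (grad10 f 0 k) * dzbM l (dzM l (boV f)) 0 k ()).re := by
    rw [← Complex.re_sum, Finset.sum_comm]
    congr 1
    refine Finset.sum_congr rfl fun k _ => ?_
    rw [hc.grad10_L, Finset.mul_sum]
  have e2 : qf (- levi (fun w => Real.log (H w).det.re) 0).transpose (grad10 f 0) =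
      - ∑ l, qf (dzbM l (dzM l H) 0).transpose (grad10 f 0) := by
    rw [← hc.sum_R, Matrix.transpose_neg, qf_neg, Matrix.transpose_sum, qf_sum]
  rw [e1, e2, Finset.sum_congr rfl fun l _ => hc.levi_q_re l,
    Finset.sum_comm (f := fun k l => ‖dz l (fun w => grad10 f w k) 0‖ ^ 2),
    Finset.sum_comm (f := fun k l => ‖levi f 0 l k‖ ^ 2)]
  simp only [Finset.sum_sub_distrib, Finset.sum_add_distrib, ← Finset.mul_sum]
  ring

end chart

variable {V : Type} [NormedAddCommGroup V] [NormedSpace ℝ V] [FiniteDimensional ℝ V]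
variable {n : ℕ} {𝓜 : CMfd V (Fin n)} {g : HFam V (Fin n)}

/-- the Bochner defect `Δ|∂u|² - 2⟨∂u,∂Δu⟩`. -/
noncomputable def bochD (𝓜 : CMfd V (Fin n)) (g : HFam V (Fin n)) (u : V → ℝ) (x : V) : ℝ :=
  lap 𝓜 g (gradSq 𝓜 g u) x - 2 * gradInner 𝓜 g u (lap 𝓜 g u) x

variable {u : V → ℝ} {x : V}

section manifoldlemmas

variable {Φ : CE (Fin n) → V} {U : Set (CE (Fin n))}

theorem bo_lyChart (hk : IsKahler 𝓜 g) (hu : 𝓜.Smooth u) (hΦ : 𝓜.IsHol Φ U)
    (h0 : (0 : CE (Fin n)) ∈ U) (hN : IsNormalAt g Φ) : LyChart U (g Φ) (u ∘ Φ) where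
  isOpen := CMfd.isOpen_dom hΦ
  zero_mem := h0
  smoothH := fun j k => hk.smooth hΦ j k
  posDef := fun z hz => hk.posDef hΦ z hz
  closed := fun z hz j k l => hk.closed Φ U hΦ z hz j k l
  one := hN.one
  dz0 := hN.dz0
  dzb0 := hN.dzb0
  smoothf := hu Φ U hΦ

theorem bo_gradSq_ev (hk : IsKahler 𝓜 g) (hΦ : 𝓜.IsHol Φ U) (h0 : (0 : CE (Fin n)) ∈ U) :
    (gradSq 𝓜 g u ∘ Φ) =ᶠ[𝓝 0] fun z => qf ((g Φ z)⁻¹).transpose (grad10 (u ∘ Φ) z) := by
  filter_upwards [(CMfd.isOpen_dom hΦ).mem_nhds h0] with z hz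
  exact gradSq_eq hk.toIsMetric u hΦ hz

theorem bo_lap_ev (hk : IsKahler 𝓜 g) (hu : 𝓜.Smooth u) (hΦ : 𝓜.IsHol Φ U)
    (h0 : (0 : CE (Fin n)) ∈ U) :
    (lap 𝓜 g u ∘ Φ) =ᶠ[𝓝 0] fun z => ((g Φ z)⁻¹ * levi (u ∘ Φ) z).trace.re := by
  filter_upwards [(CMfd.isOpen_dom hΦ).mem_nhds h0] with z hz
  exact lap_eq hk.toIsMetric hu hΦ hz

/-- the Bochner formula at the centre of normal coordinates. -/
theorem bo_bochD_eq (hk : IsKahler 𝓜 g) (hu : 𝓜.Smooth u) (hΦ : 𝓜.IsHol Φ U)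
    (h0 : (0 : CE (Fin n)) ∈ U) (hN : IsNormalAt g Φ) :
    bochD 𝓜 g u (Φ 0) =
      ∑ k, ∑ l, ‖dz l (fun w => grad10 (u ∘ Φ) w k) 0‖ ^ 2 + ∑ k, ∑ l, ‖levi (u ∘ Φ) 0 l k‖ ^ 2
        + qf (ricF g Φ 0).transpose (grad10 (u ∘ Φ) 0) := by
  have hm := hk.toIsMetric
  rw [bochD, hN.lap_eq hm (smooth_gradSq hm hu) hΦ h0, gradInner_eq hm u _ hΦ h0, hN.one,
    dualIP_one, levi_congr (bo_gradSq_ev hk hΦ h0), grad10_congr (bo_lap_ev hk hu hΦ h0)]
  exact ly_chart_bochner (bo_lyChart hk hu hΦ h0 hN)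

theorem bo_ric_nonneg (hric : leF 𝓜 0 (ricF g)) (hΦ : 𝓜.IsHol Φ U) (h0 : (0 : CE (Fin n)) ∈ U)
    (v : Fin n → ℂ) : 0 ≤ qf (ricF g Φ 0).transpose v := by
  have h1 : (ricF g Φ 0).PosSemidef := by
    have := hric Φ U hΦ 0 h0
    simpa using this
  exact qf_nonneg h1.transpose v

theorem bo_ipH_eq (hk : IsKahler 𝓜 g) (hu : 𝓜.Smooth u) (hΦ : 𝓜.IsHol Φ U)
    (h0 : (0 : CE (Fin n)) ∈ U) (hN : IsNormalAt g Φ) :
    ipH 𝓜 g (ddc u) (ddc u) (Φ 0) = ∑ k, ∑ l, ‖levi (u ∘ Φ) 0 l k‖ ^ 2 := by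
  have hd := isHForm_ddc hu
  rw [ipH_eq hk.toIsMetric hd hd hΦ h0, hN.one, inv_one, Matrix.one_mul, Matrix.mul_one,
    ← frobSq_of_isHermitian (hd.herm hΦ 0 h0), frobSq, Finset.sum_comm]
  rfl

end manifoldlemmas

/-- **Bochner inequality**: `|dd u|² ≤ Δ|∂u|² - 2⟨∂u,∂Δu⟩` if `Ric ≥ 0`. -/
theorem ly_bochner (hk : IsKahler 𝓜 g) (hric : leF 𝓜 0 (ricF g)) (hu : 𝓜.Smooth u)
    (hx : x ∈ 𝓜.carrier) : ipH 𝓜 g (ddc u) (ddc u) x ≤ bochD 𝓜 g u x := by
  obtain ⟨Φ, U, hΦ, h0, rfl, hN⟩ := exists_normal_coords hk hx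
  rw [bo_bochD_eq hk hu hΦ h0 hN.toIsNormalAt, bo_ipH_eq hk hu hΦ h0 hN.toIsNormalAt]
  have h1 := bo_ric_nonneg hric hΦ h0 (grad10 (u ∘ Φ) 0)
  have h2 : 0 ≤ ∑ k, ∑ l, ‖dz l (fun w => grad10 (u ∘ Φ) w k) 0‖ ^ 2 :=
    Finset.sum_nonneg fun _ _ => Finset.sum_nonneg fun _ _ => sq_nonneg _
  linarith

theorem ly_bochD_nonneg (hk : IsKahler 𝓜 g) (hric : leF 𝓜 0 (ricF g)) (hu : 𝓜.Smooth u)
    (hx : x ∈ 𝓜.carrier) : 0 ≤ bochD 𝓜 g u x := by
  exact (ipH_self_nonneg hk.toIsMetric (isHForm_ddc hu) hx).trans (ly_bochner hk hric hu hx)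

/-- `(Δu)² ≤ n (Δ|∂u|² - 2⟨∂u,∂Δu⟩)`. -/
theorem ly_bochner_lap (hk : IsKahler 𝓜 g) (hric : leF 𝓜 0 (ricF g)) (hu : 𝓜.Smooth u)
    (hx : x ∈ 𝓜.carrier) : lap 𝓜 g u x ^ 2 ≤ n * bochD 𝓜 g u x := by
  have h1 := tr_sq_le_card_mul_ipH hk.toIsMetric (isHForm_ddc hu) hx
  rw [Fintype.card_fin] at h1
  exact h1.trans (mul_le_mul_of_nonneg_left (ly_bochner hk hric hu hx) (Nat.cast_nonneg n))

/-- **Kato type inequality**: `|∂|∂u|²|² ≤ 2 |∂u|² (Δ|∂u|² - 2⟨∂u,∂Δu⟩)`. -/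
theorem ly_kato (hk : IsKahler 𝓜 g) (hric : leF 𝓜 0 (ricF g)) (hu : 𝓜.Smooth u)
    (hx : x ∈ 𝓜.carrier) :
    gradSq 𝓜 g (gradSq 𝓜 g u) x ≤ 2 * gradSq 𝓜 g u x * bochD 𝓜 g u x := by
  obtain ⟨Φ, U, hΦ, h0, rfl, hN⟩ := exists_normal_coords hk hx
  have hm := hk.toIsMetric
  have hN1 := hN.toIsNormalAt
  rw [bo_bochD_eq hk hu hΦ h0 hN1, hN1.gradSq_eq hm _ hΦ h0, hN1.gradSq_eq hm u hΦ h0,
    grad10_congr (bo_gradSq_ev hk hΦ h0)]
  have h1 := bo_ric_nonneg hric hΦ h0 (grad10 (u ∘ Φ) 0)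
  set v := grad10 (u ∘ Φ) 0 with hv
  set S := ∑ i, ‖v i‖ ^ 2 with hS
  have hS0 : 0 ≤ S := Finset.sum_nonneg fun _ _ => sq_nonneg _
  have key : ∀ l, ‖grad10 (fun z => qf ((g Φ z)⁻¹).transpose (grad10 (u ∘ Φ) z)) 0 l‖ ^ 2 ≤
      2 * S * (∑ k, ‖dz l (fun w => grad10 (u ∘ Φ) w k) 0‖ ^ 2 + ∑ k, ‖levi (u ∘ Φ) 0 l k‖ ^ 2) := by
    intro l
    rw [ly_chart_grad (bo_lyChart hk hu hΦ h0 hN1) l, Finset.sum_add_distrib]
    have a1 := lv_cauchy_schwarz Finset.univ (fun k => levi (u ∘ Φ) 0 l k) v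
    have a2 := lv_cauchy_schwarz Finset.univ v (fun k => dz l (fun w => grad10 (u ∘ Φ) w k) 0)
    have a3 : ∀ a b : ℂ, ‖a + b‖ ^ 2 ≤ 2 * ‖a‖ ^ 2 + 2 * ‖b‖ ^ 2 := by
      intro a b
      have t1 := norm_add_le a b
      have t2 : ‖a + b‖ ^ 2 ≤ (‖a‖ + ‖b‖) ^ 2 := by gcongr
      nlinarith [sq_nonneg (‖a‖ - ‖b‖)]
    refine (a3 _ _).trans ?_
    nlinarith [a1, a2]
  calc ∑ l, ‖grad10 (fun z => qf ((g Φ z)⁻¹).transpose (grad10 (u ∘ Φ) z)) 0 l‖ ^ 2
      ≤ ∑ l, 2 * S * (∑ k, ‖dz l (fun w => grad10 (u ∘ Φ) w k) 0‖ ^ 2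
          + ∑ k, ‖levi (u ∘ Φ) 0 l k‖ ^ 2) := Finset.sum_le_sum fun l _ => key l
    _ = 2 * S * (∑ k, ∑ l, ‖dz l (fun w => grad10 (u ∘ Φ) w k) 0‖ ^ 2
          + ∑ k, ∑ l, ‖levi (u ∘ Φ) 0 l k‖ ^ 2) := by
        rw [← Finset.mul_sum, Finset.sum_add_distrib,
          Finset.sum_comm (f := fun l k => ‖dz l (fun w => grad10 (u ∘ Φ) w k) 0‖ ^ 2),
          Finset.sum_comm (f := fun l k => ‖levi (u ∘ Φ) 0 l k‖ ^ 2)]
    _ ≤ _ := by
        apply mul_le_mul_of_nonneg_left _ (by positivity)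
        linarith

end Claimed.Agent.R316
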