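import Claimed.Agent.R316.Pack018
import Claimed.Agent.R316.Base.Metric.Api
import Claimed.Agent.R316.CM.FormsST

/-!
# Row 316, `BP-G9` (Li-Yau package), file 1: profiles, cutoffs, truncations     (leaf `G9-CUT`)

Sub-captain: helper201.  Statements are frozen; the owner of the leaf replaces every `sorry`.

Everything geometric comes from `S.good : GoodDist 𝓜 g` (smooth `ρ` with `|ρ - d(x₀,·)²| ≤ ε`, `dd ρ ≤ 2 g`, `|∂ρ|² ≤ (d + ε)²`).

PLANS
* `ly_exists_profile`: `θ s = Real.smoothTransition (3 - s)`, `η = θ²`.  `η' = 2 θ θ'`, so `η'² = 4 θ'² η`; `θ'`, `θ''` are continuous and vanish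
  outside `[2,3]` (there `θ` is locally constant), hence bounded (`IsCompact.exists_bound_of_continuousOn` on `Icc 2 3`).
  `θ' ≤ 0` because `θ` is antitone (`Real.smoothTransition.monotone`).
* `ly_exists_trunc`: `χ s = ∫ σ in 0..s, Real.smoothTransition (2 - σ / N)`.  `χ' = θ_N ∈ [0,1]`, `χ'' ≤ 0` (antitone), `θ_N = 1` on `(-∞,N]`,
  `θ_N = 0` on `[2N,∞)`; `c = χ (2 N)`.  Smoothness: `contDiff_infty_iff_deriv` / `ContDiff` of a primitive of a smooth function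
  (`intervalIntegral.integral_hasDerivAt_right`, `contDiff_succ_iff_deriv`).
* `ly_lap_le_of_ddc_le`: `tr` is monotone and `tr_g (c g) = c n` (`CM/Forms.lean`: `tr_mono`-type lemmas, `tr_smulF`, `tr_self`); `lap = tr (ddc ·)` by `rfl`.
* `ly_exists_rho`: unpack `S.good`; sublevel sets: `ρ y ≤ L → d(x₀,y)² ≤ L + ε`, so `y ∈ hcball x₀ (√(|L| + ε))`, compact by `S.proper`.
* `ly_cutoff`: `ε = min R² R`, `φ = η (ρ / R²)`.  `d < R ⟹ ρ ≤ 2R² ⟹ φ = 1`; `d ≥ 2R ⟹ ρ ≥ 3R² ⟹ φ = 0`.  Where `η' (ρ/R²) ≠ 0` or `η'' ≠ 0`: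
  `ρ ≤ 3R²`, `d ≤ 2R`, `|∂ρ|² ≤ 9R²`.  `gradSq_comp`, `lap_comp` (`Base/Vol/Calc.lean`):
  `|∂φ|² = η'² |∂ρ|²/R⁴ ≤ 9 C η / R²`,   `Δφ = η' Δρ/R² + η'' |∂ρ|²/R⁴ ≥ - C 2n/R² - 9C/R²` (`η' ≤ 0`, `Δρ ≤ 2n`).
-/

set_option autoImplicit false
open scoped ContDiff ComplexOrder Topology
open MeasureTheory Filter

namespace Claimed.Agent.R316

variable {V : Type} [NormedAddCommGroup V] [NormedSpace ℝ V] [FiniteDimensional ℝ V]
  [MeasurableSpace V] [BorelSpace V]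
variable {n : ℕ} {𝓜 : CMfd V (Fin n)} {g : HFam V (Fin n)}

/-- a continuous function vanishing off `[a,b]` is bounded. -/
theorem ly_bdd_of_zero_off {f : ℝ → ℝ} {a b : ℝ} (hf : Continuous f) (h : ∀ s, s ∉ Set.Icc a b → f s = 0) :
    ∃ B : ℝ, 0 ≤ B ∧ ∀ s, |f s| ≤ B := by
  obtain ⟨B, hB⟩ := (isCompact_Icc (a := a) (b := b)).exists_bound_of_continuousOn hf.continuousOn
  refine ⟨max B 0, le_max_right _ _, fun s => ?_⟩
  by_cases hs : s ∈ Set.Icc a b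
  · exact (hB s hs).trans (le_max_left _ _)
  · rw [h s hs]; simp

/-- the derivative vanishes off `[a,b]` if the function is constant on both sides. -/
theorem ly_deriv_zero_off {f : ℝ → ℝ} {a b c₁ c₂ : ℝ} (h1 : ∀ s, s ≤ a → f s = c₁) (h2 : ∀ s, b ≤ s → f s = c₂) :
    ∀ s, s ∉ Set.Icc a b → deriv f s = 0 := by
  intro s hs
  rw [Set.mem_Icc, not_and_or, not_le, not_le] at hs
  rcases hs with hs | hs
  · have : f =ᶠ[𝓝 s] fun _ => c₁ := by
      filter_upwards [Iio_mem_nhds hs] with y hy using h1 y (le_of_lt hy)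
    rw [this.deriv_eq]; simp
  · have : f =ᶠ[𝓝 s] fun _ => c₂ := by
      filter_upwards [Ioi_mem_nhds hs] with y hy using h2 y (le_of_lt hy)
    rw [this.deriv_eq]; simp

/-- the cutoff profile: `1` on `(-∞,2]`, `0` on `[3,∞)`, nonincreasing, `η'² ≤ C η`. -/
theorem ly_exists_profile : ∃ (η : ℝ → ℝ) (C : ℝ), ContDiff ℝ ∞ η ∧ (∀ s, 0 ≤ η s ∧ η s ≤ 1) ∧
    (∀ s, s ≤ 2 → η s = 1) ∧ (∀ s, 3 ≤ s → η s = 0) ∧ (∀ s, deriv η s ≤ 0) ∧
    (∀ s, deriv η s ^ 2 ≤ C * η s) ∧ (∀ s, |deriv η s| ≤ C) ∧ (∀ s, |deriv (deriv η) s| ≤ C) := by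
  set θ : ℝ → ℝ := fun s => Real.smoothTransition (3 - s) with hθ
  have hθs : ContDiff ℝ ∞ θ := Real.smoothTransition.contDiff.comp (contDiff_const.sub contDiff_id)
  have hθ0 : ∀ s, 0 ≤ θ s := fun s => Real.smoothTransition.nonneg _
  have hθ1 : ∀ s, θ s ≤ 1 := fun s => Real.smoothTransition.le_one _
  have hθa : ∀ s, s ≤ 2 → θ s = 1 := fun s hs => Real.smoothTransition.one_of_one_le (by linarith)
  have hθb : ∀ s, 3 ≤ s → θ s = 0 := fun s hs => Real.smoothTransition.zero_of_nonpos (by linarith)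
  have hθanti : Antitone θ := fun s t hst => Real.smoothTransition.monotone (by linarith)
  have hθd : Differentiable ℝ θ := hθs.differentiable (by simp)
  have hθ's : ContDiff ℝ ∞ (deriv θ) := by
    have := (contDiff_infty_iff_deriv.1 hθs).2; exact this
  have hθ'd : Differentiable ℝ (deriv θ) := hθ's.differentiable (by simp)
  have hθ''s : ContDiff ℝ ∞ (deriv (deriv θ)) := (contDiff_infty_iff_deriv.1 hθ's).2
  have hθ'0 : ∀ s, s ∉ Set.Icc (2:ℝ) 3 → deriv θ s = 0 := ly_deriv_zero_off hθa hθb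
  have hθ''0 : ∀ s, s ∉ Set.Icc (2:ℝ) 3 → deriv (deriv θ) s = 0 := by
    apply ly_deriv_zero_off (c₁ := 0) (c₂ := 0)
    · intro s hs
      rcases hs.lt_or_eq with h | h
      · exact hθ'0 s (fun hh => absurd hh.1 (not_le.2 h))
      · -- by continuity
        subst h
        have hc : Tendsto (deriv θ) (𝓝[<] (2:ℝ)) (𝓝 (deriv θ 2)) :=
          (hθ's.continuous.tendsto 2).mono_left nhdsWithin_le_nhds
        have hz : Tendsto (deriv θ) (𝓝[<] (2:ℝ)) (𝓝 0) := by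
          apply tendsto_const_nhds.congr'
          filter_upwards [self_mem_nhdsWithin] with y hy
          exact (hθ'0 y (fun hh => absurd hh.1 (not_le.2 hy))).symm
        exact tendsto_nhds_unique hc hz
    · intro s hs
      rcases hs.lt_or_eq with h | h
      · exact hθ'0 s (fun hh => absurd hh.2 (not_le.2 h))
      · subst h
        have hc : Tendsto (deriv θ) (𝓝[>] (3:ℝ)) (𝓝 (deriv θ 3)) :=
          (hθ's.continuous.tendsto 3).mono_left nhdsWithin_le_nhds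
        have hz : Tendsto (deriv θ) (𝓝[>] (3:ℝ)) (𝓝 0) := by
          apply tendsto_const_nhds.congr'
          filter_upwards [self_mem_nhdsWithin] with y hy
          exact (hθ'0 y (fun hh => absurd hh.2 (not_le.2 hy))).symm
        exact tendsto_nhds_unique hc hz
  obtain ⟨B1, hB1, hb1⟩ := ly_bdd_of_zero_off hθ's.continuous hθ'0
  obtain ⟨B2, hB2, hb2⟩ := ly_bdd_of_zero_off hθ''s.continuous hθ''0
  have hθ'le : ∀ s, deriv θ s ≤ 0 := fun s => hθanti.deriv_nonpos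
  have hη' : deriv (fun s => θ s ^ 2) = fun s => 2 * θ s * deriv θ s := by
    funext s
    have := ((hθd s).hasDerivAt.pow 2).deriv
    rw [show (fun s => θ s ^ 2) = θ ^ 2 from rfl, this]; simp
  have hη'' : deriv (deriv (fun s => θ s ^ 2)) = fun s => 2 * deriv θ s ^ 2 + 2 * θ s * deriv (deriv θ) s := by
    rw [hη']
    funext s
    have := (((hθd s).hasDerivAt.const_mul 2).mul (hθ'd s).hasDerivAt).deriv
    rw [show (fun s => 2 * θ s * deriv θ s) = ((fun y => 2 * θ y) * deriv θ) from rfl, this]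
    ring
  refine ⟨fun s => θ s ^ 2, 4 * B1 ^ 2 + 2 * B1 + 2 * B2, hθs.pow 2, fun s => ⟨by positivity, ?_⟩, ?_, ?_, ?_, ?_, ?_, ?_⟩
  · exact pow_le_one₀ (hθ0 s) (hθ1 s)
  · intro s hs; simp [hθa s hs]
  · intro s hs; simp [hθb s hs]
  · intro s; rw [hη']; have := hθ'le s; have := hθ0 s; simp only; nlinarith
  · intro s; rw [hη']; simp only
    have h1 : deriv θ s ^ 2 ≤ B1 ^ 2 := by
      rw [← sq_abs]; exact pow_le_pow_left₀ (abs_nonneg _) (hb1 s) 2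
    have h2 : 0 ≤ θ s ^ 2 := by positivity
    nlinarith
  · intro s; rw [hη']; simp only
    rw [abs_mul, abs_mul, abs_of_nonneg (hθ0 s)]
    have := hb1 s; have := hθ0 s; have := hθ1 s; have := abs_nonneg (deriv θ s)
    norm_num
    nlinarith
  · intro s; rw [hη'']; simp only
    have h1 : deriv θ s ^ 2 ≤ B1 ^ 2 := by
      rw [← sq_abs]; exact pow_le_pow_left₀ (abs_nonneg _) (hb1 s) 2
    have h3 := abs_le.1 (hb2 s)
    have := hθ0 s; have := hθ1 s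
    rw [abs_le]; constructor <;> nlinarith [sq_nonneg (deriv θ s)]

/-- concave truncation of the identity at height `N`. -/
theorem ly_exists_trunc {N : ℝ} (hN : 0 < N) : ∃ (χ : ℝ → ℝ) (c : ℝ), ContDiff ℝ ∞ χ ∧
    (∀ s, s ≤ N → χ s = s) ∧ (∀ s, 2 * N ≤ s → χ s = c) ∧ (∀ s, 0 ≤ deriv χ s ∧ deriv χ s ≤ 1) ∧
    (∀ s, deriv (deriv χ) s ≤ 0) ∧ (∀ s, χ s ≤ s) ∧ (∀ s, χ s ≤ c) ∧ N ≤ c := by
  set θ : ℝ → ℝ := fun s => Real.smoothTransition (2 - s / N) with hθ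
  have hθs : ContDiff ℝ ∞ θ :=
    Real.smoothTransition.contDiff.comp (contDiff_const.sub (contDiff_id.div_const N))
  have hθc : Continuous θ := hθs.continuous
  have hθ0 : ∀ s, 0 ≤ θ s := fun s => Real.smoothTransition.nonneg _
  have hθ1 : ∀ s, θ s ≤ 1 := fun s => Real.smoothTransition.le_one _
  have hθa : ∀ s, s ≤ N → θ s = 1 := fun s hs => Real.smoothTransition.one_of_one_le (by
    have : s / N ≤ 1 := (div_le_one hN).2 hs
    linarith)
  have hθb : ∀ s, 2 * N ≤ s → θ s = 0 := fun s hs => Real.smoothTransition.zero_of_nonpos (by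
    have : 2 ≤ s / N := (le_div_iff₀ hN).2 hs
    linarith)
  have hθanti : Antitone θ := fun s t hst => Real.smoothTransition.monotone (by
    have : s / N ≤ t / N := div_le_div_of_nonneg_right hst hN.le
    linarith)
  set χ : ℝ → ℝ := fun s => ∫ σ in (0:ℝ)..s, θ σ with hχ
  have hχd : ∀ s, HasDerivAt χ (θ s) s := fun s =>
    intervalIntegral.integral_hasDerivAt_right (hθc.intervalIntegrable _ _)
      hθc.stronglyMeasurable.stronglyMeasurableAtFilter hθc.continuousAt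
  have hχ' : deriv χ = θ := funext fun s => (hχd s).deriv
  have hχs : ContDiff ℝ ∞ χ := by
    rw [contDiff_infty_iff_deriv]
    exact ⟨fun s => (hχd s).differentiableAt, by rw [hχ']; exact hθs⟩
  have hmono : Monotone χ := monotone_of_deriv_nonneg (fun s => (hχd s).differentiableAt)
    (fun s => by rw [hχ']; exact hθ0 s)
  have hid : ∀ s, s ≤ N → χ s = s := by
    intro s hs
    have : ∫ σ in (0:ℝ)..s, θ σ = ∫ σ in (0:ℝ)..s, (1:ℝ) := by
      apply intervalIntegral.integral_congr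
      intro σ hσ
      apply hθa
      rcases Set.mem_uIcc.1 hσ with h | h
      · exact h.2.trans hs
      · exact h.2.trans hN.le
    simp only [hχ, this]; simp
  have hconst : ∀ s, 2 * N ≤ s → χ s = χ (2 * N) := by
    intro s hs
    have h1 : χ s = χ (2 * N) + ∫ σ in (2 * N)..s, θ σ :=
      (intervalIntegral.integral_add_adjacent_intervals (hθc.intervalIntegrable _ _)
        (hθc.intervalIntegrable _ _)).symm
    have h2 : ∫ σ in (2 * N)..s, θ σ = ∫ σ in (2 * N)..s, (0:ℝ) := by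
      apply intervalIntegral.integral_congr
      intro σ hσ
      apply hθb
      rw [Set.uIcc_of_le hs] at hσ
      exact hσ.1
    rw [h1, h2]; simp
  refine ⟨χ, χ (2 * N), hχs, hid, hconst, fun s => by rw [hχ']; exact ⟨hθ0 s, hθ1 s⟩, ?_, ?_, ?_, ?_⟩
  · intro s; rw [hχ']; exact hθanti.deriv_nonpos
  · intro s
    rcases le_total s N with h | h
    · exact (hid s h).le
    · have hs0 : 0 ≤ s := hN.le.trans h
      have : ∫ σ in (0:ℝ)..s, θ σ ≤ ∫ σ in (0:ℝ)..s, (1:ℝ) :=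
        intervalIntegral.integral_mono_on hs0 (hθc.intervalIntegrable _ _)
          (continuous_const.intervalIntegrable _ _) (fun σ _ => hθ1 σ)
      simpa [hχ] using this
  · intro s
    rcases le_total s (2 * N) with h | h
    · exact hmono h
    · exact (hconst s h).le
  · calc N = χ N := (hid N le_rfl).symm
      _ ≤ χ (2 * N) := hmono (by linarith)

/-- `dd ρ ≤ c g ⟹ Δρ ≤ c n`. -/
theorem ly_lap_le_of_ddc_le (hg : IsMetric 𝓜 g) {ρ : V → ℝ} (hρ : 𝓜.Smooth ρ) {c : ℝ}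
    (h : leF 𝓜 (ddc ρ) (smulF (fun _ => c) g)) {x : V} (hx : x ∈ 𝓜.carrier) :
    lap 𝓜 g ρ x ≤ c * n := by
  have h1 : tr 𝓜 g (ddc ρ) x ≤ tr 𝓜 g (smulF (fun _ => c) g) x := h.tr_le hg hx
  rw [tr_smulF g g (fun _ => c) hx, tr_self hg hx] at h1
  simpa [lap] using h1

/-- `GoodDist`, in the form used in this package. -/
theorem ly_exists_rho (S : AnaSetting 𝓜 g) {x₀ : V} (hx₀ : x₀ ∈ 𝓜.carrier) {ε : ℝ} (hε : 0 < ε) :
    ∃ ρ : V → ℝ, 𝓜.Smooth ρ ∧ (∀ y ∈ 𝓜.carrier, |ρ y - hdist 𝓜 g x₀ y ^ 2| ≤ ε) ∧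
      (∀ y ∈ 𝓜.carrier, lap 𝓜 g ρ y ≤ 2 * n) ∧
      (∀ y ∈ 𝓜.carrier, gradSq 𝓜 g ρ y ≤ (hdist 𝓜 g x₀ y + ε) ^ 2) ∧
      ∀ L : ℝ, ∃ K : Set V, IsCompact K ∧ K ⊆ 𝓜.carrier ∧ ∀ y ∈ 𝓜.carrier, ρ y ≤ L → y ∈ K := by
  obtain ⟨ρ, hρ, h1, h2, h3⟩ := S.good x₀ hx₀ ε hε
  refine ⟨ρ, hρ, h1, fun y hy => ly_lap_le_of_ddc_le S.kahler.toIsMetric hρ h2 hy, h3, fun L => ?_⟩
  refine ⟨hcball 𝓜 g x₀ (Real.sqrt (|L| + ε)), S.proper x₀ hx₀ _, hcball_subset_carrier _ _ _ _,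
    fun y hy hL => ⟨hy, ?_⟩⟩
  apply Real.le_sqrt_of_sq_le
  have := (abs_le.1 (h1 y hy)).1
  have := le_abs_self L
  linarith

/-- **the cutoffs**: `φ = 1` on `B(x₀,R)`, `φ = 0` outside `B(x₀,2R)`, `|∂φ|² ≤ (C/R²) φ`, `Δφ ≥ - C/R²`. -/
theorem ly_cutoff (S : AnaSetting 𝓜 g) : ∃ C : ℝ, 0 ≤ C ∧ ∀ x₀ ∈ 𝓜.carrier, ∀ R : ℝ, 0 < R →
    ∃ φ : V → ℝ, 𝓜.Smooth φ ∧ (∀ y ∈ 𝓜.carrier, 0 ≤ φ y ∧ φ y ≤ 1) ∧
      (∀ y ∈ hball 𝓜 g x₀ R, φ y = 1) ∧ (∀ y ∈ 𝓜.carrier, 2 * R ≤ hdist 𝓜 g x₀ y → φ y = 0) ∧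
      (∀ y ∈ 𝓜.carrier, gradSq 𝓜 g φ y ≤ C / R ^ 2 * φ y) ∧
      (∀ y ∈ 𝓜.carrier, -(C / R ^ 2) ≤ lap 𝓜 g φ y) := by
  obtain ⟨η, C₀, hηs, hη01, hη1, hη0, hη'le, hη'sq, hη'b, hη''b⟩ := ly_exists_profile
  have hm : IsMetric 𝓜 g := S.kahler.toIsMetric
  have hC₀ : 0 ≤ C₀ := (abs_nonneg _).trans (hη'b 0)
  have hfar' : ∀ s : ℝ, 3 < s → deriv η s = 0 ∧ deriv (deriv η) s = 0 := by
    intro s hs
    have h0 : η =ᶠ[𝓝 s] fun _ => 0 := by
      filter_upwards [Ioi_mem_nhds hs] with y hy using hη0 y (le_of_lt hy)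
    have h1 : deriv η =ᶠ[𝓝 s] fun _ => 0 := by
      have := h0.deriv
      simpa using this
    refine ⟨by simpa using h1.self_of_nhds, ?_⟩
    rw [h1.deriv_eq]; simp
  refine ⟨9 * C₀ + 2 * n * C₀, by positivity, fun x₀ hx₀ R hR => ?_⟩
  have hR2 : 0 < R ^ 2 := by positivity
  obtain ⟨ρ, hρ, hρd, hρlap, hρgrad, -⟩ := ly_exists_rho S hx₀ (ε := min (R ^ 2) R) (lt_min hR2 hR)
  set c : ℝ := 1 / R ^ 2 with hc
  have hc0 : 0 < c := by positivity
  set v : V → ℝ := fun y => c * ρ y with hv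
  have hvs : 𝓜.Smooth v := hρ.const_mul c
  have hgv : ∀ y ∈ 𝓜.carrier, gradSq 𝓜 g v y = c ^ 2 * gradSq 𝓜 g ρ y := fun y hy =>
    gradSq_const_mul g c (hρ.diffAt hy)
  have hlv : ∀ y ∈ 𝓜.carrier, lap 𝓜 g v y = c * lap 𝓜 g ρ y := fun y hy =>
    lap_const_mul g c (hρ.c2At hy)
  have hgφ : ∀ y ∈ 𝓜.carrier, gradSq 𝓜 g (fun y => η (v y)) y = deriv η (v y) ^ 2 * (c ^ 2 * gradSq 𝓜 g ρ y) :=
    fun y hy => by
      rw [gradSq_comp g hy (hηs.differentiable (by simp) _) (hvs.diffAt hy), hgv y hy]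
  have hlφ : ∀ y ∈ 𝓜.carrier, lap 𝓜 g (fun y => η (v y)) y =
      deriv η (v y) * (c * lap 𝓜 g ρ y) + deriv (deriv η) (v y) * (c ^ 2 * gradSq 𝓜 g ρ y) :=
    fun y hy => by
      rw [lap_comp g hy (hηs.contDiffAt.of_le (by norm_cast)) (hvs.c2At hy), hgv y hy, hlv y hy]
  -- where `v ≤ 3` the gradient of `ρ` is controlled
  have hnear : ∀ y ∈ 𝓜.carrier, v y ≤ 3 → gradSq 𝓜 g ρ y ≤ 9 * R ^ 2 := by
    intro y hy h3
    have h1 : ρ y ≤ 3 * R ^ 2 := by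
      have : c * ρ y ≤ 3 := h3
      rw [hc, one_div, inv_mul_le_iff₀ hR2] at this
      linarith
    have h2 := (abs_le.1 (hρd y hy)).1
    have h4 : hdist 𝓜 g x₀ y ^ 2 ≤ (2 * R) ^ 2 := by
      have := min_le_left (R ^ 2) R
      nlinarith
    have h5 : hdist 𝓜 g x₀ y ≤ 2 * R := by
      exact (abs_le_of_sq_le_sq' h4 (by positivity)).2
    have h6 : (hdist 𝓜 g x₀ y + min (R ^ 2) R) ^ 2 ≤ (3 * R) ^ 2 := by
      apply pow_le_pow_left₀
      · have := hdist_nonneg 𝓜 g x₀ y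
        have : 0 < min (R ^ 2) R := lt_min hR2 hR
        linarith
      · have := min_le_right (R ^ 2) R
        linarith
    calc gradSq 𝓜 g ρ y ≤ _ := hρgrad y hy
      _ ≤ (3 * R) ^ 2 := h6
      _ = 9 * R ^ 2 := by ring
  have hcR : c ^ 2 * (9 * R ^ 2) = 9 / R ^ 2 := by rw [hc]; field_simp
  refine ⟨fun y => η (v y), hvs.comp hηs, fun y _ => hη01 _, ?_, ?_, ?_, ?_⟩
  · intro y hy
    apply hη1
    have h2 := (abs_le.1 (hρd y hy.1)).2
    have h3 : hdist 𝓜 g x₀ y ^ 2 ≤ R ^ 2 :=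
      pow_le_pow_left₀ (hdist_nonneg _ _ _ _) hy.2.le 2
    have h4 := min_le_left (R ^ 2) R
    show c * ρ y ≤ 2
    rw [hc, one_div, inv_mul_le_iff₀ hR2]
    linarith
  · intro y hy hd
    apply hη0
    have h2 := (abs_le.1 (hρd y hy)).1
    have h3 : (2 * R) ^ 2 ≤ hdist 𝓜 g x₀ y ^ 2 := pow_le_pow_left₀ (by positivity) hd 2
    have h4 := min_le_left (R ^ 2) R
    show 3 ≤ c * ρ y
    rw [hc, one_div, le_inv_mul_iff₀ hR2]
    nlinarith
  · intro y hy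
    rw [hgφ y hy]
    have hφ0 := (hη01 (v y)).1
    rcases le_or_gt (v y) 3 with h3 | h3
    · have h1 := hnear y hy h3
      have h2 : c ^ 2 * gradSq 𝓜 g ρ y ≤ 9 / R ^ 2 := by
        rw [← hcR]; exact mul_le_mul_of_nonneg_left h1 (by positivity)
      have h4 : 0 ≤ c ^ 2 * gradSq 𝓜 g ρ y := mul_nonneg (by positivity) (gradSq_nonneg hm ρ hy)
      calc deriv η (v y) ^ 2 * (c ^ 2 * gradSq 𝓜 g ρ y) ≤ (C₀ * η (v y)) * (9 / R ^ 2) :=
            mul_le_mul (hη'sq _) h2 h4 (by positivity)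
        _ = 9 * C₀ / R ^ 2 * η (v y) := by ring
        _ ≤ (9 * C₀ + 2 * n * C₀) / R ^ 2 * η (v y) := by
            apply mul_le_mul_of_nonneg_right _ hφ0
            apply div_le_div_of_nonneg_right _ hR2.le
            have : 0 ≤ 2 * (n:ℝ) * C₀ := by positivity
            linarith
    · rw [(hfar' _ h3).1]
      have : 0 ≤ (9 * C₀ + 2 * n * C₀) / R ^ 2 * η (v y) := by positivity
      simpa using this
  · intro y hy
    rw [hlφ y hy]
    rcases le_or_gt (v y) 3 with h3 | h3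
    · have h1 := hnear y hy h3
      have h2 : c ^ 2 * gradSq 𝓜 g ρ y ≤ 9 / R ^ 2 := by
        rw [← hcR]; exact mul_le_mul_of_nonneg_left h1 (by positivity)
      have h4 : 0 ≤ c ^ 2 * gradSq 𝓜 g ρ y := mul_nonneg (by positivity) (gradSq_nonneg hm ρ hy)
      have h5 : c * lap 𝓜 g ρ y ≤ c * (2 * n) := mul_le_mul_of_nonneg_left (hρlap y hy) hc0.le
      have h6 : -(C₀ * (c * (2 * n))) ≤ deriv η (v y) * (c * lap 𝓜 g ρ y) := by
        have ha := (abs_le.1 (hη'b (v y))).1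
        have hb := hη'le (v y)
        have hcn : 0 ≤ c * (2 * (n:ℝ)) := by positivity
        nlinarith
      have h7 : -(C₀ * (9 / R ^ 2)) ≤ deriv (deriv η) (v y) * (c ^ 2 * gradSq 𝓜 g ρ y) := by
        have ha := (abs_le.1 (hη''b (v y))).1
        nlinarith
      have h8 : (9 * C₀ + 2 * n * C₀) / R ^ 2 = C₀ * (c * (2 * n)) + C₀ * (9 / R ^ 2) := by
        rw [hc]; field_simp; ring
      rw [h8]; linarith
    · rw [(hfar' _ h3).1, (hfar' _ h3).2]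
      have : 0 ≤ (9 * C₀ + 2 * n * C₀) / R ^ 2 := by positivity
      simpa using this

/-- the cutoffs are compactly supported. -/
theorem ly_csupp_of_eq_zero (S : AnaSetting 𝓜 g) {x₀ : V} (hx₀ : x₀ ∈ 𝓜.carrier) {R : ℝ} {φ : V → ℝ}
    (h0 : ∀ y ∈ 𝓜.carrier, R ≤ hdist 𝓜 g x₀ y → φ y = 0) : 𝓜.CSupp φ := by
  refine ⟨hcball 𝓜 g x₀ R, S.proper x₀ hx₀ R, hcball_subset_carrier _ _ _ _, fun y hy hyK => ?_⟩
  apply h0 y hy
  by_contra hcon
  exact hyK ⟨hy, (not_le.1 hcon).le⟩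

end Claimed.Agent.R316
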