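import Claimed.Agent.R316.Base.LiYau.Mass

/-!
# Row 316, `BP-G9`, file 11: on-diagonal bounds, volume comparison, positivity, lower bound     (leaves `G9-DIAG-A` (first four), `G9-DIAG-B` (the rest))

Sub-captain: helper201.  Statements are frozen; the owner of a leaf replaces its `sorry`s.

* `ly_Hk_harnack`: `ly_harnack_nonneg` for `u s x = HC.Hk s x y` on `Ioc 0 t₂` (`ly_isHeatSol_Hk`, `ly_heatSol_mono`, `HC.nonneg`).
* `ly_Vb_basic`: `hball x r ⊆ hcball x r` compact (`S.proper`), `hvol_lt_top_of_isCompact`; positivity: `exists_isOpen_hball`, `hvol_pos_of_isOpen`, `mem_hball_self`; `isVol_hvol`.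
* `ly_Hk_mul_Vb_le` (`C = 2^n e`).  For `z ∈ B(x,√t)`: `Hk t x y ≤ Hk (2t) z y 2^n e^{d(x,z)²/t} ≤ 2^n e Hk (2t) z y`.  Integrate over `z ∈ B(x,√t)`: `Vb x √t · Hk t x y ≤ 2^n e ∫ Hk (2t) z y dz = 2^n e ∫ Hk (2t) y z dz ≤ 2^n e`.
* `ly_diag_mono`.  `k s = HC.Hk s x x = u s x` with `u s x' = Hk s x' x`.  `ly_li_yau_nonneg`: `0 ≤ |∂u|² ≤ u (Δu + (n/s) u)`.  If `k > 0` on `[s,t]`: `(log (σ^n k σ))' = n/σ + Δu/u ≥ 0`.  To avoid positivity: `ψ σ = σ^n k σ`,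
  `ψ' = σ^n (k' + (n/σ) k)`, `k' = Δu(x)` (`HC.heat`).  If `k σ > 0` then `k' + (n/σ)k ≥ 0`.  If `k σ = 0` then `σ` is a minimum of `k ≥ 0`, so `k' σ = 0`.  Hence `ψ' ≥ 0` on `(0,∞)`: `monotoneOn_of_deriv_nonneg`.
* `ly_diag_ge`.  `B = hball x r`, `(4n+4) t ≤ r²`.  `∫_{Bᶜ} Hk t x ≤ r^{-2} ∫ Hk d² ≤ 2nt/r² ≤ 1/2` (`ly_moment2`), so `∫_B Hk t x ≥ 1/2` (`ly_mass`).  Cauchy-Schwarz
  (`integral_mul_le_Lp_mul_Lq` or `(∫_B f)² ≤ μ(B) ∫ f²` from `∫ (f - c)² ≥ 0`): `1/4 ≤ Vb x r ∫ (Hk t x y)² dy = Vb x r · Hk (2t) x x` (`HC.semigroup`, `HC.symm`).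
* `ly_volComparison`.  `0 < r ≤ R`, `t₁ = r²/(4n+4)`: `1 ≤ 4 Vb x r Hk(2t₁)xx`;  `Hk(R²)xx · Vb x R ≤ C₁`;  `2t₁ ≤ R²`, `(2t₁)^n Hk(2t₁)xx ≤ R^{2n} Hk(R²)xx`.  Multiply: `Vb x R ≤ 4 C₁ (2n+2)^n (R/r)^{2n} Vb x r`.
* `ly_Hk_pos`: `Hk (t/2) x x > 0` by `ly_diag_ge`, then `ly_Hk_harnack` from `(t/2,x)` to `(t,y)` (kernel with second argument `x`), `HC.symm`.
* `ly_lower`: `Hk t x y ≥ 2^{-n} e^{-2A²} Hk (t/2) x x ≥ 2^{-n} e^{-2A²}/(4 Vb x √((n+1)t))`, and `Vb x √((n+1)t) ≤ C (n+1)^n Vb x √t`.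
-/

set_option autoImplicit false
open scoped ContDiff ComplexOrder Topology
open MeasureTheory Filter

namespace Claimed.Agent.R316

variable {V : Type} [NormedAddCommGroup V] [NormedSpace ℝ V] [FiniteDimensional ℝ V]
  [MeasurableSpace V] [BorelSpace V]
variable {n : ℕ} {𝓜 : CMfd V (Fin n)} {g : HFam V (Fin n)} (HC : HeatCore 𝓜 g)

/-- Harnack inequality for the kernel. -/
theorem ly_Hk_harnack (S : AnaSetting 𝓜 g) {t₁ t₂ : ℝ} (h1 : 0 < t₁) (h12 : t₁ < t₂) {x x' y : V}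
    (hx : x ∈ 𝓜.carrier) (hx' : x' ∈ 𝓜.carrier) (hy : y ∈ 𝓜.carrier) :
    HC.Hk t₁ x y ≤ HC.Hk t₂ x' y * (t₂ / t₁) ^ n * Real.exp (hdist 𝓜 g x x' ^ 2 / (t₂ - t₁)) :=
  ly_harnack_nonneg S (T := t₂) (u := fun s z => HC.Hk s z y) (h1.trans h12)
    (ly_heatSol_mono (ly_isHeatSol_Hk HC hy) Set.Ioc_subset_Ioi_self)
    (fun s hs z _ => HC.nonneg s hs.1 z y) h1 h12 le_rfl hx hx'

/-- balls have finite positive volume. -/
theorem ly_Vb_basic (S : AnaSetting 𝓜 g) : IsVol 𝓜 g (hvol 𝓜 g) ∧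
    (∀ x ∈ 𝓜.carrier, ∀ r : ℝ, hvol 𝓜 g (hball 𝓜 g x r) ≠ ⊤) ∧
    (∀ x ∈ 𝓜.carrier, ∀ r : ℝ, 0 < r → 0 < Vb 𝓜 g x r) ∧
    (∀ x ∈ 𝓜.carrier, ∀ r R : ℝ, r ≤ R → Vb 𝓜 g x r ≤ Vb 𝓜 g x R) := by
  have hg : IsMetric 𝓜 g := S.kahler.toIsMetric
  have hfin : ∀ x ∈ 𝓜.carrier, ∀ r : ℝ, hvol 𝓜 g (hball 𝓜 g x r) ≠ ⊤ := fun x hx r =>
    ((measure_mono (hball_subset_hcball 𝓜 g x r)).trans_lt
      (hvol_lt_top_of_isCompact hg (S.proper x hx r) (hcball_subset_carrier _ _ _ _))).ne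
  refine ⟨isVol_hvol hg.toIsHForm, hfin, fun x hx r hr => ?_, fun x hx r R hrR => ?_⟩
  · refine ENNReal.toReal_pos (hvol_pos_of_mem_nhdsWithin hg hx ?_).ne' (hfin x hx r)
    exact (hasBasis_nhdsWithin_hball hg S.conn hx).mem_of_mem hr
  · exact ENNReal.toReal_mono (hfin x hx R) (measure_mono (hball_mono 𝓜 g x hrR))

/-- **on-diagonal upper bound** `H_t(x,y) ≤ C / V(x,√t)`. -/
theorem ly_Hk_mul_Vb_le (S : AnaSetting 𝓜 g) : ∃ C : ℝ, 0 < C ∧ ∀ t : ℝ, 0 < t → ∀ x ∈ 𝓜.carrier,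
    ∀ y ∈ 𝓜.carrier, HC.Hk t x y * Vb 𝓜 g x (Real.sqrt t) ≤ C := by
  have hg : IsMetric 𝓜 g := S.kahler.toIsMetric
  obtain ⟨-, hfin, -, -⟩ := ly_Vb_basic S
  refine ⟨2 ^ n * Real.exp 1, by positivity, fun t ht x hx y hy => ?_⟩
  set B : Set V := hball 𝓜 g x (Real.sqrt t) with hB
  have hBm : MeasurableSet B := measurableSet_hball hg S.conn x _
  have h2t : 0 < 2 * t := by positivity
  have hi : Integrable (fun z => HC.Hk (2 * t) z y) (hvol 𝓜 g) := by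
    have : (fun z => HC.Hk (2 * t) z y) = HC.Hk (2 * t) y := by
      funext z; exact HC.symm _ _ _
    rw [this]; exact HC.integrable _ h2t y hy
  have hpt : ∀ z ∈ B, HC.Hk t x y ≤ HC.Hk (2 * t) z y * (2 ^ n * Real.exp 1) := by
    intro z hz
    have h1 := ly_Hk_harnack HC S ht (by linarith : t < 2 * t) hx hz.1 hy
    have e1 : 2 * t / t = 2 := by field_simp
    have e2 : 2 * t - t = t := by ring
    rw [e1, e2] at h1
    have h2 : hdist 𝓜 g x z ^ 2 / t ≤ 1 := by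
      rw [div_le_one ht]
      calc hdist 𝓜 g x z ^ 2 ≤ Real.sqrt t ^ 2 :=
            pow_le_pow_left₀ (hdist_nonneg _ _ _ _) hz.2.le 2
        _ = t := Real.sq_sqrt ht.le
    calc HC.Hk t x y ≤ HC.Hk (2 * t) z y * 2 ^ n * Real.exp (hdist 𝓜 g x z ^ 2 / t) := h1
      _ ≤ HC.Hk (2 * t) z y * 2 ^ n * Real.exp 1 :=
          mul_le_mul_of_nonneg_left (Real.exp_le_exp.2 h2)
            (mul_nonneg (HC.nonneg _ h2t _ _) (by positivity))
      _ = _ := by ring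
  have h1 : ∫ _z in B, HC.Hk t x y ∂(hvol 𝓜 g) ≤
      ∫ z in B, HC.Hk (2 * t) z y * (2 ^ n * Real.exp 1) ∂(hvol 𝓜 g) :=
    setIntegral_mono_on (integrableOn_const (hfin x hx _)) (hi.mul_const _).integrableOn hBm hpt
  have h2 : ∫ z in B, HC.Hk (2 * t) z y * (2 ^ n * Real.exp 1) ∂(hvol 𝓜 g) ≤
      ∫ z, HC.Hk (2 * t) z y * (2 ^ n * Real.exp 1) ∂(hvol 𝓜 g) :=
    setIntegral_le_integral (hi.mul_const _) (Filter.Eventually.of_forall fun z =>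
      mul_nonneg (HC.nonneg _ h2t _ _) (by positivity))
  have h3 : ∫ z, HC.Hk (2 * t) z y * (2 ^ n * Real.exp 1) ∂(hvol 𝓜 g) ≤ 2 ^ n * Real.exp 1 := by
    rw [integral_mul_const]
    have : ∫ z, HC.Hk (2 * t) z y ∂(hvol 𝓜 g) ≤ 1 := by
      have e : (fun z => HC.Hk (2 * t) z y) = HC.Hk (2 * t) y := by
        funext z; exact HC.symm _ _ _
      rw [e]; exact HC.submarkov _ h2t y hy
    calc _ ≤ 1 * (2 ^ n * Real.exp 1) := mul_le_mul_of_nonneg_right this (by positivity)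
      _ = _ := one_mul _
  have h4 : ∫ _z in B, HC.Hk t x y ∂(hvol 𝓜 g) = HC.Hk t x y * Vb 𝓜 g x (Real.sqrt t) := by
    rw [setIntegral_const, smul_eq_mul, mul_comm]; rfl
  rw [← h4]
  exact h1.trans (h2.trans h3)

/-- `t^n H_t(x,x)` is nondecreasing. -/
theorem ly_diag_mono (S : AnaSetting 𝓜 g) {s t : ℝ} (hs : 0 < s) (hst : s ≤ t) {x : V}
    (hx : x ∈ 𝓜.carrier) : s ^ n * HC.Hk s x x ≤ t ^ n * HC.Hk t x x := by
  have hg : IsMetric 𝓜 g := S.kahler.toIsMetric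
  set k : ℝ → ℝ := fun σ => HC.Hk σ x x with hk
  set k' : ℝ → ℝ := fun σ => lap 𝓜 g (fun x' => HC.Hk σ x' x) x with hk'
  have hkd : ∀ σ : ℝ, 0 < σ → HasDerivAt k (k' σ) σ := fun σ hσ => HC.heat σ hσ x hx x hx
  have hψd : ∀ σ : ℝ, 0 < σ →
      HasDerivAt (fun σ => σ ^ n * k σ) (n * σ ^ (n - 1) * k σ + σ ^ n * k' σ) σ := fun σ hσ => by
    have := (hasDerivAt_pow n σ).mul (hkd σ hσ)
    exact this
  have hnn : ∀ σ : ℝ, 0 < σ → 0 ≤ n * σ ^ (n - 1) * k σ + σ ^ n * k' σ := by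
    intro σ hσ
    have hk0 : 0 ≤ k σ := HC.nonneg σ hσ x x
    rcases hk0.lt_or_eq with hpos | hzero
    · have hLY := ly_li_yau_nonneg S (T := σ) (u := fun r z => HC.Hk r z x) hσ
        (ly_heatSol_mono (ly_isHeatSol_Hk HC hx) Set.Ioc_subset_Ioi_self)
        (fun r hr z _ => HC.nonneg r hr.1 z x) σ ⟨hσ, le_rfl⟩ x hx
      have h1 : 0 ≤ k σ * (k' σ + n / σ * k σ) := (gradSq_nonneg hg _ hx).trans hLY
      have h2 : 0 ≤ k' σ + n / σ * k σ := nonneg_of_mul_nonneg_right h1 hpos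
      have e : (n : ℝ) * σ ^ (n - 1) * k σ + σ ^ n * k' σ = σ ^ n * (k' σ + n / σ * k σ) := by
        rcases Nat.eq_zero_or_pos n with h0 | h0
        · subst h0; simp
        · have : σ ^ n = σ ^ (n - 1) * σ := by
            rw [← pow_succ]; congr 1; omega
          rw [this]; field_simp; ring
      rw [e]; positivity
    · have hmin : IsLocalMin k σ := by
        filter_upwards [Ioi_mem_nhds hσ] with r hr
        rw [← hzero]; exact HC.nonneg r hr x x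
      have h1 : k' σ = 0 := hmin.hasDerivAt_eq_zero (hkd σ hσ)
      rw [h1, ← hzero]; simp
  have hmono : MonotoneOn (fun σ => σ ^ n * k σ) (Set.Ioi 0) := by
    apply monotoneOn_of_deriv_nonneg (convex_Ioi 0)
    · exact fun σ hσ => (hψd σ hσ).continuousAt.continuousWithinAt
    · rw [interior_Ioi]
      exact fun σ hσ => (hψd σ hσ).differentiableAt.differentiableWithinAt
    · rw [interior_Ioi]
      intro σ hσ
      rw [(hψd σ hσ).deriv]; exact hnn σ hσ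
  exact hmono hs (hs.trans_le hst) hst

/-- **on-diagonal lower bound.** -/
theorem ly_diag_ge (S : AnaSetting 𝓜 g) {t r : ℝ} (ht : 0 < t) (hr : 0 < r)
    (htr : (4 * n + 4) * t ≤ r ^ 2) {x : V} (hx : x ∈ 𝓜.carrier) :
    1 ≤ 4 * Vb 𝓜 g x r * HC.Hk (2 * t) x x := by
  have hg : IsMetric 𝓜 g := S.kahler.toIsMetric
  obtain ⟨-, hfin, hVpos, -⟩ := ly_Vb_basic S
  set B : Set V := hball 𝓜 g x r with hB
  have hBm : MeasurableSet B := measurableSet_hball hg S.conn x r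
  set f : V → ℝ := HC.Hk t x with hf
  have hfi : Integrable f (hvol 𝓜 g) := HC.integrable t ht x hx
  have hf0 : ∀ y, 0 ≤ f y := fun y => HC.nonneg t ht x y
  obtain ⟨hmi, hm⟩ := ly_moment2 HC S ht hx
  have hr2 : 0 < r ^ 2 := by positivity
  -- the mass outside the ball
  have hout : ∫ y in Bᶜ, f y ∂(hvol 𝓜 g) ≤ 1 / 2 := by
    have h1 : ∫ y in Bᶜ, f y ∂(hvol 𝓜 g) ≤
        ∫ y in Bᶜ, (f y * hdist 𝓜 g x y ^ 2) * (1 / r ^ 2) ∂(hvol 𝓜 g) := by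
      refine setIntegral_mono_on hfi.integrableOn (hmi.mul_const _).integrableOn hBm.compl
        (fun y hy => ?_)
      by_cases hyM : y ∈ 𝓜.carrier
      · have hd : r ≤ hdist 𝓜 g x y := by
          by_contra hcon
          exact hy ⟨hyM, not_le.1 hcon⟩
        have h2 : 1 ≤ hdist 𝓜 g x y ^ 2 * (1 / r ^ 2) := by
          rw [mul_one_div, le_div_iff₀ hr2, one_mul]
          exact pow_le_pow_left₀ hr.le hd 2
        calc f y = f y * 1 := (mul_one _).symm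
          _ ≤ f y * (hdist 𝓜 g x y ^ 2 * (1 / r ^ 2)) := mul_le_mul_of_nonneg_left h2 (hf0 y)
          _ = _ := by ring
      · have : f y = 0 := HC.off t x y (Or.inr hyM)
        rw [this]; simp
    have h2 : ∫ y in Bᶜ, (f y * hdist 𝓜 g x y ^ 2) * (1 / r ^ 2) ∂(hvol 𝓜 g) ≤
        ∫ y, (f y * hdist 𝓜 g x y ^ 2) * (1 / r ^ 2) ∂(hvol 𝓜 g) :=
      setIntegral_le_integral (hmi.mul_const _) (Filter.Eventually.of_forall fun y =>
        mul_nonneg (mul_nonneg (hf0 y) (sq_nonneg _)) (by positivity))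
    have h3 : ∫ y, (f y * hdist 𝓜 g x y ^ 2) * (1 / r ^ 2) ∂(hvol 𝓜 g) =
        (∫ y, f y * hdist 𝓜 g x y ^ 2 ∂(hvol 𝓜 g)) * (1 / r ^ 2) := integral_mul_const _ _
    have h4 : (∫ y, f y * hdist 𝓜 g x y ^ 2 ∂(hvol 𝓜 g)) * (1 / r ^ 2) ≤ 1 / 2 := by
      rw [mul_one_div, div_le_iff₀ hr2]
      have : (0:ℝ) ≤ t := ht.le
      nlinarith
    rw [h3] at h2
    exact h1.trans (h2.trans h4)
  have hin : 1 / 2 ≤ ∫ y in B, f y ∂(hvol 𝓜 g) := by
    have h1 := integral_add_compl hBm hfi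
    rw [ly_mass HC S ht hx] at h1
    linarith
  -- Cauchy-Schwarz
  have hf2i : Integrable (fun y => f y ^ 2) (hvol 𝓜 g) := by
    have h1 := (HC.semigroup t t ht ht x hx x hx).1
    have e : (fun z => HC.Hk t x z * HC.Hk t z x) = fun y => f y ^ 2 := by
      funext z; rw [HC.symm t z x, sq]
    rwa [e] at h1
  have hf2 : ∫ y, f y ^ 2 ∂(hvol 𝓜 g) = HC.Hk (2 * t) x x := by
    have h1 := (HC.semigroup t t ht ht x hx x hx).2
    have e : (fun z => HC.Hk t x z * HC.Hk t z x) = fun y => f y ^ 2 := by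
      funext z; rw [HC.symm t z x, sq]
    rw [e] at h1
    rw [h1]; congr 1; ring
  set a : ℝ := ∫ y in B, f y ∂(hvol 𝓜 g) with ha
  set v : ℝ := Vb 𝓜 g x r with hv
  have hv0 : 0 < v := hVpos x hx r hr
  set q : ℝ := ∫ y in B, f y ^ 2 ∂(hvol 𝓜 g) with hq
  have hqle : q ≤ HC.Hk (2 * t) x x := by
    rw [← hf2]
    exact setIntegral_le_integral hf2i (Filter.Eventually.of_forall fun y => sq_nonneg _)
  have hcs : ∀ c : ℝ, 0 ≤ q - 2 * c * a + c ^ 2 * v := by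
    intro c
    have hci : IntegrableOn (fun _ : V => c ^ 2) B (hvol 𝓜 g) := integrableOn_const (hfin x hx r)
    have h1 : 0 ≤ ∫ y in B, (f y - c) ^ 2 ∂(hvol 𝓜 g) :=
      integral_nonneg fun y => sq_nonneg _
    have e : (fun y => (f y - c) ^ 2) = fun y => f y ^ 2 - 2 * c * f y + c ^ 2 := by
      funext y; ring
    have i1 : IntegrableOn (fun y => f y ^ 2 - 2 * c * f y) B (hvol 𝓜 g) :=
      hf2i.integrableOn.sub (hfi.integrableOn.const_mul _)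
    rw [e, integral_add i1 hci, integral_sub hf2i.integrableOn (hfi.integrableOn.const_mul _),
      integral_const_mul, setIntegral_const, smul_eq_mul] at h1
    have e2 : (hvol 𝓜 g).real B = v := rfl
    rw [e2] at h1
    linarith
  have h1 := hcs (a / v)
  have h2 : q - 2 * (a / v) * a + (a / v) ^ 2 * v = q - a ^ 2 / v := by
    field_simp; ring
  rw [h2] at h1
  have h3 : a ^ 2 ≤ q * v := by
    have : a ^ 2 / v ≤ q := by linarith
    rwa [div_le_iff₀ hv0] at this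
  have h4 : (1 / 2 : ℝ) ^ 2 ≤ a ^ 2 := pow_le_pow_left₀ (by norm_num) hin 2
  have h5 : q * v ≤ HC.Hk (2 * t) x x * v := mul_le_mul_of_nonneg_right hqle hv0.le
  nlinarith

include HC in
/-- **relative volume comparison.** -/
theorem ly_volComparison (S : AnaSetting 𝓜 g) : VolComparison 𝓜 g := by
  obtain ⟨hvol', hfin, hVpos, -⟩ := ly_Vb_basic S
  obtain ⟨C₁, hC₁, hup⟩ := ly_Hk_mul_Vb_le HC S
  refine ⟨hvol', hfin, hVpos, 1 + 4 * C₁ * (2 * n + 2) ^ n, ?_, fun x hx r R hr hrR => ?_⟩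
  · have : 0 ≤ 4 * C₁ * (2 * (n:ℝ) + 2) ^ n := by positivity
    linarith
  have hR : 0 < R := hr.trans_le hrR
  set t₁ : ℝ := r ^ 2 / (4 * n + 4) with ht₁
  have ht₁0 : 0 < t₁ := by positivity
  have h1 := ly_diag_ge HC S ht₁0 hr (by rw [ht₁]; field_simp; exact le_rfl) hx
  have h2 := hup (R ^ 2) (by positivity) x hx x hx
  rw [Real.sqrt_sq hR.le] at h2
  have h2t : 2 * t₁ ≤ R ^ 2 := by
    have e : 2 * t₁ = r ^ 2 / (2 * n + 2) := by rw [ht₁]; field_simp; ring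
    rw [e, div_le_iff₀ (by positivity)]
    have h3 : r ^ 2 ≤ R ^ 2 := pow_le_pow_left₀ hr.le hrR 2
    have h4 : 0 ≤ R ^ 2 * (2 * (n:ℝ) + 1) := by positivity
    nlinarith
  have h3 := ly_diag_mono HC S (by positivity : 0 < 2 * t₁) h2t hx
  set vr : ℝ := Vb 𝓜 g x r with hvr
  set vR : ℝ := Vb 𝓜 g x R with hvR
  have hvr0 : 0 < vr := hVpos x hx r hr
  have hvR0 : 0 < vR := hVpos x hx R hR
  set k₁ : ℝ := HC.Hk (2 * t₁) x x with hk₁
  set k₂ : ℝ := HC.Hk (R ^ 2) x x with hk₂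
  have hp : 0 < (2 * t₁) ^ n := by positivity
  -- `vR (2t₁)^n ≤ 4 vr vR (2t₁)^n k₁ ≤ 4 vr vR R^{2n} k₂ ≤ 4 vr R^{2n} C₁`
  have h4 : vR * (2 * t₁) ^ n ≤ 4 * vr * C₁ * (R ^ 2) ^ n := by
    calc vR * (2 * t₁) ^ n = vR * (2 * t₁) ^ n * 1 := (mul_one _).symm
      _ ≤ vR * (2 * t₁) ^ n * (4 * vr * k₁) := mul_le_mul_of_nonneg_left h1 (by positivity)
      _ = 4 * vr * vR * ((2 * t₁) ^ n * k₁) := by ring
      _ ≤ 4 * vr * vR * ((R ^ 2) ^ n * k₂) := mul_le_mul_of_nonneg_left h3 (by positivity)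
      _ = 4 * vr * (R ^ 2) ^ n * (k₂ * vR) := by ring
      _ ≤ 4 * vr * (R ^ 2) ^ n * C₁ := mul_le_mul_of_nonneg_left h2 (by positivity)
      _ = _ := by ring
  have e5 : (R ^ 2) ^ n = (2 * t₁) ^ n * ((2 * n + 2) ^ n * (R / r) ^ (2 * n)) := by
    have e : R ^ 2 = (2 * t₁) * ((2 * n + 2) * (R / r) ^ 2) := by
      rw [ht₁]; field_simp; ring
    rw [e, mul_pow (2 * t₁), mul_pow (2 * (n:ℝ) + 2), ← pow_mul]
  rw [e5] at h4
  have h6 : vR * (2 * t₁) ^ n ≤ (4 * C₁ * (2 * n + 2) ^ n * (R / r) ^ (2 * n) * vr) * (2 * t₁) ^ n := by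
    calc _ ≤ _ := h4
      _ = _ := by ring
  have h7 := le_of_mul_le_mul_right h6 hp
  have h8 : 0 ≤ (R / r) ^ (2 * n) * vr := by positivity
  calc vR ≤ 4 * C₁ * (2 * n + 2) ^ n * (R / r) ^ (2 * n) * vr := h7
    _ ≤ (1 + 4 * C₁ * (2 * n + 2) ^ n) * (R / r) ^ (2 * n) * vr := by nlinarith

/-- strict positivity. -/
theorem ly_Hk_pos (S : AnaSetting 𝓜 g) {t : ℝ} (ht : 0 < t) {x y : V} (hx : x ∈ 𝓜.carrier)
    (hy : y ∈ 𝓜.carrier) : 0 < HC.Hk t x y := by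
  obtain ⟨-, -, hVpos, -⟩ := ly_Vb_basic S
  have hr : 0 < Real.sqrt ((n + 1) * t) := Real.sqrt_pos.2 (by positivity)
  have h1 := ly_diag_ge HC S (t := t / 4) (r := Real.sqrt ((n + 1) * t)) (by positivity) hr
    (by rw [Real.sq_sqrt (by positivity)]; apply le_of_eq; ring) hx
  have e : 2 * (t / 4) = t / 2 := by ring
  rw [e] at h1
  have hk : 0 < HC.Hk (t / 2) x x := by
    by_contra hcon
    have h2 : HC.Hk (t / 2) x x ≤ 0 := not_lt.1 hcon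
    have h3 := hVpos x hx _ hr
    nlinarith
  have h2 := ly_Hk_harnack HC S (t₁ := t / 2) (t₂ := t) (by positivity) (by linarith) hx hy hx
  rw [HC.symm t x y]
  by_contra hcon
  have h3 : HC.Hk t y x ≤ 0 := not_lt.1 hcon
  have h4 : HC.Hk t y x * (t / (t / 2)) ^ n * Real.exp (hdist 𝓜 g x y ^ 2 / (t - t / 2)) ≤ 0 := by
    have : 0 ≤ (t / (t / 2)) ^ n * Real.exp (hdist 𝓜 g x y ^ 2 / (t - t / 2)) := by positivity
    rw [mul_assoc]
    exact mul_nonpos_of_nonpos_of_nonneg h3 this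
  linarith

/-- near-diagonal lower bound. -/
theorem ly_lower (S : AnaSetting 𝓜 g) : ∀ A : ℝ, 0 < A → ∃ c : ℝ, 0 < c ∧ ∀ t : ℝ, 0 < t →
    ∀ x ∈ 𝓜.carrier, ∀ y ∈ 𝓜.carrier, hdist 𝓜 g x y ≤ A * Real.sqrt t →
      c / Vb 𝓜 g x (Real.sqrt t) ≤ HC.Hk t x y := by
  intro A hA
  obtain ⟨C, hC1, hratio⟩ := (ly_volComparison HC S).ratio
  have hVpos := (ly_volComparison HC S).pos
  have hC0 : 0 < C := by linarith
  refine ⟨1 / (4 * C * (n + 1) ^ n * (2 ^ n * Real.exp (2 * A ^ 2))), by positivity,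
    fun t ht x hx y hy hd => ?_⟩
  have hst : 0 < Real.sqrt t := Real.sqrt_pos.2 ht
  have hr : 0 < Real.sqrt ((n + 1) * t) := Real.sqrt_pos.2 (by positivity)
  have h1 := ly_diag_ge HC S (t := t / 4) (r := Real.sqrt ((n + 1) * t)) (by positivity) hr
    (by rw [Real.sq_sqrt (by positivity)]; apply le_of_eq; ring) hx
  have e : 2 * (t / 4) = t / 2 := by ring
  rw [e] at h1
  have h2 := ly_Hk_harnack HC S (t₁ := t / 2) (t₂ := t) (by positivity) (by linarith) hx hy hx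
  have e1 : t / (t / 2) = 2 := by field_simp
  have e2 : t - t / 2 = t / 2 := by ring
  rw [e1, e2, ← HC.symm t x y] at h2
  have h3 : hdist 𝓜 g x y ^ 2 / (t / 2) ≤ 2 * A ^ 2 := by
    rw [div_le_iff₀ (by positivity)]
    have : hdist 𝓜 g x y ^ 2 ≤ (A * Real.sqrt t) ^ 2 :=
      pow_le_pow_left₀ (hdist_nonneg _ _ _ _) hd 2
    rw [mul_pow, Real.sq_sqrt ht.le] at this
    linarith
  have hk0 : 0 ≤ HC.Hk t x y := HC.nonneg t ht x y
  have h4 : HC.Hk (t / 2) x x ≤ HC.Hk t x y * (2 ^ n * Real.exp (2 * A ^ 2)) := by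
    calc _ ≤ HC.Hk t x y * 2 ^ n * Real.exp (hdist 𝓜 g x y ^ 2 / (t / 2)) := h2
      _ ≤ HC.Hk t x y * 2 ^ n * Real.exp (2 * A ^ 2) :=
          mul_le_mul_of_nonneg_left (Real.exp_le_exp.2 h3) (by positivity)
      _ = _ := by ring
  have hle : Real.sqrt t ≤ Real.sqrt ((n + 1) * t) := by
    apply Real.sqrt_le_sqrt
    have : 0 ≤ (n:ℝ) * t := by positivity
    linarith
  have h5 := hratio x hx (Real.sqrt t) (Real.sqrt ((n + 1) * t)) hst hle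
  have e3 : (Real.sqrt ((n + 1) * t) / Real.sqrt t) ^ (2 * n) = ((n:ℝ) + 1) ^ n := by
    rw [pow_mul, div_pow, Real.sq_sqrt (by positivity), Real.sq_sqrt ht.le]
    congr 1; field_simp
  rw [e3] at h5
  set v : ℝ := Vb 𝓜 g x (Real.sqrt t) with hv
  have hv0 : 0 < v := hVpos x hx _ hst
  rw [div_le_iff₀ hv0, div_le_iff₀ (by positivity)]
  have hk2 : 0 ≤ HC.Hk (t / 2) x x := HC.nonneg _ (by positivity) _ _
  calc (1:ℝ) ≤ 4 * Vb 𝓜 g x (Real.sqrt ((n + 1) * t)) * HC.Hk (t / 2) x x := h1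
    _ ≤ 4 * (C * (n + 1) ^ n * v) * HC.Hk (t / 2) x x := by
        apply mul_le_mul_of_nonneg_right _ hk2; linarith
    _ ≤ 4 * (C * (n + 1) ^ n * v) * (HC.Hk t x y * (2 ^ n * Real.exp (2 * A ^ 2))) :=
        mul_le_mul_of_nonneg_left h4 (by positivity)
    _ = _ := by ring

end Claimed.Agent.R316
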