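import Claimed.Agent.R316.Base.LiYau.MaxPt
import Claimed.Agent.R316.Base.LiYau.Bochner

/-!
# Row 316, `BP-G9`, file 4: the heat operator `∂_t - Δ` and four evolution formulas     (leaves `G9-EVOL-A` (§1), `G9-EVOL-B` (§2))

Sub-captain: helper201.  Statements are frozen; the owner of a leaf replaces its `sorry`s.

`heatOp 𝓜 g I G t x = ∂_t G - Δ G` (time derivative = `derivWithin` in `I`).  `I` is a time domain (`IsTimeDom`, `CM/FormsST.lean`), all functions are `SmoothST I`.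

§1 (calculus).  For `t ∈ I`, `x ∈ M`: `(hG.hasDerivWithinAt ht hx)` is the time derivative, unique by `hI.uniqueDiffWithinAt ht` (`HasDerivWithinAt.derivWithin`);
slices `hG.smooth ht : 𝓜.Smooth (G t)`, `.c2At hx`, `.diffAt hx`; space rules `lap_add`, `lap_mul`, `lap_comp`, … of `Base/Vol/Calc.lean`.

§2 (formulas), `u` a heat solution, all at `(t,x)`:
* `ly_heatOp_sq`:     `(∂_t - Δ) u² = 2u u_t - (2uΔu + 2|∂u|²) = - 2|∂u|²`  (`lap_sq`).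
* `ly_heatOp_gradSq`: `∂_t |∂u|² = 2⟨∂u,∂u_t⟩ = 2⟨∂u,∂Δu⟩` (`hasDerivWithinAt_gradSq` with the constant family `g`, `isTimeDeriv_const`; the `ipH 𝓜 g 0 _` term is `0`), so
  `(∂_t - Δ)|∂u|² = - bochD u`.
* `ly_heatOp_log`:    `f = log u`: `f_t = Δu/u`, `Δf = Δu/u - |∂u|²/u²` (`lap_log`), `|∂f|² = |∂u|²/u²` (`gradSq_log`).
* `ly_heatOp_w`:      `w = |∂f|² - α f_t`, `f_t := Δu/u = Δf + |∂f|²`.  `f_t` is `SmoothST`, it IS the time derivative of `f`; let `f_tt` be its time derivative.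
  `∂_t Δf = Δ f_t` (`hasDerivWithinAt_lap`), `∂_t|∂f|² = 2⟨∂f,∂f_t⟩`, hence `f_tt = Δf_t + 2⟨∂f,∂f_t⟩`, and
  `Δw - w_t = Δ|∂f|² - αΔf_t - 2⟨∂f,∂f_t⟩ + α(Δf_t + 2⟨∂f,∂f_t⟩) = Δ|∂f|² + 2(α-1)⟨∂f,∂f_t⟩ = bochD f + 2⟨∂f,∂Δf⟩ + 2(α-1)⟨∂f,∂f_t⟩`,
  `2⟨∂f,∂Δf⟩ = 2⟨∂f,∂f_t⟩ - 2⟨∂f,∂|∂f|²⟩`, so `Δw - w_t = bochD f - 2⟨∂f,∂w⟩`; conclude with `ly_bochner_lap` for `f t`.
-/

set_option autoImplicit false
open scoped ContDiff ComplexOrder Topology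
open MeasureTheory Filter

namespace Claimed.Agent.R316

variable {V : Type} [NormedAddCommGroup V] [NormedSpace ℝ V] [FiniteDimensional ℝ V]
  [MeasurableSpace V] [BorelSpace V]
variable {n : ℕ} {𝓜 : CMfd V (Fin n)} {g : HFam V (Fin n)} {I : Set ℝ} {F G u : ℝ → V → ℝ}
  {t : ℝ} {x : V}

/-- the heat operator `∂_t - Δ_g` on `I × M`. -/
noncomputable def heatOp (𝓜 : CMfd V (Fin n)) (g : HFam V (Fin n)) (I : Set ℝ) (G : ℝ → V → ℝ)
    (t : ℝ) (x : V) : ℝ :=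
  derivWithin (fun s => G s x) I t - lap 𝓜 g (G t) x

/-! ### 1. calculus -/

theorem ly_heatOp_of_hasDerivWithinAt (hI : IsTimeDom I) (ht : t ∈ I) {a : ℝ}
    (h : HasDerivWithinAt (fun s => G s x) a I t) : heatOp 𝓜 g I G t x = a - lap 𝓜 g (G t) x := by
  rw [heatOp, h.derivWithin (hI.uniqueDiffWithinAt ht)]

theorem ly_heatOp_sol (hI : IsTimeDom I) (hu : IsHeatSol 𝓜 g I u) (ht : t ∈ I) (hx : x ∈ 𝓜.carrier) :
    heatOp 𝓜 g I u t x = 0 := by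
  rw [ly_heatOp_of_hasDerivWithinAt hI ht (hu.2 t ht x hx), sub_self]

theorem ly_heatOp_sub_le (hI : IsTimeDom I) (hu : IsHeatSub 𝓜 g I u) (ht : t ∈ I)
    (hx : x ∈ 𝓜.carrier) : heatOp 𝓜 g I u t x ≤ 0 := by
  obtain ⟨ut, h1, h2⟩ := hu.2 t ht x hx
  rw [ly_heatOp_of_hasDerivWithinAt hI ht h1]
  linarith

theorem ly_heatOp_add (hI : IsTimeDom I) (hF : 𝓜.SmoothST I F) (hG : 𝓜.SmoothST I G) (ht : t ∈ I)
    (hx : x ∈ 𝓜.carrier) :
    heatOp 𝓜 g I (fun s y => F s y + G s y) t x = heatOp 𝓜 g I F t x + heatOp 𝓜 g I G t x := by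
  rw [ly_heatOp_of_hasDerivWithinAt (G := fun s y => F s y + G s y) hI ht
      ((hF.hasDerivWithinAt ht hx).add (hG.hasDerivWithinAt ht hx)),
    lap_add g ((hF.smooth ht).c2At hx) ((hG.smooth ht).c2At hx), heatOp, heatOp]
  ring

theorem ly_heatOp_sub (hI : IsTimeDom I) (hF : 𝓜.SmoothST I F) (hG : 𝓜.SmoothST I G) (ht : t ∈ I)
    (hx : x ∈ 𝓜.carrier) :
    heatOp 𝓜 g I (fun s y => F s y - G s y) t x = heatOp 𝓜 g I F t x - heatOp 𝓜 g I G t x := by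
  rw [ly_heatOp_of_hasDerivWithinAt (G := fun s y => F s y - G s y) hI ht
      ((hF.hasDerivWithinAt ht hx).sub (hG.hasDerivWithinAt ht hx)),
    lap_sub g ((hF.smooth ht).c2At hx) ((hG.smooth ht).c2At hx), heatOp, heatOp]
  ring

theorem ly_heatOp_const_mul (hI : IsTimeDom I) (c : ℝ) (hG : 𝓜.SmoothST I G) (ht : t ∈ I)
    (hx : x ∈ 𝓜.carrier) : heatOp 𝓜 g I (fun s y => c * G s y) t x = c * heatOp 𝓜 g I G t x := by
  rw [ly_heatOp_of_hasDerivWithinAt (G := fun s y => c * G s y) hI ht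
      ((hG.hasDerivWithinAt ht hx).const_mul c),
    lap_const_mul g c ((hG.smooth ht).c2At hx), heatOp]
  ring

theorem ly_heatOp_add_const (c : ℝ) :
    heatOp 𝓜 g I (fun s y => G s y + c) t x = heatOp 𝓜 g I G t x := by
  rw [heatOp, heatOp, lap_add_const, derivWithin_add_const]

/-- Leibniz rule: `(∂_t - Δ)(FG) = F (∂_t - Δ)G + G (∂_t - Δ)F - 2⟨∂F,∂G⟩`. -/
theorem ly_heatOp_mul (hg : IsMetric 𝓜 g) (hI : IsTimeDom I) (hF : 𝓜.SmoothST I F)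
    (hG : 𝓜.SmoothST I G) (ht : t ∈ I) (hx : x ∈ 𝓜.carrier) :
    heatOp 𝓜 g I (fun s y => F s y * G s y) t x =
      F t x * heatOp 𝓜 g I G t x + G t x * heatOp 𝓜 g I F t x
        - 2 * gradInner 𝓜 g (F t) (G t) x := by
  rw [ly_heatOp_of_hasDerivWithinAt (G := fun s y => F s y * G s y) hI ht
      ((hF.hasDerivWithinAt ht hx).mul (hG.hasDerivWithinAt ht hx)),
    lap_mul hg hx ((hF.smooth ht).c2At hx) ((hG.smooth ht).c2At hx), heatOp, heatOp]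
  ring

/-- chain rule: `(∂_t - Δ) χ(G) = χ'(G) (∂_t - Δ)G - χ''(G) |∂G|²`. -/
theorem ly_heatOp_comp (hI : IsTimeDom I) {χ : ℝ → ℝ} (hχ : ContDiffAt ℝ 2 χ (G t x))
    (hG : 𝓜.SmoothST I G) (ht : t ∈ I) (hx : x ∈ 𝓜.carrier) :
    heatOp 𝓜 g I (fun s y => χ (G s y)) t x =
      deriv χ (G t x) * heatOp 𝓜 g I G t x - deriv (deriv χ) (G t x) * gradSq 𝓜 g (G t) x := by
  have hχd : HasDerivAt χ (deriv χ (G t x)) (G t x) :=
    (hχ.differentiableAt (by norm_num)).hasDerivAt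
  rw [ly_heatOp_of_hasDerivWithinAt (G := fun s y => χ (G s y)) hI ht
      (hχd.comp_hasDerivWithinAt t (hG.hasDerivWithinAt ht hx)),
    lap_comp g hx hχ ((hG.smooth ht).c2At hx), heatOp]
  ring

/-- functions of time only. -/
theorem ly_heatOp_time (hI : IsTimeDom I) {a : ℝ → ℝ} {a' : ℝ} (ht : t ∈ I)
    (ha : HasDerivWithinAt a a' I t) : heatOp 𝓜 g I (fun s _ => a s) t x = a' := by
  rw [ly_heatOp_of_hasDerivWithinAt (G := fun s _ => a s) hI ht ha, lap_const, sub_zero]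

/-- functions of space only. -/
theorem ly_heatOp_space (φ : V → ℝ) : heatOp 𝓜 g I (fun _ => φ) t x = - lap 𝓜 g φ x := by
  simp [heatOp]

/-- restriction of the time domain. -/
theorem ly_heatOp_mono {J : Set ℝ} (hJ : IsTimeDom J) (hJI : J ⊆ I) (hG : 𝓜.SmoothST I G) (ht : t ∈ J)
    (hx : x ∈ 𝓜.carrier) : heatOp 𝓜 g J G t x = heatOp 𝓜 g I G t x := by
  rw [ly_heatOp_of_hasDerivWithinAt hJ ht ((hG.hasDerivWithinAt (hJI ht) hx).mono hJI), heatOp]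

/-! ### 2. evolution formulas -/

theorem ly_heatOp_sq (hI : IsTimeDom I) (hu : IsHeatSol 𝓜 g I u) (ht : t ∈ I) (hx : x ∈ 𝓜.carrier) :
    heatOp 𝓜 g I (fun s y => u s y ^ 2) t x = - (2 * gradSq 𝓜 g (u t) x) := by
  rw [ly_heatOp_of_hasDerivWithinAt (G := fun s y => u s y ^ 2) hI ht ((hu.2 t ht x hx).pow 2),
    lap_sq g hx ((hu.1.smooth ht).c2At hx)]
  simp only [Nat.cast_ofNat, Nat.add_one_sub_one, pow_one]
  ring

/-- time derivative of `|∂u|²` for a fixed metric. -/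
theorem ly_hasDerivWithinAt_gradSq (hg : IsMetric 𝓜 g) (hI : IsTimeDom I) {ut : ℝ → V → ℝ}
    (hu : 𝓜.SmoothST I u)
    (hut : ∀ t ∈ I, ∀ x ∈ 𝓜.carrier, HasDerivWithinAt (fun s => u s x) (ut t x) I t)
    (ht : t ∈ I) (hx : x ∈ 𝓜.carrier) :
    HasDerivWithinAt (fun s => gradSq 𝓜 g (u s) x) (2 * gradInner 𝓜 g (u t) (ut t) x) I t := by
  have h1 := hasDerivWithinAt_gradSq (h := fun _ => g) (h' := fun _ _ _ => 0) hI (fun _ _ => hg)
    (isTimeDeriv_const 𝓜 I g) hu hut ht hx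
  have h2 : ipH 𝓜 g (fun _ _ => 0) (gradF (u t)) x = 0 := by
    simp [ipH, CMfd.scal, ipF]
  rw [h2, sub_zero] at h1
  exact h1

/-- time derivative of `Δu` for a fixed metric. -/
theorem ly_hasDerivWithinAt_lap (hg : IsMetric 𝓜 g) (hI : IsTimeDom I) {ut : ℝ → V → ℝ}
    (hu : 𝓜.SmoothST I u)
    (hut : ∀ t ∈ I, ∀ x ∈ 𝓜.carrier, HasDerivWithinAt (fun s => u s x) (ut t x) I t)
    (ht : t ∈ I) (hx : x ∈ 𝓜.carrier) :
    HasDerivWithinAt (fun s => lap 𝓜 g (u s) x) (lap 𝓜 g (ut t) x) I t := by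
  have h1 := hasDerivWithinAt_lap (h := fun _ => g) (h' := fun _ _ _ => 0) hI (fun _ _ => hg)
    (isTimeDeriv_const 𝓜 I g) hu hut ht hx
  have h2 : ipH 𝓜 g (fun _ _ => 0) (ddc (u t)) x = 0 := by
    simp [ipH, CMfd.scal, ipF]
  rw [h2, sub_zero] at h1
  exact h1

theorem ly_heatOp_gradSq (hg : IsMetric 𝓜 g) (hI : IsTimeDom I) (hu : IsHeatSol 𝓜 g I u) (ht : t ∈ I)
    (hx : x ∈ 𝓜.carrier) :
    heatOp 𝓜 g I (fun s => gradSq 𝓜 g (u s)) t x = - bochD 𝓜 g (u t) x := by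
  rw [ly_heatOp_of_hasDerivWithinAt (G := fun s => gradSq 𝓜 g (u s)) hI ht
    (ly_hasDerivWithinAt_gradSq hg hI hu.1 hu.2 ht hx), bochD]
  ring

theorem ly_heatOp_log (hI : IsTimeDom I) (hu : IsHeatSol 𝓜 g I u)
    (hpos : ∀ t ∈ I, ∀ x ∈ 𝓜.carrier, 0 < u t x) (ht : t ∈ I) (hx : x ∈ 𝓜.carrier) :
    heatOp 𝓜 g I (fun s y => Real.log (u s y)) t x = gradSq 𝓜 g (fun y => Real.log (u t y)) x := by
  have h0 : u t x ≠ 0 := (hpos t ht x hx).ne'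
  rw [ly_heatOp_of_hasDerivWithinAt (G := fun s y => Real.log (u s y)) hI ht ((hu.2 t ht x hx).log h0),
    lap_log g hx ((hu.1.smooth ht).c2At hx) h0, gradSq_log g hx ((hu.1.smooth ht).diffAt hx) h0]
  ring

/-- the Li-Yau quantity `w = |∂ log u|² - α ∂_t log u`. -/
noncomputable def lyW (𝓜 : CMfd V (Fin n)) (g : HFam V (Fin n)) (α : ℝ) (u : ℝ → V → ℝ) (t : ℝ)
    (x : V) : ℝ :=
  gradSq 𝓜 g (u t) x / u t x ^ 2 - α * (lap 𝓜 g (u t) x / u t x)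

theorem ly_smoothST_lyW (hg : IsMetric 𝓜 g) (hI : IsTimeDom I) (hu : IsHeatSol 𝓜 g I u)
    (hpos : ∀ t ∈ I, ∀ x ∈ 𝓜.carrier, 0 < u t x) (α : ℝ) : 𝓜.SmoothST I (lyW 𝓜 g α u) := by
  have h0 : ∀ t ∈ I, ∀ x ∈ 𝓜.carrier, u t x ≠ 0 := fun t ht x hx => (hpos t ht x hx).ne'
  have h1 := (smoothST_gradSq hI (isMetricST_const hg I) hu.1).div (hu.1.pow 2)
    (fun t ht x hx => pow_ne_zero 2 (h0 t ht x hx))
  have h2 := ((smoothST_lap hI (isMetricST_const hg I) hu.1).div hu.1 h0).const_mul α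
  exact h1.sub h2

/-- `Δ log u = ∂_t log u - |∂ log u|²`. -/
theorem ly_lap_log (hI : IsTimeDom I) (hu : IsHeatSol 𝓜 g I u)
    (hpos : ∀ t ∈ I, ∀ x ∈ 𝓜.carrier, 0 < u t x) (ht : t ∈ I) (hx : x ∈ 𝓜.carrier) :
    lap 𝓜 g (fun y => Real.log (u t y)) x =
      lap 𝓜 g (u t) x / u t x - gradSq 𝓜 g (u t) x / u t x ^ 2 :=
  lap_log g hx ((hu.1.smooth ht).c2At hx) (hpos t ht x hx).ne'

/-- **the Li-Yau differential inequality**: `(Δ log u)² ≤ n (2⟨∂ log u, ∂w⟩ - (∂_t - Δ) w)`. -/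
theorem ly_heatOp_w (hk : IsKahler 𝓜 g) (hric : leF 𝓜 0 (ricF g)) (hI : IsTimeDom I)
    (hu : IsHeatSol 𝓜 g I u) (hpos : ∀ t ∈ I, ∀ x ∈ 𝓜.carrier, 0 < u t x) (α : ℝ) (ht : t ∈ I)
    (hx : x ∈ 𝓜.carrier) :
    lap 𝓜 g (fun y => Real.log (u t y)) x ^ 2 ≤
      n * (2 * gradInner 𝓜 g (fun y => Real.log (u t y)) (lyW 𝓜 g α u t) x
        - heatOp 𝓜 g I (lyW 𝓜 g α u) t x) := by
  have hg : IsMetric 𝓜 g := hk.toIsMetric
  have h0 : ∀ t ∈ I, ∀ x ∈ 𝓜.carrier, u t x ≠ 0 := fun t ht x hx => (hpos t ht x hx).ne'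
  set f : ℝ → V → ℝ := fun s y => Real.log (u s y) with hf
  set ft : ℝ → V → ℝ := fun s y => lap 𝓜 g (u s) y / u s y with hft
  set P : ℝ → V → ℝ := fun s => gradSq 𝓜 g (f s) with hP
  have hfs : 𝓜.SmoothST I f := hu.1.log h0
  have hfts : 𝓜.SmoothST I ft := (smoothST_lap hI (isMetricST_const hg I) hu.1).div hu.1 h0
  have hPs : 𝓜.SmoothST I P := smoothST_gradSq hI (isMetricST_const hg I) hfs
  have hfd : ∀ t ∈ I, ∀ x ∈ 𝓜.carrier, HasDerivWithinAt (fun s => f s x) (ft t x) I t :=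
    fun t ht x hx => (hu.2 t ht x hx).log (h0 t ht x hx)
  have hPe : ∀ t ∈ I, ∀ x ∈ 𝓜.carrier, P t x = gradSq 𝓜 g (u t) x / u t x ^ 2 :=
    fun t ht x hx => gradSq_log g hx ((hu.1.smooth ht).diffAt hx) (h0 t ht x hx)
  have hlf : ∀ t ∈ I, ∀ x ∈ 𝓜.carrier, lap 𝓜 g (f t) x = ft t x - P t x := fun t ht x hx => by
    rw [hPe t ht x hx]; exact ly_lap_log hI hu hpos ht hx
  have hWe : ∀ t ∈ I, ∀ x ∈ 𝓜.carrier, lyW 𝓜 g α u t x = P t x - α * ft t x := fun t ht x hx => by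
    rw [hPe t ht x hx, lyW]
  -- time derivatives
  have hPd : HasDerivWithinAt (fun s => P s x) (2 * gradInner 𝓜 g (f t) (ft t) x) I t :=
    ly_hasDerivWithinAt_gradSq hg hI hfs hfd ht hx
  have hLd : HasDerivWithinAt (fun s => lap 𝓜 g (f s) x) (lap 𝓜 g (ft t) x) I t :=
    ly_hasDerivWithinAt_lap hg hI hfs hfd ht hx
  have hftd : HasDerivWithinAt (fun s => ft s x)
      (lap 𝓜 g (ft t) x + 2 * gradInner 𝓜 g (f t) (ft t) x) I t := by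
    refine (hLd.add hPd).congr (fun s hs => ?_) ?_
    · have := hlf s hs x hx
      show ft s x = lap 𝓜 g (f s) x + P s x
      linarith
    · have := hlf t ht x hx
      show ft t x = lap 𝓜 g (f t) x + P t x
      linarith
  have hWd : HasDerivWithinAt (fun s => lyW 𝓜 g α u s x)
      (2 * gradInner 𝓜 g (f t) (ft t) x
        - α * (lap 𝓜 g (ft t) x + 2 * gradInner 𝓜 g (f t) (ft t) x)) I t :=
    (hPd.sub (hftd.const_mul α)).congr (fun s hs => hWe s hs x hx) (hWe t ht x hx)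
  -- space derivatives
  have hPc := (hPs.smooth ht).c2At hx
  have hftc := (hfts.smooth ht).c2At hx
  have hWev : ∀ᶠ y in 𝓝[𝓜.carrier] x, lyW 𝓜 g α u t y = P t y - α * ft t y :=
    eventually_nhdsWithin_of_forall fun y hy => hWe t ht y hy
  have hWlap : lap 𝓜 g (lyW 𝓜 g α u t) x = lap 𝓜 g (P t) x - α * lap 𝓜 g (ft t) x := by
    rw [lap_congr g hx hWev, lap_sub g hPc (hftc.const_mul α), lap_const_mul g α hftc]
  have hWgr : gradInner 𝓜 g (f t) (lyW 𝓜 g α u t) x =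
      gradInner 𝓜 g (f t) (P t) x - α * gradInner 𝓜 g (f t) (ft t) x := by
    rw [gradInner_congr_right g hx hWev, gradInner_sub_right g hPc.diffAt (hftc.diffAt.const_mul α),
      gradInner_const_mul_right g α hftc.diffAt]
  have hLev : ∀ᶠ y in 𝓝[𝓜.carrier] x, lap 𝓜 g (f t) y = ft t y - P t y :=
    eventually_nhdsWithin_of_forall fun y hy => hlf t ht y hy
  have hLgr : gradInner 𝓜 g (f t) (lap 𝓜 g (f t)) x =
      gradInner 𝓜 g (f t) (ft t) x - gradInner 𝓜 g (f t) (P t) x := by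
    rw [gradInner_congr_right g hx hLev, gradInner_sub_right g hftc.diffAt hPc.diffAt]
  have hB := ly_bochner_lap hk hric (hfs.smooth ht) hx
  have hkey : bochD 𝓜 g (f t) x = 2 * gradInner 𝓜 g (f t) (lyW 𝓜 g α u t) x
        - heatOp 𝓜 g I (lyW 𝓜 g α u) t x := by
    rw [ly_heatOp_of_hasDerivWithinAt hI ht hWd, hWlap, hWgr, bochD, hLgr]
    ring
  rw [← hkey]
  exact hB

end Claimed.Agent.R316
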