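import Claimed.Agent.R316.Base.LiYau.Diag

/-!
# Row 316, `BP-G9`, file 12: Gaussian upper bound, gradient bound of the kernel     (leaves `G9-GAUSS-A` (`ly_Vb_le_Vb`, `ly_upper`), `G9-GAUSS-B` (`ly_grad`))

Sub-captain: helper201.  Statements are frozen; the owner of a leaf replaces its `sorry`s.

* `ly_Vb_le_Vb` (only `VolComparison`): `B(x,r) ⊆ B(y, r + d)` (`hball_subset_hball`), `Vb y (r+d) ≤ C ((r+d)/r)^{2n} Vb y r`.
* `ly_upper`.  `d = d(x,y)`, `t = 2s`.  `Hk (2s) x y = ∫ Hk s x z Hk s z y dz`; every `z` has `d(x,z) ≥ d/2` or `d(z,y) ≥ d/2` (`hdist_triangle`):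
  `≤ sup_z Hk s z y ∫_{d(x,z) ≥ d/2} Hk s x z + sup_z Hk s x z ∫_{d(y,z) ≥ d/2} Hk s y z ≤ (C₁/Vb y √s + C₁/Vb x √s) C₂ e^{-d²/16s}`  (`ly_Hk_mul_Vb_le`, `HC.symm`, `ly_tail`).
  `1/Vb y √s ≤ C (1 + d/√s)^{2n}/Vb x √s`,  `(1+σ)^{2n} e^{-σ²/16} ≤ C' e^{-σ²/32}`,  `Vb x √(2s) ≤ C 2^n Vb x √s`.  Result: `c = 1/64`.
* `ly_grad`.  `u s x' = Hk s x' y`, `R = √t/2`, cylinder `B(x,R) × [3t/4, t]`.  There `u ≤ C/Vb x' √s · e^{-c d(x',y)²/s}`; `Vb x √t ≤ C (1 + 1/2·…)^{2n} … Vb x' √s` (`ly_Vb_le_Vb`, ratio with `√t/√s ≤ 2/√3`);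
  `d(x',y)² ≥ d²/2 - R²`, so `e^{-c d(x',y)²/s} ≤ e^{c/4·…} e^{-c d²/2t}`.  `ly_bernstein`: `|∂u|² ≤ C A²/R²`, `A = C'/Vb x √t · e^{-(c/2) d²/t}`.
-/

set_option autoImplicit false
open scoped ContDiff ComplexOrder Topology
open MeasureTheory Filter

namespace Claimed.Agent.R316

variable {V : Type} [NormedAddCommGroup V] [NormedSpace ℝ V] [FiniteDimensional ℝ V]
  [MeasurableSpace V] [BorelSpace V]
variable {n : ℕ} {𝓜 : CMfd V (Fin n)} {g : HFam V (Fin n)} (HC : HeatCore 𝓜 g)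

/-- balls with different centres. -/
theorem ly_Vb_le_Vb (S : AnaSetting 𝓜 g) (hV : VolComparison 𝓜 g) : ∃ C : ℝ, 0 < C ∧
    ∀ x ∈ 𝓜.carrier, ∀ y ∈ 𝓜.carrier, ∀ r : ℝ, 0 < r →
      Vb 𝓜 g x r ≤ C * (1 + hdist 𝓜 g x y / r) ^ (2 * n) * Vb 𝓜 g y r := by
  have hg : IsMetric 𝓜 g := S.kahler.toIsMetric
  obtain ⟨C, hC1, hratio⟩ := hV.ratio
  refine ⟨C, by linarith, fun x hx y hy r hr => ?_⟩
  have hd := hdist_nonneg 𝓜 g x y
  have h1 : Vb 𝓜 g x r ≤ Vb 𝓜 g y (r + hdist 𝓜 g x y) :=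
    ENNReal.toReal_mono (hV.finite y hy _)
      (measure_mono (hball_subset_hball hg S.conn hx hy le_rfl))
  have h2 := hratio y hy r (r + hdist 𝓜 g x y) hr (by linarith)
  have e : (r + hdist 𝓜 g x y) / r = 1 + hdist 𝓜 g x y / r := by field_simp
  rw [e] at h2
  exact h1.trans h2

/-- polynomials are dominated by Gaussians. -/
theorem ly_poly_le_gauss (m : ℕ) : ∃ C : ℝ, 0 < C ∧ ∀ σ : ℝ, 0 ≤ σ →
    (1 + σ) ^ (2 * m) * Real.exp (-(σ ^ 2 / 32)) ≤ C := by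
  refine ⟨64 ^ m * m.factorial * Real.exp (1 / 32), by positivity, fun σ hσ => ?_⟩
  have h1 := Real.pow_div_factorial_le_exp (x := (1 + σ) ^ 2 / 64) (by positivity) m
  have hf : (0 : ℝ) < m.factorial := by positivity
  rw [div_le_iff₀ hf] at h1
  have h2 : (1 + σ) ^ 2 / 64 ≤ σ ^ 2 / 32 + 1 / 32 := by nlinarith [sq_nonneg (σ - 1)]
  have h3 : Real.exp ((1 + σ) ^ 2 / 64) ≤ Real.exp (σ ^ 2 / 32) * Real.exp (1 / 32) := by
    rw [← Real.exp_add]; exact Real.exp_le_exp.2 h2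
  have h4 : (1 + σ) ^ (2 * m) = 64 ^ m * ((1 + σ) ^ 2 / 64) ^ m := by
    rw [pow_mul, div_pow]; field_simp
  rw [h4, Real.exp_neg]
  have h5 : 0 < Real.exp (σ ^ 2 / 32) := Real.exp_pos _
  rw [← div_eq_mul_inv, div_le_iff₀ h5]
  calc (64:ℝ) ^ m * ((1 + σ) ^ 2 / 64) ^ m
      ≤ 64 ^ m * (Real.exp ((1 + σ) ^ 2 / 64) * m.factorial) :=
        mul_le_mul_of_nonneg_left h1 (by positivity)
    _ ≤ 64 ^ m * ((Real.exp (σ ^ 2 / 32) * Real.exp (1 / 32)) * m.factorial) := by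
        apply mul_le_mul_of_nonneg_left _ (by positivity)
        exact mul_le_mul_of_nonneg_right h3 hf.le
    _ = _ := by ring

/-- **Gaussian upper bound.** -/
theorem ly_upper (S : AnaSetting 𝓜 g) : ∃ C c : ℝ, 0 < c ∧ ∀ t : ℝ, 0 < t → ∀ x ∈ 𝓜.carrier,
    ∀ y ∈ 𝓜.carrier,
      HC.Hk t x y ≤ C / Vb 𝓜 g x (Real.sqrt t) * Real.exp (-(c * hdist 𝓜 g x y ^ 2 / t)) := by
  have hg : IsMetric 𝓜 g := S.kahler.toIsMetric
  have hV := ly_volComparison HC S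
  obtain ⟨C₀, hC₀1, hratio⟩ := hV.ratio
  obtain ⟨C₁, hC₁, hdiag⟩ := ly_Hk_mul_Vb_le HC S
  obtain ⟨C₂, hC₂, htail⟩ := ly_tail HC S
  obtain ⟨C₃, hC₃, hVV⟩ := ly_Vb_le_Vb S hV
  obtain ⟨C₄, hC₄, hpoly⟩ := ly_poly_le_gauss n
  have hC₀ : 0 < C₀ := by linarith
  refine ⟨C₁ * C₂ * (1 + C₃ * C₄) * (C₀ * 2 ^ n), 1 / 16, by norm_num, fun t ht x hx y hy => ?_⟩
  set s : ℝ := t / 2 with hs
  have hs0 : 0 < s := by positivity
  have hss : 0 < Real.sqrt s := Real.sqrt_pos.2 hs0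
  set d : ℝ := hdist 𝓜 g x y with hd
  have hd0 : 0 ≤ d := hdist_nonneg _ _ _ _
  set vx : ℝ := Vb 𝓜 g x (Real.sqrt s) with hvx
  set vy : ℝ := Vb 𝓜 g y (Real.sqrt s) with hvy
  have hvx0 : 0 < vx := hV.pos x hx _ hss
  have hvy0 : 0 < vy := hV.pos y hy _ hss
  obtain ⟨hsi, hse⟩ := HC.semigroup s s hs0 hs0 x hx y hy
  have hst : s + s = t := by simp only [hs]; ring
  rw [hst] at hse
  set A₁ : Set V := {z | d / 2 ≤ hdist 𝓜 g x z} with hA₁
  set A₂ : Set V := {z | d / 2 ≤ hdist 𝓜 g y z} with hA₂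
  have hA₁m : MeasurableSet A₁ := measurableSet_le measurable_const (measurable_hdist_right hg S.conn x)
  have hA₂m : MeasurableSet A₂ := measurableSet_le measurable_const (measurable_hdist_right hg S.conn y)
  have hix := HC.integrable s hs0 x hx
  have hiy := HC.integrable s hs0 y hy
  have hMx : ∀ z ∈ 𝓜.carrier, HC.Hk s x z ≤ C₁ / vx := fun z hz => by
    rw [le_div_iff₀ hvx0]; exact hdiag s hs0 x hx z hz
  have hMy : ∀ z ∈ 𝓜.carrier, HC.Hk s z y ≤ C₁ / vy := fun z hz => by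
    rw [HC.symm s z y, le_div_iff₀ hvy0]; exact hdiag s hs0 y hy z hz
  -- pointwise splitting
  have hpt : ∀ z ∈ 𝓜.carrier, HC.Hk s x z * HC.Hk s z y ≤
      A₁.indicator (fun z => HC.Hk s x z * (C₁ / vy)) z
        + A₂.indicator (fun z => HC.Hk s y z * (C₁ / vx)) z := by
    intro z hz
    have hk1 := HC.nonneg s hs0 x z
    have hk2 := HC.nonneg s hs0 z y
    have hn1 : 0 ≤ A₁.indicator (fun z => HC.Hk s x z * (C₁ / vy)) z :=
      Set.indicator_nonneg (fun z _ => mul_nonneg (HC.nonneg s hs0 x z) (by positivity)) z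
    have hn2 : 0 ≤ A₂.indicator (fun z => HC.Hk s y z * (C₁ / vx)) z :=
      Set.indicator_nonneg (fun z _ => mul_nonneg (HC.nonneg s hs0 y z) (by positivity)) z
    by_cases h1 : z ∈ A₁
    · rw [Set.indicator_of_mem h1]
      have := mul_le_mul_of_nonneg_left (hMy z hz) hk1
      linarith
    · have h2 : z ∈ A₂ := by
        have h3 : hdist 𝓜 g x z < d / 2 := not_le.1 h1
        have h4 := hdist_triangle hg S.conn hx hz hy
        rw [hdist_comm hg z y] at h4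
        show d / 2 ≤ hdist 𝓜 g y z
        linarith
      rw [Set.indicator_of_mem h2]
      have := mul_le_mul_of_nonneg_right (hMx z hz) hk2
      rw [HC.symm s z y] at this
      rw [HC.symm s z y]
      linarith
  have hi1 : Integrable (A₁.indicator (fun z => HC.Hk s x z * (C₁ / vy))) (hvol 𝓜 g) :=
    (hix.mul_const _).indicator hA₁m
  have hi2 : Integrable (A₂.indicator (fun z => HC.Hk s y z * (C₁ / vx))) (hvol 𝓜 g) :=
    (hiy.mul_const _).indicator hA₂m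
  set E : ℝ := Real.exp (-((d / 2) ^ 2 / (4 * s))) with hE
  have hmain : HC.Hk t x y ≤ (C₁ / vy + C₁ / vx) * (C₂ * E) := by
    rw [← hse]
    have h1 := integral_hvol_mono hsi (hi1.add hi2) hpt
    have h2 : ∫ z, (A₁.indicator (fun z => HC.Hk s x z * (C₁ / vy)) z
        + A₂.indicator (fun z => HC.Hk s y z * (C₁ / vx)) z) ∂(hvol 𝓜 g) =
        (∫ z in A₁, HC.Hk s x z ∂(hvol 𝓜 g)) * (C₁ / vy)
          + (∫ z in A₂, HC.Hk s y z ∂(hvol 𝓜 g)) * (C₁ / vx) := by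
      rw [integral_add hi1 hi2, integral_indicator hA₁m, integral_indicator hA₂m,
        integral_mul_const, integral_mul_const]
    have h3 := htail s hs0 x hx (d / 2) (by positivity)
    have h4 := htail s hs0 y hy (d / 2) (by positivity)
    have h5 : (∫ z in A₁, HC.Hk s x z ∂(hvol 𝓜 g)) * (C₁ / vy) ≤ (C₂ * E) * (C₁ / vy) :=
      mul_le_mul_of_nonneg_right h3 (by positivity)
    have h6 : (∫ z in A₂, HC.Hk s y z ∂(hvol 𝓜 g)) * (C₁ / vx) ≤ (C₂ * E) * (C₁ / vx) :=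
      mul_le_mul_of_nonneg_right h4 (by positivity)
    calc _ ≤ _ := h1
      _ = _ := h2
      _ ≤ (C₂ * E) * (C₁ / vy) + (C₂ * E) * (C₁ / vx) := add_le_add h5 h6
      _ = _ := by ring
  -- comparison of the volumes
  set σ : ℝ := d / Real.sqrt s with hσ
  have hσ0 : 0 ≤ σ := by positivity
  have hσ2 : σ ^ 2 = d ^ 2 / s := by rw [hσ, div_pow, Real.sq_sqrt hs0.le]
  have hvxy : vx ≤ C₃ * (1 + σ) ^ (2 * n) * vy := hVV x hx y hy _ hss
  have h1y : C₁ / vy ≤ C₁ * (C₃ * (1 + σ) ^ (2 * n)) / vx := by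
    rw [div_le_div_iff₀ hvy0 hvx0]
    calc C₁ * vx ≤ C₁ * (C₃ * (1 + σ) ^ (2 * n) * vy) := mul_le_mul_of_nonneg_left hvxy hC₁.le
      _ = _ := by ring
  set w : ℝ := Real.exp (-(σ ^ 2 / 32)) with hw
  have hw0 : 0 < w := Real.exp_pos _
  have hw1 : w ≤ 1 := Real.exp_le_one_iff.2 (by have := sq_nonneg σ; linarith)
  have hEw : E = w * w := by
    rw [hE, hw, ← Real.exp_add]; congr 1
    rw [hσ2]; field_simp; ring
  have hp := hpoly σ hσ0
  have hvt : Vb 𝓜 g x (Real.sqrt t) ≤ C₀ * 2 ^ n * vx := by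
    have hle : Real.sqrt s ≤ Real.sqrt t := Real.sqrt_le_sqrt (by simp only [hs]; linarith)
    have h1 := hratio x hx (Real.sqrt s) (Real.sqrt t) hss hle
    have e : (Real.sqrt t / Real.sqrt s) ^ (2 * n) = 2 ^ n := by
      rw [pow_mul, div_pow, Real.sq_sqrt ht.le, Real.sq_sqrt hs0.le]
      congr 1; simp only [hs]; field_simp
    rwa [e] at h1
  have hvt0 : 0 < Vb 𝓜 g x (Real.sqrt t) := hV.pos x hx _ (Real.sqrt_pos.2 ht)
  have hwt : w = Real.exp (-(1 / 16 * d ^ 2 / t)) := by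
    rw [hw, hσ2]; congr 1; simp only [hs]; field_simp; ring
  rw [← hwt]
  have hstep : (C₁ / vy + C₁ / vx) * (C₂ * E) ≤ C₁ * C₂ * (1 + C₃ * C₄) / vx * w := by
    have h2 : (C₁ / vy + C₁ / vx) * (C₂ * E) ≤
        (C₁ * (C₃ * (1 + σ) ^ (2 * n)) / vx + C₁ / vx) * (C₂ * E) :=
      mul_le_mul_of_nonneg_right (by linarith) (by rw [hEw]; positivity)
    refine h2.trans ?_
    have e : (C₁ * (C₃ * (1 + σ) ^ (2 * n)) / vx + C₁ / vx) * (C₂ * E) =
        C₁ * C₂ / vx * w * (C₃ * ((1 + σ) ^ (2 * n) * w) + w) := by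
      rw [hEw]; field_simp
    rw [e]
    have h3 : C₃ * ((1 + σ) ^ (2 * n) * w) + w ≤ C₃ * C₄ + 1 := by
      have := mul_le_mul_of_nonneg_left hp hC₃.le
      linarith
    calc C₁ * C₂ / vx * w * (C₃ * ((1 + σ) ^ (2 * n) * w) + w)
        ≤ C₁ * C₂ / vx * w * (C₃ * C₄ + 1) := mul_le_mul_of_nonneg_left h3 (by positivity)
      _ = _ := by ring
  refine hmain.trans (hstep.trans ?_)
  apply mul_le_mul_of_nonneg_right _ hw0.le
  rw [div_le_div_iff₀ hvx0 hvt0]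
  calc C₁ * C₂ * (1 + C₃ * C₄) * Vb 𝓜 g x (Real.sqrt t)
      ≤ C₁ * C₂ * (1 + C₃ * C₄) * (C₀ * 2 ^ n * vx) :=
        mul_le_mul_of_nonneg_left hvt (by positivity)
    _ = _ := by ring

/-- **gradient bound of the kernel.** -/
theorem ly_grad (S : AnaSetting 𝓜 g) : ∃ C c : ℝ, 0 < c ∧ ∀ t : ℝ, 0 < t → ∀ x ∈ 𝓜.carrier,
    ∀ y ∈ 𝓜.carrier,
      gradSq 𝓜 g (fun x' => HC.Hk t x' y) x ≤
        (C / Real.sqrt t / Vb 𝓜 g x (Real.sqrt t)
          * Real.exp (-(c * hdist 𝓜 g x y ^ 2 / t))) ^ 2 := by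
  have hg : IsMetric 𝓜 g := S.kahler.toIsMetric
  have hV := ly_volComparison HC S
  obtain ⟨C₀, hC₀1, hratio⟩ := hV.ratio
  obtain ⟨Cu, c, hc, hup⟩ := ly_upper HC S
  obtain ⟨C₃, hC₃, hVV⟩ := ly_Vb_le_Vb S hV
  obtain ⟨CB, hB⟩ := ly_bernstein S
  have hC₀ : 0 < C₀ := by linarith
  set K : ℝ := |Cu| * (C₀ * 2 ^ n * (C₃ * 2 ^ (2 * n))) * Real.exp (c / 4) with hK
  have hK0 : 0 ≤ K := by positivity
  refine ⟨2 * Real.sqrt |CB| * K, c / 2, by positivity, fun t ht x hx y hy => ?_⟩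
  have hst : 0 < Real.sqrt t := Real.sqrt_pos.2 ht
  set R : ℝ := Real.sqrt t / 2 with hR
  have hR0 : 0 < R := by positivity
  have hR2 : R ^ 2 = t / 4 := by rw [hR, div_pow, Real.sq_sqrt ht.le]; norm_num
  set d : ℝ := hdist 𝓜 g x y with hd
  set v : ℝ := Vb 𝓜 g x (Real.sqrt t) with hv
  have hv0 : 0 < v := hV.pos x hx _ hst
  set A : ℝ := K / v * Real.exp (-(c / 2 * d ^ 2 / t)) with hA
  have hsubI : Set.Icc (t - R ^ 2) t ⊆ Set.Ioi 0 := fun s hs => by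
    have := hs.1; rw [hR2] at this; simp only [Set.mem_Ioi]; linarith
  have hbound : ∀ s ∈ Set.Icc (t - R ^ 2) t, ∀ x' ∈ hball 𝓜 g x R, |HC.Hk s x' y| ≤ A := by
    intro s hs x' hx'
    have hs0 : 0 < s := hsubI hs
    have hs1 : 3 * t / 4 ≤ s := by have := hs.1; rw [hR2] at this; linarith
    have hss : 0 < Real.sqrt s := Real.sqrt_pos.2 hs0
    rw [abs_of_nonneg (HC.nonneg s hs0 x' y)]
    have h1 := hup s hs0 x' hx'.1 y hy
    set v' : ℝ := Vb 𝓜 g x' (Real.sqrt s) with hv'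
    have hv'0 : 0 < v' := hV.pos x' hx'.1 _ hss
    -- volumes
    have hRs : R ≤ Real.sqrt s := by
      apply Real.le_sqrt_of_sq_le; rw [hR2]; linarith
    have h2 := hVV x hx x' hx'.1 (Real.sqrt s) hss
    have h3 : (1 + hdist 𝓜 g x x' / Real.sqrt s) ^ (2 * n) ≤ 2 ^ (2 * n) := by
      apply pow_le_pow_left₀ (by have := hdist_nonneg 𝓜 g x x'; positivity)
      have : hdist 𝓜 g x x' / Real.sqrt s ≤ 1 := by
        rw [div_le_one hss]; exact hx'.2.le.trans hRs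
      linarith
    have h4 : Vb 𝓜 g x (Real.sqrt s) ≤ C₃ * 2 ^ (2 * n) * v' := by
      refine h2.trans ?_
      apply mul_le_mul_of_nonneg_right _ hv'0.le
      exact mul_le_mul_of_nonneg_left h3 hC₃.le
    have h5 := hratio x hx (Real.sqrt s) (Real.sqrt t) hss (Real.sqrt_le_sqrt hs.2)
    have h6 : (Real.sqrt t / Real.sqrt s) ^ (2 * n) ≤ 2 ^ n := by
      rw [pow_mul, div_pow, Real.sq_sqrt ht.le, Real.sq_sqrt hs0.le]
      apply pow_le_pow_left₀ (by positivity)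
      rw [div_le_iff₀ hs0]; linarith
    have h7 : v ≤ C₀ * 2 ^ n * (C₃ * 2 ^ (2 * n)) * v' := by
      calc v ≤ C₀ * (Real.sqrt t / Real.sqrt s) ^ (2 * n) * Vb 𝓜 g x (Real.sqrt s) := h5
        _ ≤ C₀ * 2 ^ n * (C₃ * 2 ^ (2 * n) * v') := by
            apply mul_le_mul (mul_le_mul_of_nonneg_left h6 hC₀.le) h4
              (hV.pos x hx _ hss).le (by positivity)
        _ = _ := by ring
    -- distances
    have hd1 : d ≤ R + hdist 𝓜 g x' y := by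
      have := hdist_triangle hg S.conn hx hx'.1 hy
      have := hx'.2
      linarith
    have hdn := hdist_nonneg 𝓜 g x' y
    have hd2 : d ^ 2 / 2 - t / 4 ≤ hdist 𝓜 g x' y ^ 2 := by
      have hd0 : 0 ≤ d := hdist_nonneg _ _ _ _
      have h8 : d ^ 2 ≤ (R + hdist 𝓜 g x' y) ^ 2 := pow_le_pow_left₀ hd0 hd1 2
      nlinarith [sq_nonneg (R - hdist 𝓜 g x' y)]
    have hexp : Real.exp (-(c * hdist 𝓜 g x' y ^ 2 / s)) ≤
        Real.exp (c / 4) * Real.exp (-(c / 2 * d ^ 2 / t)) := by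
      rw [← Real.exp_add]
      apply Real.exp_le_exp.2
      have h9 : c * hdist 𝓜 g x' y ^ 2 / t ≤ c * hdist 𝓜 g x' y ^ 2 / s :=
        div_le_div_of_nonneg_left (by positivity) hs0 hs.2
      have h10 : c * (d ^ 2 / 2 - t / 4) / t ≤ c * hdist 𝓜 g x' y ^ 2 / t :=
        div_le_div_of_nonneg_right (mul_le_mul_of_nonneg_left hd2 hc.le) ht.le
      have e : c * (d ^ 2 / 2 - t / 4) / t = c / 2 * d ^ 2 / t - c / 4 := by
        field_simp
      linarith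
    have hCu : Cu / v' ≤ |Cu| * (C₀ * 2 ^ n * (C₃ * 2 ^ (2 * n))) / v := by
      rw [div_le_div_iff₀ hv'0 hv0]
      calc Cu * v ≤ |Cu| * v := mul_le_mul_of_nonneg_right (le_abs_self _) hv0.le
        _ ≤ |Cu| * (C₀ * 2 ^ n * (C₃ * 2 ^ (2 * n)) * v') :=
            mul_le_mul_of_nonneg_left h7 (abs_nonneg _)
        _ = _ := by ring
    calc HC.Hk s x' y ≤ Cu / v' * Real.exp (-(c * hdist 𝓜 g x' y ^ 2 / s)) := h1
      _ ≤ (|Cu| * (C₀ * 2 ^ n * (C₃ * 2 ^ (2 * n))) / v) *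
            Real.exp (-(c * hdist 𝓜 g x' y ^ 2 / s)) :=
          mul_le_mul_of_nonneg_right hCu (Real.exp_pos _).le
      _ ≤ (|Cu| * (C₀ * 2 ^ n * (C₃ * 2 ^ (2 * n))) / v) *
            (Real.exp (c / 4) * Real.exp (-(c / 2 * d ^ 2 / t))) :=
          mul_le_mul_of_nonneg_left hexp (by positivity)
      _ = A := by rw [hA, hK]; ring
  have h1 := hB x t R A (fun s z => HC.Hk s z y) hx hR0
    (ly_heatSol_mono (ly_isHeatSol_Hk HC hy) hsubI) hbound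
  refine h1.trans ?_
  have h2 : CB * A ^ 2 / R ^ 2 ≤ |CB| * A ^ 2 / R ^ 2 := by
    apply div_le_div_of_nonneg_right _ (by positivity)
    exact mul_le_mul_of_nonneg_right (le_abs_self _) (sq_nonneg _)
  refine h2.trans (le_of_eq ?_)
  rw [hR2, hA]
  have e1 : Real.sqrt |CB| ^ 2 = |CB| := Real.sq_sqrt (abs_nonneg _)
  have e2 : Real.sqrt t ^ 2 = t := Real.sq_sqrt ht.le
  have e3 : (2 * Real.sqrt |CB| * K / Real.sqrt t / v * Real.exp (-(c / 2 * d ^ 2 / t))) ^ 2 =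
      4 * Real.sqrt |CB| ^ 2 * (K / v * Real.exp (-(c / 2 * d ^ 2 / t))) ^ 2 / Real.sqrt t ^ 2 := by
    field_simp; ring
  rw [e3, e1, e2]
  ring

end Claimed.Agent.R316
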