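import Claimed.Agent.R316.Base.LiYau.Local

/-!
# Row 316, `BP-G9`, file 6: the Harnack inequality     (leaves `G9-HARN-A` (`ly_hasDerivAt_path`), `G9-HARN-B` (the rest))

Sub-captain: helper201.  Statements are frozen; the owner of a leaf replaces its `sorry`s.

* `ly_hasDerivAt_path` (chain rule along a space-time path).  Work in a parametrisation `Φ, U` around `γ s₀` (`𝓜.cover`): `c = invFunOn Φ U ∘ γ` is differentiable at `s₀`
  (`CM/Param.lean`: `contDiffAt_invFunOn_comp` / `hasFDerivAt_invFunOn_comp`), `γ = Φ ∘ c` near `s₀`; `(t,z) ↦ F t (Φ z)` is `C^∞` on `I ×ˢ U`, and `(τ s₀, c s₀)` is an interior point because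
  `I ∈ 𝓝 (τ s₀)`; so `s ↦ F (τ s) (Φ (c s))` is differentiable with derivative `∂_t F · τ' + d_z(F(τ s₀) ∘ Φ)(c')` (`HasFDerivAt.comp_hasDerivAt`, split `(τ',c') = (τ',0) + (0,c')`);
  the first partial is the time derivative (`derivWithin = deriv` at interior points), the second is `deriv (F (τ s₀) ∘ γ) s₀`.
* `ly_harnack`.  `f = log u`, `Δt = t₂ - t₁`, `L > d(x,y)`, `γ` from `exists_curve_speed_le` (from `y` to `x`; `|γ'|² ≤ L²`), `τ s = t₂ - s Δt`, `ψ s = f (τ s) (γ s)`.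
  For `s ∈ (0,1]`, `τ s ∈ (0,T)` is interior to `Ioc 0 T`:
  `ψ' = - Δt f_t + d f(γ') ≤ - Δt (|∂f|² - n/τ) + 2 |∂f| L ≤ L²/Δt + n Δt/τ s`   (`ly_li_yau`, `abs_deriv_comp_le`, `2ab ≤ Δt a² + b²/Δt`).
  `ψ` is continuous on `[0,1]` (`CMfd.SmoothST.continuousOn` composed with the path).  The function `s ↦ ψ s - s L²/Δt + n log (τ s)` is continuous on `[0,1]` with derivative `≤ 0` on `(0,1)`, so antitone
  (`antitoneOn_of_deriv_nonpos`): `ψ 1 - ψ 0 ≤ L²/Δt + n log (t₂/t₁)`.  Exponentiate, let `L ↓ d(x,y)`.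
* `ly_harnack_nonneg`: apply `ly_harnack` to `u + ε` (`ly_heatSol_add_const`), let `ε → 0`.
-/

set_option autoImplicit false
open scoped ContDiff ComplexOrder Topology
open MeasureTheory Filter

namespace Claimed.Agent.R316

variable {V : Type} [NormedAddCommGroup V] [NormedSpace ℝ V] [FiniteDimensional ℝ V]
  [MeasurableSpace V] [BorelSpace V]
variable {n : ℕ} {𝓜 : CMfd V (Fin n)} {g : HFam V (Fin n)}

/-- chain rule along a space-time path (interior times). -/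
theorem ly_hasDerivAt_path {I : Set ℝ} {F : ℝ → V → ℝ} (hF : 𝓜.SmoothST I F) {γ : ℝ → V} {τ : ℝ → ℝ}
    {s₀ τ' : ℝ} (hγ : DifferentiableAt ℝ γ s₀) (hmem : ∀ᶠ s in 𝓝 s₀, γ s ∈ 𝓜.carrier)
    (hτ : HasDerivAt τ τ' s₀) (hI : I ∈ 𝓝 (τ s₀)) :
    HasDerivAt (fun s => F (τ s) (γ s))
      (deriv (fun r => F r (γ s₀)) (τ s₀) * τ' + deriv (F (τ s₀) ∘ γ) s₀) s₀ := by
  have hx : γ s₀ ∈ 𝓜.carrier := hmem.self_of_nhds
  have hΨ := 𝓜.isHol_pΦ hx
  have hp := 𝓜.isParam hΨ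
  set Ψ := 𝓜.pΦ (γ s₀) with hΨdef
  set W := 𝓜.pU (γ s₀) with hWdef
  obtain ⟨hc, -⟩ := hp.hasFDerivAt_invFunOn_comp hγ hmem (𝓜.mem_image_pΦ hx)
  set c : ℝ → CE (Fin n) := Function.invFunOn Ψ W ∘ γ with hcdef
  have hcW : c s₀ ∈ W := 𝓜.co_mem hx
  have hΨc : Ψ (c s₀) = γ s₀ := hp.rightInv (𝓜.mem_image_pΦ hx)
  have hev : ∀ᶠ s in 𝓝 s₀, γ s ∈ Ψ '' W := by
    obtain ⟨O, hO, himg⟩ := hp.image
    have h1 : γ s₀ ∈ O := by
      have : γ s₀ ∈ 𝓜.carrier ∩ O := himg ▸ 𝓜.mem_image_pΦ hx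
      exact this.2
    have h2 : ∀ᶠ s in 𝓝 s₀, γ s ∈ O := hγ.continuousAt.eventually (hO.mem_nhds h1)
    filter_upwards [h2, hmem] with s hs1 hs2
    rw [himg]
    exact ⟨hs2, hs1⟩
  set Q : ℝ × CE (Fin n) → ℝ := fun q => F q.1 (Ψ q.2) with hQ
  have hQd : DifferentiableAt ℝ Q (τ s₀, c s₀) :=
    ((hF Ψ W hΨ).contDiffAt (prod_mem_nhds hI (hp.isOpen.mem_nhds hcW))).differentiableAt (by simp)
  set L := fderiv ℝ Q (τ s₀, c s₀) with hL
  have hQL : HasFDerivAt Q L (τ s₀, c s₀) := hQd.hasFDerivAt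
  -- the full path
  have h1 : HasDerivAt (Q ∘ fun s => (τ s, c s)) (L (τ', deriv c s₀)) s₀ :=
    HasFDerivAt.comp_hasDerivAt s₀ (by exact hQL) (hτ.prodMk hc.hasDerivAt)
  -- time only
  have h2 : HasDerivAt (Q ∘ fun r => (r, c s₀)) (L (1, 0)) (τ s₀) :=
    HasFDerivAt.comp_hasDerivAt (τ s₀) (by exact hQL)
      ((hasDerivAt_id' (τ s₀)).prodMk (hasDerivAt_const (τ s₀) (c s₀)))
  -- space only
  have h3 : HasDerivAt (Q ∘ fun s => (τ s₀, c s)) (L (0, deriv c s₀)) s₀ :=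
    HasFDerivAt.comp_hasDerivAt s₀ (by exact hQL) ((hasDerivAt_const s₀ (τ s₀)).prodMk hc.hasDerivAt)
  have e2 : deriv (fun r => F r (γ s₀)) (τ s₀) = L (1, 0) := by
    have : (Q ∘ fun r => (r, c s₀)) = fun r => F r (γ s₀) := by
      funext r; simp only [hQ, hΨc, Function.comp_apply]
    rw [← this]; exact h2.deriv
  have e3 : deriv (F (τ s₀) ∘ γ) s₀ = L (0, deriv c s₀) := by
    have : (F (τ s₀) ∘ γ) =ᶠ[𝓝 s₀] (Q ∘ fun s => (τ s₀, c s)) := by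
      filter_upwards [hev] with s hs
      simp only [hQ, hcdef, Function.comp_apply]
      rw [hp.rightInv hs]
    rw [this.deriv_eq]; exact h3.deriv
  have e1 : L (τ', deriv c s₀) = L (1, 0) * τ' + L (0, deriv c s₀) := by
    have : ((τ', deriv c s₀) : ℝ × CE (Fin n)) = τ' • ((1 : ℝ), (0 : CE (Fin n))) + (0, deriv c s₀) := by
      ext <;> simp
    rw [this, map_add, map_smul, smul_eq_mul, mul_comm]
  rw [e2, e3, ← e1]
  refine h1.congr_of_eventuallyEq ?_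
  filter_upwards [hev] with s hs
  simp only [hQ, hcdef, Function.comp_apply]
  rw [hp.rightInv hs]

/-- the Harnack inequality in logarithmic form, with `L > d(x,y)`. -/
theorem ly_harnack_log (S : AnaSetting 𝓜 g) {T : ℝ} (hT : 0 < T) {u : ℝ → V → ℝ}
    (hu : IsHeatSol 𝓜 g (Set.Ioc 0 T) u) (hpos : ∀ t ∈ Set.Ioc 0 T, ∀ x ∈ 𝓜.carrier, 0 < u t x)
    {t₁ t₂ : ℝ} (h1 : 0 < t₁) (h12 : t₁ < t₂) (h2 : t₂ ≤ T) {x y : V} (hx : x ∈ 𝓜.carrier)
    (hy : y ∈ 𝓜.carrier) {L : ℝ} (hL : hdist 𝓜 g x y < L) :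
    Real.log (u t₁ x) ≤ Real.log (u t₂ y) + L ^ 2 / (t₂ - t₁) + n * (Real.log t₂ - Real.log t₁) := by
  have hm : IsMetric 𝓜 g := S.kahler.toIsMetric
  have hL0 : 0 < L := (hdist_nonneg 𝓜 g x y).trans_lt hL
  rw [hdist_comm hm x y] at hL
  obtain ⟨γ, hγ, hγ0, hγ1, -, hsp⟩ := exists_curve_speed_le hm S.conn hy hx hL
  set δ : ℝ := t₂ - t₁ with hδ
  have hδ0 : 0 < δ := by simp only [hδ]; linarith
  set τ : ℝ → ℝ := fun s => t₂ - s * δ with hτ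
  have hτd : ∀ s, HasDerivAt τ (-δ) s := fun s => by
    have := ((hasDerivAt_id s).mul_const δ).const_sub t₂
    simpa using this
  have hτc : Continuous τ := by fun_prop
  have hτmem : ∀ s ∈ Set.Icc (0:ℝ) 1, τ s ∈ Set.Icc t₁ t₂ := by
    intro s hs
    simp only [hτ, hδ, Set.mem_Icc]
    constructor <;> nlinarith [hs.1, hs.2]
  have hsubI : Set.Icc t₁ t₂ ⊆ Set.Ioc 0 T := fun r hr => ⟨h1.trans_le hr.1, hr.2.trans h2⟩
  have h0 : ∀ t ∈ Set.Ioc 0 T, ∀ x ∈ 𝓜.carrier, u t x ≠ 0 := fun t ht x hx => (hpos t ht x hx).ne'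
  set f : ℝ → V → ℝ := fun s y => Real.log (u s y) with hf
  have hfs : 𝓜.SmoothST (Set.Ioc 0 T) f := hu.1.log h0
  set ψ : ℝ → ℝ := fun s => f (τ s) (γ s) with hψ
  have hψc : ContinuousOn ψ (Set.Icc 0 1) := by
    have h3 : ContinuousOn (fun s : ℝ => ((τ s, γ s) : ℝ × V)) (Set.Icc 0 1) :=
      (hτc.prodMk hγ.1.continuous).continuousOn
    exact hfs.continuousOn.comp h3 (fun s hs => ⟨hsubI (hτmem s hs), hγ.2 s⟩)
  -- the derivative of `ψ`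
  have hψd : ∀ s ∈ Set.Ioo (0:ℝ) 1, ∃ D : ℝ, HasDerivAt ψ D s ∧ D ≤ L ^ 2 / δ + n * δ / τ s := by
    intro s hs
    have hτs : τ s ∈ Set.Ioo t₁ t₂ := by
      simp only [hτ, hδ, Set.mem_Ioo]
      constructor <;> nlinarith [hs.1, hs.2]
    have hτI : τ s ∈ Set.Ioc 0 T := hsubI ⟨hτs.1.le, hτs.2.le⟩
    have hnh : Set.Ioc 0 T ∈ 𝓝 (τ s) := Ioc_mem_nhds hτI.1 (hτs.2.trans_le h2)
    have hγM := hγ.2 s
    have hγd : DifferentiableAt ℝ γ s := hγ.1.differentiable (by norm_num) s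
    have hpath := ly_hasDerivAt_path hfs hγd (Filter.Eventually.of_forall hγ.2) (hτd s) hnh
    refine ⟨_, hpath, ?_⟩
    have hft : deriv (fun r => f r (γ s)) (τ s) = lap 𝓜 g (u (τ s)) (γ s) / u (τ s) (γ s) :=
      (((hu.2 (τ s) hτI (γ s) hγM).hasDerivAt hnh).log (h0 _ hτI _ hγM)).deriv
    have hLY := ly_li_yau S hT hu hpos (τ s) hτI (γ s) hγM
    have hP : gradSq 𝓜 g (f (τ s)) (γ s) = gradSq 𝓜 g (u (τ s)) (γ s) / u (τ s) (γ s) ^ 2 :=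
      gradSq_log g hγM ((hu.1.smooth hτI).diffAt hγM) (h0 _ hτI _ hγM)
    obtain ⟨-, hab⟩ := abs_deriv_comp_le hm (hfs.smooth hτI) hγd (Filter.Eventually.of_forall hγ.2)
    set P : ℝ := gradSq 𝓜 g (f (τ s)) (γ s) with hPdef
    have hP0 : 0 ≤ P := gradSq_nonneg hm _ hγM
    set q : ℝ := Real.sqrt P with hq
    have hq0 : 0 ≤ q := Real.sqrt_nonneg _
    have hq2 : q ^ 2 = P := Real.sq_sqrt hP0
    have hsq : Real.sqrt (ambQ 𝓜 g (γ s) (deriv γ s)) ≤ L :=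
      Real.sqrt_le_iff.2 ⟨hL0.le, hsp s⟩
    have hd : deriv (f (τ s) ∘ γ) s ≤ 2 * q * L :=
      (le_abs_self _).trans (hab.trans (mul_le_mul_of_nonneg_left hsq (by positivity)))
    rw [hft]
    rw [← hP] at hLY
    have hAM : 2 * q * L ≤ δ * P + L ^ 2 / δ := by
      have : 2 * q * L * δ ≤ (δ * P + L ^ 2 / δ) * δ := by
        have e : (δ * P + L ^ 2 / δ) * δ = δ ^ 2 * q ^ 2 + L ^ 2 := by
          rw [hq2]; field_simp
        rw [e]; nlinarith [sq_nonneg (δ * q - L)]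
      exact le_of_mul_le_mul_right this hδ0
    have h5 : δ * (P - lap 𝓜 g (u (τ s)) (γ s) / u (τ s) (γ s)) ≤ δ * (n / τ s) :=
      mul_le_mul_of_nonneg_left hLY hδ0.le
    have h6 : δ * (n / τ s) = n * δ / τ s := by ring
    linarith
  -- the monotone quantity
  set Ψ : ℝ → ℝ := fun s => ψ s - s * (L ^ 2 / δ) + n * Real.log (τ s) with hΨ
  have hτpos : ∀ s ∈ Set.Icc (0:ℝ) 1, 0 < τ s := fun s hs => h1.trans_le (hτmem s hs).1
  have hΨc : ContinuousOn Ψ (Set.Icc 0 1) := by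
    refine (hψc.sub (by fun_prop)).add (continuousOn_const.mul ?_)
    exact hτc.continuousOn.log (fun s hs => (hτpos s hs).ne')
  have hΨd : ∀ s ∈ Set.Ioo (0:ℝ) 1, ∃ D : ℝ, HasDerivAt Ψ D s ∧ D ≤ 0 := by
    intro s hs
    obtain ⟨D, hD, hDle⟩ := hψd s hs
    have hτs0 : 0 < τ s := hτpos s ⟨hs.1.le, hs.2.le⟩
    have h3 := (hD.sub ((hasDerivAt_id s).mul_const (L ^ 2 / δ))).add
      (((hτd s).log hτs0.ne').const_mul (n : ℝ))
    refine ⟨_, h3, ?_⟩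
    have : (n : ℝ) * (-δ / τ s) = - (n * δ / τ s) := by ring
    rw [this]; simp only [one_mul]; linarith
  have hanti : AntitoneOn Ψ (Set.Icc 0 1) := by
    apply antitoneOn_of_deriv_nonpos (convex_Icc 0 1) hΨc
    · intro s hs
      rw [interior_Icc] at hs
      obtain ⟨D, hD, -⟩ := hΨd s hs
      exact hD.differentiableAt.differentiableWithinAt
    · intro s hs
      rw [interior_Icc] at hs
      obtain ⟨D, hD, hD0⟩ := hΨd s hs
      rw [hD.deriv]; exact hD0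
  have hfin := hanti (Set.left_mem_Icc.2 zero_le_one) (Set.right_mem_Icc.2 zero_le_one) zero_le_one
  have e0 : Ψ 0 = Real.log (u t₂ y) + n * Real.log t₂ := by
    simp [hΨ, hψ, hτ, hf, hγ0]
  have e1 : Ψ 1 = Real.log (u t₁ x) - L ^ 2 / δ + n * Real.log t₁ := by
    simp [hΨ, hψ, hτ, hf, hγ1, hδ]
  rw [e0, e1] at hfin
  linarith

/-- **Harnack inequality** (= `harnack` of `Base/Heat/Api.lean`). -/
theorem ly_harnack (S : AnaSetting 𝓜 g) {T : ℝ} (hT : 0 < T) {u : ℝ → V → ℝ}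
    (hu : IsHeatSol 𝓜 g (Set.Ioc 0 T) u) (hpos : ∀ t ∈ Set.Ioc 0 T, ∀ x ∈ 𝓜.carrier, 0 < u t x)
    {t₁ t₂ : ℝ} (h1 : 0 < t₁) (h12 : t₁ < t₂) (h2 : t₂ ≤ T) {x y : V} (hx : x ∈ 𝓜.carrier)
    (hy : y ∈ 𝓜.carrier) :
    u t₁ x ≤ u t₂ y * (t₂ / t₁) ^ n * Real.exp (hdist 𝓜 g x y ^ 2 / (t₂ - t₁)) := by
  have ht₂ : 0 < t₂ := h1.trans h12
  have hu1 : 0 < u t₁ x := hpos t₁ ⟨h1, h12.le.trans h2⟩ x hx
  have hu2 : 0 < u t₂ y := hpos t₂ ⟨ht₂, h2⟩ y hy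
  have key : ∀ L : ℝ, hdist 𝓜 g x y < L →
      u t₁ x ≤ u t₂ y * (t₂ / t₁) ^ n * Real.exp (L ^ 2 / (t₂ - t₁)) := by
    intro L hL
    have h3 := ly_harnack_log S hT hu hpos h1 h12 h2 hx hy hL
    have h4 : Real.log (u t₂ y * (t₂ / t₁) ^ n * Real.exp (L ^ 2 / (t₂ - t₁))) =
        Real.log (u t₂ y) + L ^ 2 / (t₂ - t₁) + n * (Real.log t₂ - Real.log t₁) := by
      rw [Real.log_mul (by positivity) (by positivity), Real.log_mul hu2.ne' (by positivity),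
        Real.log_exp, Real.log_pow, Real.log_div ht₂.ne' h1.ne']
      ring
    rw [← h4] at h3
    exact (Real.log_le_log_iff hu1 (by positivity)).1 h3
  have hlim : Tendsto (fun L : ℝ => u t₂ y * (t₂ / t₁) ^ n * Real.exp (L ^ 2 / (t₂ - t₁)))
      (𝓝[>] (hdist 𝓜 g x y))
      (𝓝 (u t₂ y * (t₂ / t₁) ^ n * Real.exp (hdist 𝓜 g x y ^ 2 / (t₂ - t₁)))) := by
    have hc : Continuous (fun L : ℝ => u t₂ y * (t₂ / t₁) ^ n * Real.exp (L ^ 2 / (t₂ - t₁))) := by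
      fun_prop
    exact (hc.tendsto _).mono_left nhdsWithin_le_nhds
  exact ge_of_tendsto hlim (by filter_upwards [self_mem_nhdsWithin] with L hL using key L hL)

/-- the same for nonnegative solutions. -/
theorem ly_harnack_nonneg (S : AnaSetting 𝓜 g) {T : ℝ} (hT : 0 < T) {u : ℝ → V → ℝ}
    (hu : IsHeatSol 𝓜 g (Set.Ioc 0 T) u) (hpos : ∀ t ∈ Set.Ioc 0 T, ∀ x ∈ 𝓜.carrier, 0 ≤ u t x)
    {t₁ t₂ : ℝ} (h1 : 0 < t₁) (h12 : t₁ < t₂) (h2 : t₂ ≤ T) {x y : V} (hx : x ∈ 𝓜.carrier)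
    (hy : y ∈ 𝓜.carrier) :
    u t₁ x ≤ u t₂ y * (t₂ / t₁) ^ n * Real.exp (hdist 𝓜 g x y ^ 2 / (t₂ - t₁)) := by
  have key : ∀ ε : ℝ, 0 < ε → u t₁ x + ε ≤
      (u t₂ y + ε) * (t₂ / t₁) ^ n * Real.exp (hdist 𝓜 g x y ^ 2 / (t₂ - t₁)) := fun ε hε =>
    ly_harnack S hT (ly_heatSol_add_const hu ε)
      (fun t ht z hz => by have := hpos t ht z hz; linarith) h1 h12 h2 hx hy
  have hl1 : Tendsto (fun ε : ℝ => u t₁ x + ε) (𝓝[>] 0) (𝓝 (u t₁ x + 0)) :=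
    ((continuous_const.add continuous_id).tendsto 0).mono_left nhdsWithin_le_nhds
  have hl2 : Tendsto (fun ε : ℝ =>
      (u t₂ y + ε) * (t₂ / t₁) ^ n * Real.exp (hdist 𝓜 g x y ^ 2 / (t₂ - t₁))) (𝓝[>] 0)
      (𝓝 ((u t₂ y + 0) * (t₂ / t₁) ^ n * Real.exp (hdist 𝓜 g x y ^ 2 / (t₂ - t₁)))) := by
    have hc : Continuous (fun ε : ℝ =>
      (u t₂ y + ε) * (t₂ / t₁) ^ n * Real.exp (hdist 𝓜 g x y ^ 2 / (t₂ - t₁))) := by fun_prop
    exact (hc.tendsto 0).mono_left nhdsWithin_le_nhds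
  have := le_of_tendsto_of_tendsto hl1 hl2
    (by filter_upwards [self_mem_nhdsWithin] with ε hε using key ε hε)
  simpa using this

/-- Li-Yau for nonnegative solutions, without division: `|∂u|² ≤ u (Δu + (n/t) u)`. -/
theorem ly_li_yau_nonneg (S : AnaSetting 𝓜 g) {T : ℝ} (hT : 0 < T) {u : ℝ → V → ℝ}
    (hu : IsHeatSol 𝓜 g (Set.Ioc 0 T) u) (hpos : ∀ t ∈ Set.Ioc 0 T, ∀ x ∈ 𝓜.carrier, 0 ≤ u t x) :
    ∀ t ∈ Set.Ioc 0 T, ∀ x ∈ 𝓜.carrier,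
      gradSq 𝓜 g (u t) x ≤ u t x * (lap 𝓜 g (u t) x + n / t * u t x) := by
  intro t ht x hx
  have key : ∀ ε : ℝ, 0 < ε →
      gradSq 𝓜 g (u t) x ≤ (u t x + ε) * (lap 𝓜 g (u t) x + n / t * (u t x + ε)) := by
    intro ε hε
    have hp : 0 < u t x + ε := by have := hpos t ht x hx; linarith
    have h1 := ly_li_yau S hT (ly_heatSol_add_const hu ε)
      (fun t ht z hz => by have := hpos t ht z hz; linarith) t ht x hx
    rw [gradSq_add_const, lap_add_const] at h1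
    have h2 : gradSq 𝓜 g (u t) x / (u t x + ε) ^ 2 ≤ n / t + lap 𝓜 g (u t) x / (u t x + ε) := by
      linarith
    rw [div_le_iff₀ (by positivity)] at h2
    have h3 : (n / t + lap 𝓜 g (u t) x / (u t x + ε)) * (u t x + ε) ^ 2 =
        (u t x + ε) * (lap 𝓜 g (u t) x + n / t * (u t x + ε)) := by
      field_simp
      ring
    rw [h3] at h2
    exact h2
  have hl2 : Tendsto (fun ε : ℝ => (u t x + ε) * (lap 𝓜 g (u t) x + n / t * (u t x + ε))) (𝓝[>] 0)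
      (𝓝 ((u t x + 0) * (lap 𝓜 g (u t) x + n / t * (u t x + 0)))) := by
    have hc : Continuous (fun ε : ℝ => (u t x + ε) * (lap 𝓜 g (u t) x + n / t * (u t x + ε))) := by
      fun_prop
    exact (hc.tendsto 0).mono_left nhdsWithin_le_nhds
  have := ge_of_tendsto hl2 (by filter_upwards [self_mem_nhdsWithin] with ε hε using key ε hε)
  simpa using this

end Claimed.Agent.R316
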