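import Claimed.Agent.R316.Base.LiYau.Evol

/-!
# Row 316, `BP-G9`, file 5: the Li-Yau estimate     (leaves `G9-LY-ALG`, `G9-LY-LOC`, `G9-LY-GLOB`)

Sub-captain: helper201.  Statements are frozen; the owner of a leaf replaces its `sorry`s.

`lyW α u = |∂ log u|² - α ∂_t log u`  (`Evol.lean`).

* `ly_alg` (leaf `G9-LY-ALG`, pure real algebra; `nlinarith`/`positivity`).  Data at the maximum point: `φ ∈ (0,1]`, `τ = t₀ - a > 0`, `y = |∂f|² ≥ 0`, `w > 0`, `D = Δf`,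
  `p = |∂φ|² ≤ κ φ`, `m = ⟨∂φ,∂f⟩` with `m² ≤ p y`.  `α D = -((α-1) y + w)` gives `D² ≥ (w² + 2(α-1) y w)/α²`.  From
  `0 ≤ φ w + 2 τ w |m| - φ τ D²/n + τ w κ + 2 τ w κ`  multiply by `φ τ`, put `G = φ τ w`, divide by `G`:
  `G/(nα²) ≤ 1 + 3 τ κ + 2 τ √(p y) - 2(α-1) φ τ y/(nα²)`, and `2 b s - 2 a s² ≤ b²/(2a)` with `s = √y`, `b = τ √p`, `a = (α-1) φ τ/(nα²)`.
* `ly_local` (leaf `G9-LY-LOC`).  `C` from `ly_cutoff`, `φ` the cutoff for `(x₀,R)`, `κ = C/R²`, `G s y = φ y * ((s - a) * lyW α u s y)`, `I = Icc a b`.  Apply `ly_exists_max` with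
  `K = hcball x₀ (2R)`, `O` from `ly_exists_ball_pair` (`G = 0` where `d = 2R` and at `s = a`).  First alternative: `G ≤ 0 ≤` bound.  Second: at `(t₀,x₀')`:
  `0 ≤ heatOp G` (`derivWithin ≥ 0`, `lap ≤ 0`);  `ly_heatOp_mul` twice, `ly_heatOp_space`, `ly_heatOp_time`:
  `heatOp G = φ (w + τ heatOp w) - τ w Δφ - 2 τ ⟨∂φ,∂w⟩`;   `⟨∂G,∂v⟩ = 0` with `gradInner_mul_left`, `gradInner_const_mul_left`: `φ ⟨∂w,∂v⟩ = - w ⟨∂φ,∂v⟩` for `v = φ` and `v = f = log u`;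
  `ly_heatOp_w` (`n > 0`): `heatOp w ≤ 2⟨∂f,∂w⟩ - D²/n`.  So `0 ≤ φ w - 2 τ w ⟨∂φ,∂f⟩ - φ τ D²/n + τ w κ + 2 τ w |∂φ|²/φ`.  `ly_lap_log`: `α D = -((α-1)y + w)`.  Then `ly_alg`.
  On `hball x₀ R`: `φ = 1`.
* `ly_dim_zero`: for `n = 0` all matrices and columns are empty: `simp [lap, tr, CMfd.scal, trF, gradSq, gradSqF, qf]`.
* `ly_li_yau` (leaf `G9-LY-GLOB`).  `n = 0`: `ly_dim_zero`.  `n > 0`: fix `(t,x)`, `0 < a < t`, `α > 1`; `ly_local` on `Icc a t` (`ly_heatSol_mono`) with `x₀ = x` and `R → ∞`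
  (`ge_of_tendsto`/`le_of_forall_pos_le_add`): `(t - a) lyW α ≤ n α²`; both sides are continuous in `(a,α)`: let `a → 0`, `α → 1`.
-/

set_option autoImplicit false
open scoped ContDiff ComplexOrder Topology
open MeasureTheory Filter

namespace Claimed.Agent.R316

/-- the algebra at the maximum point. -/
theorem ly_alg {N φ τ y w D p m κ α : ℝ} (hN : 0 < N) (hφ : 0 < φ) (hφ1 : φ ≤ 1) (hτ : 0 < τ)
    (hy : 0 ≤ y) (hw : 0 < w) (hα : 1 < α) (hκ : 0 ≤ κ) (hp : p ≤ κ * φ) (hm : m ^ 2 ≤ p * y)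
    (hD : α * D = -((α - 1) * y + w))
    (h : 0 ≤ φ * w - 2 * τ * w * m - φ * τ * D ^ 2 / N + τ * w * κ + 2 * τ * w * (p / φ)) :
    φ * (τ * w) ≤ N * α ^ 2 * (1 + τ * κ * (3 + N * α ^ 2 / (2 * (α - 1)))) := by
  have hα0 : 0 < α := by linarith
  have hα1 : 0 < α - 1 := by linarith
  set E : ℝ := N * α ^ 2 with hE
  have hE0 : 0 < E := by positivity
  -- p / φ ≤ κ
  have hpφ : p / φ ≤ κ := by rw [div_le_iff₀ hφ]; exact hp
  -- D ^ 2 / N = ((α-1) y + w)^2 / E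
  have hD2 : D ^ 2 / N = ((α - 1) * y + w) ^ 2 / E := by
    have : D = -((α - 1) * y + w) / α := by field_simp; linarith
    rw [this, hE]; field_simp
  have h1 : φ * τ * (((α - 1) * y + w) ^ 2 / E) ≤ φ * w - 2 * τ * w * m + 3 * (τ * w * κ) := by
    have : 2 * τ * w * (p / φ) ≤ 2 * τ * w * κ := by
      apply mul_le_mul_of_nonneg_left hpφ; positivity
    have h' : φ * τ * D ^ 2 / N = φ * τ * (((α - 1) * y + w) ^ 2 / E) := by
      rw [← hD2]; ring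
    linarith
  have h2 : w * (w + 2 * (α - 1) * y) ≤ ((α - 1) * y + w) ^ 2 := by nlinarith [sq_nonneg ((α - 1) * y)]
  have h3 : φ * τ * (w * (w + 2 * (α - 1) * y)) ≤ E * (φ * w - 2 * τ * w * m + 3 * (τ * w * κ)) := by
    have : φ * τ * (w * (w + 2 * (α - 1) * y) / E) ≤ φ * τ * (((α - 1) * y + w) ^ 2 / E) := by
      apply mul_le_mul_of_nonneg_left _ (by positivity)
      exact div_le_div_of_nonneg_right h2 hE0.le
    have h4 := this.trans h1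
    have h5 : φ * τ * (w * (w + 2 * (α - 1) * y) / E) = φ * τ * (w * (w + 2 * (α - 1) * y)) / E := by ring
    rw [h5, div_le_iff₀ hE0] at h4
    linarith
  have h4 : φ * τ * (w + 2 * (α - 1) * y) ≤ E * (φ - 2 * τ * m + 3 * (τ * κ)) := by
    have : w * (φ * τ * (w + 2 * (α - 1) * y)) ≤ w * (E * (φ - 2 * τ * m + 3 * (τ * κ))) := by
      nlinarith
    exact le_of_mul_le_mul_left this hw
  -- AM-GM
  set a : ℝ := 2 * (α - 1) / E with ha
  have ha0 : 0 < a := by positivity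
  have hm2 : -2 * m ≤ a * (φ * y) + κ / a := by
    have hmm : m ^ 2 ≤ κ * φ * y := hm.trans (mul_le_mul_of_nonneg_right hp hy)
    have hB : 0 ≤ a * (φ * y) + κ / a := by positivity
    have hsq : (-2 * m) ^ 2 ≤ (a * (φ * y) + κ / a) ^ 2 := by
      have : (a * (φ * y)) * (κ / a) = κ * φ * y := by field_simp
      nlinarith [sq_nonneg (a * (φ * y) - κ / a)]
    exact (abs_le_of_sq_le_sq' hsq hB).2
  have h5 : E * τ * (-2 * m) ≤ E * τ * (a * (φ * y) + κ / a) :=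
    mul_le_mul_of_nonneg_left hm2 (by positivity)
  have h6 : E * τ * (a * (φ * y) + κ / a) = 2 * (α - 1) * τ * φ * y + E * (τ * κ * (E / (2 * (α - 1)))) := by
    rw [ha]; field_simp
  have h7 : E * φ ≤ E * 1 := mul_le_mul_of_nonneg_left hφ1 hE0.le
  nlinarith

variable {V : Type} [NormedAddCommGroup V] [NormedSpace ℝ V] [FiniteDimensional ℝ V]
  [MeasurableSpace V] [BorelSpace V]
variable {n : ℕ} {𝓜 : CMfd V (Fin n)} {g : HFam V (Fin n)}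

/-- **local Li-Yau estimate.** -/
theorem ly_local (S : AnaSetting 𝓜 g) (hn : 0 < n) : ∃ C : ℝ, 0 ≤ C ∧
    ∀ (x₀ : V) (R a b α : ℝ) (u : ℝ → V → ℝ), x₀ ∈ 𝓜.carrier → 0 < R → a < b → 1 < α →
      IsHeatSol 𝓜 g (Set.Icc a b) u → (∀ t ∈ Set.Icc a b, ∀ x ∈ 𝓜.carrier, 0 < u t x) →
      ∀ t ∈ Set.Icc a b, ∀ x ∈ hball 𝓜 g x₀ R,
        (t - a) * lyW 𝓜 g α u t x ≤
          n * α ^ 2 * (1 + (b - a) * (C / R ^ 2) * (3 + n * α ^ 2 / (2 * (α - 1)))) := by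
  obtain ⟨C, hC, hcut⟩ := ly_cutoff S
  refine ⟨C, hC, fun x₀ R a b α u hx₀ hR hab hα hu hpos => ?_⟩
  have hg : IsMetric 𝓜 g := S.kahler.toIsMetric
  have hI : IsTimeDom (Set.Icc a b) := isTimeDom_Icc hab
  obtain ⟨φ, hφs, hφ01, hφ1, hφ0, hφg, hφl⟩ := hcut x₀ hx₀ R hR
  set κ : ℝ := C / R ^ 2 with hκ
  have hκ0 : 0 ≤ κ := by positivity
  have hα1 : 0 < α - 1 := by linarith
  have hnR : (0 : ℝ) < n := by exact_mod_cast hn
  set w : ℝ → V → ℝ := lyW 𝓜 g α u with hw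
  have hws : 𝓜.SmoothST (Set.Icc a b) w := ly_smoothST_lyW hg hI hu hpos α
  set F₂ : ℝ → V → ℝ := fun s y => (s - a) * w s y with hF₂
  have htime : 𝓜.SmoothST (Set.Icc a b) (fun s (_ : V) => s - a) :=
    CMfd.smoothST_of_time (contDiff_id.sub contDiff_const).contDiffOn
  have hF₂s : 𝓜.SmoothST (Set.Icc a b) F₂ := htime.mul hws
  have hφST : 𝓜.SmoothST (Set.Icc a b) (fun _ => φ) := hφs.smoothST _
  set G : ℝ → V → ℝ := fun s y => φ y * F₂ s y with hG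
  have hGs : 𝓜.SmoothST (Set.Icc a b) G := hφST.mul hF₂s
  obtain ⟨O, hO, hOe, hK, hKM, hOK, hbdO⟩ := ly_exists_ball_pair S hx₀ (2 * R)
  have hRHS : ∀ τ : ℝ, 0 ≤ τ → 0 ≤ n * α ^ 2 * (1 + τ * κ * (3 + n * α ^ 2 / (2 * (α - 1)))) := by
    intro τ hτ; positivity
  have hballK : hball 𝓜 g x₀ R ⊆ hcball 𝓜 g x₀ (2 * R) := fun y hy => ⟨hy.1, by linarith [hy.2]⟩
  have hGball : ∀ t, ∀ x ∈ hball 𝓜 g x₀ R, G t x = (t - a) * w t x := fun t x hx => by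
    simp only [hG, hF₂, hφ1 x hx, one_mul]
  rcases ly_exists_max hg hab hGs hK hKM hO hOK
    (fun t _ x hx hxO => by
      have : φ x = 0 := hφ0 x hx.1 (hbdO x hx hxO).ge
      simp [hG, this])
    (fun x _ => by simp [hG, hF₂]) with hcase | ⟨t₀, ht₀, x₁, hx₁, hGpos, hGmax, hGt, hGlap, hGgrad⟩
  · intro t ht x hx
    have := hcase t ht x (hballK hx)
    rw [hGball t x hx] at this
    exact this.trans (hRHS _ (by linarith))
  · have ht₀I : t₀ ∈ Set.Icc a b := ⟨ht₀.1.le, ht₀.2⟩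
    have hx₁M : x₁ ∈ 𝓜.carrier := hx₁.1
    set τ : ℝ := t₀ - a with hτ
    have hτ0 : 0 < τ := by simp only [hτ]; linarith [ht₀.1]
    set f : V → ℝ := fun y => Real.log (u t₀ y) with hf
    have hfs : 𝓜.Smooth f := (hu.1.smooth ht₀I).log (fun y hy => (hpos t₀ ht₀I y hy).ne')
    have hwt : 𝓜.Smooth (w t₀) := hws.smooth ht₀I
    set φ₁ : ℝ := φ x₁ with hφ₁
    set w₁ : ℝ := w t₀ x₁ with hw₁
    have hGval : G t₀ x₁ = φ₁ * (τ * w₁) := rfl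
    have hφ₁0 : 0 < φ₁ := by
      rcases (hφ01 x₁ hx₁M).1.lt_or_eq with h | h
      · exact h
      · have h' : φ₁ = 0 := h.symm
        rw [hGval, h'] at hGpos; simp at hGpos
    have hw₁0 : 0 < w₁ := by
      rw [hGval] at hGpos
      have h1 : 0 < τ * w₁ := (mul_pos_iff_of_pos_left hφ₁0).1 hGpos
      exact (mul_pos_iff_of_pos_left hτ0).1 h1
    -- the heat operator of `G`
    have hH0 : 0 ≤ heatOp 𝓜 g (Set.Icc a b) G t₀ x₁ := by
      rw [heatOp]; linarith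
    have hHF₂ : heatOp 𝓜 g (Set.Icc a b) F₂ t₀ x₁ = τ * heatOp 𝓜 g (Set.Icc a b) w t₀ x₁ + w₁ := by
      have h1 := ly_heatOp_mul hg hI htime hws ht₀I hx₁M
      have h2 : heatOp 𝓜 g (Set.Icc a b) (fun s (_ : V) => s - a) t₀ x₁ = 1 :=
        ly_heatOp_time hI ht₀I ((hasDerivAt_id t₀).sub_const a).hasDerivWithinAt
      rw [h2, gradInner_const_left] at h1
      rw [hF₂, h1]; ring
    have hHG : heatOp 𝓜 g (Set.Icc a b) G t₀ x₁ =
        φ₁ * (τ * heatOp 𝓜 g (Set.Icc a b) w t₀ x₁ + w₁) - τ * w₁ * lap 𝓜 g φ x₁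
          - 2 * (τ * gradInner 𝓜 g φ (w t₀) x₁) := by
      have h1 := ly_heatOp_mul hg hI hφST hF₂s ht₀I hx₁M
      rw [ly_heatOp_space, hHF₂] at h1
      have h2 : gradInner 𝓜 g φ (F₂ t₀) x₁ = τ * gradInner 𝓜 g φ (w t₀) x₁ :=
        gradInner_const_mul_right g τ (hwt.diffAt hx₁M) φ
      rw [h2] at h1
      rw [hG, h1]
      simp only [hF₂]
      ring
    -- the gradient of `G` vanishes
    have hgr : ∀ v : V → ℝ, φ₁ * gradInner 𝓜 g (w t₀) v x₁ = - (w₁ * gradInner 𝓜 g φ v x₁) := by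
      intro v
      have h1 := hGgrad v
      have h2 : gradInner 𝓜 g (G t₀) v x₁ =
          φ₁ * gradInner 𝓜 g (F₂ t₀) v x₁ + F₂ t₀ x₁ * gradInner 𝓜 g φ v x₁ :=
        gradInner_mul_left g hx₁M (hφs.diffAt hx₁M) ((hF₂s.smooth ht₀I).diffAt hx₁M) v
      have h3 : gradInner 𝓜 g (F₂ t₀) v x₁ = τ * gradInner 𝓜 g (w t₀) v x₁ :=
        gradInner_const_mul_left g τ (hwt.diffAt hx₁M) v
      rw [h2, h3] at h1
      have h4 : τ * (φ₁ * gradInner 𝓜 g (w t₀) v x₁ + w₁ * gradInner 𝓜 g φ v x₁) = 0 := by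
        have : F₂ t₀ x₁ = τ * w₁ := rfl
        rw [this] at h1
        linarith
      have h5 := (mul_eq_zero.1 h4).resolve_left hτ0.ne'
      linarith
    set p : ℝ := gradSq 𝓜 g φ x₁ with hp
    set m : ℝ := gradInner 𝓜 g φ f x₁ with hm
    set y : ℝ := gradSq 𝓜 g f x₁ with hy
    set D : ℝ := lap 𝓜 g f x₁ with hD
    have hgφ : φ₁ * gradInner 𝓜 g φ (w t₀) x₁ = - (w₁ * p) := by
      rw [gradInner_comm hg hx₁M φ (w t₀), hgr φ, gradInner_self]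
    have hgf : φ₁ * gradInner 𝓜 g f (w t₀) x₁ = - (w₁ * m) := by
      rw [gradInner_comm hg hx₁M f (w t₀), hgr f]
    have hLY := ly_heatOp_w S.kahler S.ric hI hu hpos α ht₀I hx₁M
    -- `heatOp w ≤ 2⟨∂f,∂w⟩ - D²/n`
    have hHw : heatOp 𝓜 g (Set.Icc a b) w t₀ x₁ ≤ 2 * gradInner 𝓜 g f (w t₀) x₁ - D ^ 2 / n := by
      have : D ^ 2 / n ≤ 2 * gradInner 𝓜 g f (w t₀) x₁ - heatOp 𝓜 g (Set.Icc a b) w t₀ x₁ := by
        rw [div_le_iff₀ hnR]; linarith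
      linarith
    have hgφ' : gradInner 𝓜 g φ (w t₀) x₁ = - (w₁ * (p / φ₁)) := by
      field_simp
      linarith
    have hmain : 0 ≤ φ₁ * w₁ - 2 * τ * w₁ * m - φ₁ * τ * D ^ 2 / n + τ * w₁ * κ + 2 * τ * w₁ * (p / φ₁) := by
      have h1 : φ₁ * τ * heatOp 𝓜 g (Set.Icc a b) w t₀ x₁ ≤
          φ₁ * τ * (2 * gradInner 𝓜 g f (w t₀) x₁ - D ^ 2 / n) :=
        mul_le_mul_of_nonneg_left hHw (by positivity)
      have h2 : - (τ * w₁ * lap 𝓜 g φ x₁) ≤ τ * w₁ * κ := by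
        have := hφl x₁ hx₁M
        have h3 : 0 ≤ τ * w₁ := by positivity
        nlinarith
      rw [hHG, hgφ'] at hH0
      have h4 : φ₁ * τ * (2 * gradInner 𝓜 g f (w t₀) x₁ - D ^ 2 / n) =
          2 * τ * (φ₁ * gradInner 𝓜 g f (w t₀) x₁) - φ₁ * τ * D ^ 2 / n := by ring
      rw [h4, hgf] at h1
      nlinarith
    have hyu : y = gradSq 𝓜 g (u t₀) x₁ / u t₀ x₁ ^ 2 :=
      gradSq_log g hx₁M ((hu.1.smooth ht₀I).diffAt hx₁M) (hpos t₀ ht₀I x₁ hx₁M).ne'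
    have hDα : α * D = -((α - 1) * y + w₁) := by
      have h1 : D = lap 𝓜 g (u t₀) x₁ / u t₀ x₁ - y := by
        rw [hyu]; exact ly_lap_log hI hu hpos ht₀I hx₁M
      have h2 : w₁ = y - α * (lap 𝓜 g (u t₀) x₁ / u t₀ x₁) := by
        rw [hyu]; rfl
      rw [h1, h2]; ring
    have hfin := ly_alg hnR hφ₁0 (hφ01 x₁ hx₁M).2 hτ0 (gradSq_nonneg hg f hx₁M) hw₁0 hα hκ0
      (hφg x₁ hx₁M) (gradInner_sq_le hg hx₁M φ f) hDα hmain
    intro t ht x hx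
    have h1 := hGmax t ht x (hballK hx)
    rw [hGball t x hx, hGval] at h1
    refine h1.trans (hfin.trans ?_)
    have hτb : τ ≤ b - a := by simp only [hτ]; linarith [ht₀.2]
    have h3 : 0 ≤ κ * (3 + n * α ^ 2 / (2 * (α - 1))) := by positivity
    have h4 : τ * κ * (3 + n * α ^ 2 / (2 * (α - 1))) ≤ (b - a) * κ * (3 + n * α ^ 2 / (2 * (α - 1))) := by
      rw [mul_assoc, mul_assoc]
      exact mul_le_mul_of_nonneg_right hτb h3
    have h5 : (0:ℝ) ≤ n * α ^ 2 := by positivity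
    exact mul_le_mul_of_nonneg_left (by linarith) h5

theorem ly_dim_zero (hn : n = 0) (u : V → ℝ) (x : V) : gradSq 𝓜 g u x = 0 ∧ lap 𝓜 g u x = 0 := by
  subst hn
  constructor
  · simp [gradSq, CMfd.scal, gradSqF, qf]
  · simp [lap, tr, CMfd.scal, trF]

/-- **Li-Yau** (= `li_yau` of `Base/Heat/Api.lean`). -/
theorem ly_li_yau (S : AnaSetting 𝓜 g) {T : ℝ} (hT : 0 < T) {u : ℝ → V → ℝ}
    (hu : IsHeatSol 𝓜 g (Set.Ioc 0 T) u) (hpos : ∀ t ∈ Set.Ioc 0 T, ∀ x ∈ 𝓜.carrier, 0 < u t x) :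
    ∀ t ∈ Set.Ioc 0 T, ∀ x ∈ 𝓜.carrier,
      gradSq 𝓜 g (u t) x / (u t x) ^ 2 - lap 𝓜 g (u t) x / u t x ≤ n / t := by
  intro t ht x hx
  rcases Nat.eq_zero_or_pos n with hn | hn
  · obtain ⟨h1, h2⟩ := ly_dim_zero (𝓜 := 𝓜) (g := g) hn (u t) x
    rw [h1, h2, hn]; simp
  obtain ⟨C, hC, hloc⟩ := ly_local S hn
  set A : ℝ := gradSq 𝓜 g (u t) x / (u t x) ^ 2 with hA
  set B : ℝ := lap 𝓜 g (u t) x / u t x with hB
  have ht0 : 0 < t := ht.1
  -- step 1: `R → ∞`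
  have h1 : ∀ a ∈ Set.Ioo 0 t, ∀ α : ℝ, 1 < α → (t - a) * (A - α * B) ≤ n * α ^ 2 := by
    intro a ha α hα
    have hsub : Set.Icc a t ⊆ Set.Ioc 0 T := fun s hs => ⟨ha.1.trans_le hs.1, hs.2.trans ht.2⟩
    have hR : ∀ R : ℝ, 0 < R → (t - a) * (A - α * B) ≤
        n * α ^ 2 * (1 + (t - a) * (C / R ^ 2) * (3 + n * α ^ 2 / (2 * (α - 1)))) := fun R hR =>
      hloc x R a t α u hx hR ha.2 hα (ly_heatSol_mono hu hsub)
        (fun s hs y hy => hpos s (hsub hs) y hy) t ⟨ha.2.le, le_rfl⟩ x (mem_hball_self hx hR)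
    have hlim : Tendsto (fun R : ℝ =>
        n * α ^ 2 * (1 + (t - a) * (C / R ^ 2) * (3 + n * α ^ 2 / (2 * (α - 1))))) atTop
        (𝓝 (n * α ^ 2 * (1 + (t - a) * 0 * (3 + n * α ^ 2 / (2 * (α - 1)))))) := by
      have h0 : Tendsto (fun R : ℝ => C / R ^ 2) atTop (𝓝 0) :=
        tendsto_const_nhds.div_atTop (tendsto_pow_atTop two_ne_zero)
      exact (((h0.const_mul (t - a)).mul_const _).const_add 1).const_mul _
    have := ge_of_tendsto hlim (by filter_upwards [eventually_gt_atTop 0] with R hR' using hR R hR')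
    simpa using this
  -- step 2: `a → 0`
  have h2 : ∀ α : ℝ, 1 < α → t * (A - α * B) ≤ n * α ^ 2 := by
    intro α hα
    have hlim : Tendsto (fun a : ℝ => (t - a) * (A - α * B)) (𝓝[>] 0) (𝓝 ((t - 0) * (A - α * B))) :=
      (((continuous_const.sub continuous_id).mul continuous_const).tendsto 0).mono_left
        nhdsWithin_le_nhds
    have := le_of_tendsto hlim (by
      filter_upwards [Ioo_mem_nhdsGT ht0] with a ha using h1 a ha α hα)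
    simpa using this
  -- step 3: `α → 1`
  have h3 : t * (A - 1 * B) ≤ n * 1 ^ 2 := by
    have hl1 : Tendsto (fun α : ℝ => t * (A - α * B)) (𝓝[>] 1) (𝓝 (t * (A - 1 * B))) :=
      ((continuous_const.mul (continuous_const.sub (continuous_id.mul continuous_const))).tendsto
        1).mono_left nhdsWithin_le_nhds
    have hl2 : Tendsto (fun α : ℝ => (n : ℝ) * α ^ 2) (𝓝[>] 1) (𝓝 (n * 1 ^ 2)) :=
      ((continuous_const.mul (continuous_id.pow 2)).tendsto 1).mono_left nhdsWithin_le_nhds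
    exact le_of_tendsto_of_tendsto hl1 hl2 (by
      filter_upwards [self_mem_nhdsWithin] with α hα using h2 α hα)
  rw [le_div_iff₀ ht0]
  linarith

end Claimed.Agent.R316
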