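import Claimed.Agent.R316.Base.LiYau.Core

/-!
# Row 316, `BP-G9`, file 10: conservation of mass, moments     (leaves `G9-MASS` (`ly_mass`, `ly_P_le_of_proper_super`), `G9-MOM` (`ly_moment2`, `ly_expMoment`, `ly_tail`))

Sub-captain: helper201.  Statements are frozen; the owner of a leaf replaces its `sorry`s.

* `ly_mass`.  `φ_R` = cutoff of `ly_cutoff` for `(x,R)`; `F = fun _ => φ_R` is `SmoothST`, `CSuppST` (`ly_csupp_of_eq_zero`), `heatOp F = - Δφ_R ≤ C/R²` (`ly_heatOp_space`).  `ly_P_ge_of_sub`: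
  `1 - C t/R² = φ_R x - (C/R²) t ≤ P_t φ_R x ≤ ∫ Hk` (`φ_R ≤ 1`, `Hk ≥ 0`, `integral_hvol_mono`).  `R → ∞`; `≤ 1` is `HC.submarkov`.
* `ly_P_le_of_proper_super`.  `χ_N, c_N` from `ly_exists_trunc`, `F_N s y = χ_N (Q s y) - c_N`: `CSuppST` (`= 0` where `Q ≥ 2N`; `{Q ≤ 2N}` lies in a compact set), `ly_heatOp_comp`:
  `heatOp F_N = χ'(Q) heatOp Q - χ''(Q)|∂Q|² ≥ - κ`.  `ly_P_le_of_super` and `ly_mass` (`P_t c_N = c_N`): `∫ Hk χ_N(Q_0) ≤ χ_N (Q t x) + κ t ≤ Q t x + κ t`.  Since `0 ≤ Q_0 1_{Q_0 ≤ N} ≤ χ_N(Q_0)`: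
  `∫⁻ Hk Q_0 = sup_N ∫⁻_{Q_0 ≤ N} Hk Q_0 ≤ Q t x + κ t` (monotone convergence, `lintegral_iSup`/`lintegral_tendsto_of_tendsto_of_monotone`), which gives integrability and the bound (`integral_eq_lintegral_of_nonneg_ae`).
* `ly_moment2`.  `ρ` from `ly_exists_rho` for `(x,ε)`, `Q s y = ρ y + ε ≥ d² ≥ 0`, `heatOp Q = - Δρ ≥ - 2n`: `∫ Hk d² ≤ ∫ Hk (ρ+ε) ≤ ρ x + ε + 2 n t ≤ 2ε + 2 n t`; `ε → 0`.
* `ly_expMoment` (`C = 2^n e^{3/2}`).  `ε = min 1 (min t √t)`, `c = ε + ε²`, `Q s y = (2t - s)^{-n} exp ((ρ y + c)/(2 (2t - s)))` on `s ∈ [0,t]`: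
  `heatOp Q = Q [ n/(2t-s) + (ρ+c)/(2(2t-s)²) - Δρ/(2(2t-s)) - |∂ρ|²/(4(2t-s)²) ] ≥ Q (ρ + c - (d+ε)²/2)/(2(2t-s)²) ≥ 0`  (`(d+ε)²/2 ≤ d² + ε² ≤ ρ + ε + ε²`).
  (`ly_heatOp_mul`, `ly_heatOp_time`, `ly_heatOp_comp` with `χ = exp`, applied to `G s y = (ρ y + c)/(2(2t-s))`.)   `Q_0 ≥ (2t)^{-n} e^{d²/4t}`, `Q t x = t^{-n} e^{(ρ x + c)/2t} ≤ t^{-n} e^{3/2}`.
* `ly_tail`: Chebyshev: `1_{d ≥ D} ≤ e^{-D²/4t} e^{d²/4t}`.
-/

set_option autoImplicit false
open scoped ContDiff ComplexOrder Topology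
open MeasureTheory Filter

namespace Claimed.Agent.R316

variable {V : Type} [NormedAddCommGroup V] [NormedSpace ℝ V] [FiniteDimensional ℝ V]
  [MeasurableSpace V] [BorelSpace V]
variable {n : ℕ} {𝓜 : CMfd V (Fin n)} {g : HFam V (Fin n)} (HC : HeatCore 𝓜 g)

/-- **stochastic completeness.** -/
theorem ly_mass (S : AnaSetting 𝓜 g) {t : ℝ} (ht : 0 < t) {x : V} (hx : x ∈ 𝓜.carrier) :
    ∫ y, HC.Hk t x y ∂(hvol 𝓜 g) = 1 := by
  refine le_antisymm (HC.submarkov t ht x hx) ?_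
  obtain ⟨C, hC, hcut⟩ := ly_cutoff S
  have key : ∀ R : ℝ, 0 < R → 1 - C / R ^ 2 * t ≤ ∫ y, HC.Hk t x y ∂(hvol 𝓜 g) := by
    intro R hR
    obtain ⟨φ, hφs, hφ01, hφ1, hφ0, -, hφl⟩ := hcut x hx R hR
    have hcs : 𝓜.CSupp φ := ly_csupp_of_eq_zero S hx hφ0
    have h1 := ly_P_ge_of_sub HC S ht hx (F := fun _ => φ) (hφs.smoothST _) (hcs.toST _)
      (κ := C / R ^ 2) (by positivity) (fun s _ y hy => by
        rw [ly_heatOp_space]; have := hφl y hy; linarith)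
    rw [hφ1 x (mem_hball_self hx hR)] at h1
    refine h1.trans ?_
    have hi := (ly_integrable_Hk_mul HC S ht hx hφs.continuousOn (A := 1) (fun y hy => by
      rw [abs_of_nonneg (hφ01 y hy).1]; exact (hφ01 y hy).2)).1
    refine integral_hvol_mono hi (HC.integrable t ht x hx) (fun y hy => ?_)
    calc HC.Hk t x y * φ y ≤ HC.Hk t x y * 1 :=
          mul_le_mul_of_nonneg_left (hφ01 y hy).2 (HC.nonneg t ht x y)
      _ = HC.Hk t x y := mul_one _
  have hlim : Tendsto (fun R : ℝ => 1 - C / R ^ 2 * t) atTop (𝓝 (1 - 0 * t)) := by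
    have h0 : Tendsto (fun R : ℝ => C / R ^ 2) atTop (𝓝 0) :=
      tendsto_const_nhds.div_atTop (tendsto_pow_atTop two_ne_zero)
    exact (h0.mul_const t).const_sub 1
  have := le_of_tendsto hlim (by filter_upwards [eventually_gt_atTop 0] with R hR using key R hR)
  simpa using this

/-- Fatou's lemma for nonnegative integrable functions with bounded integrals. -/
theorem ly_integrable_of_fatou {α : Type} [MeasurableSpace α] {μ : Measure α} {G : ℕ → α → ℝ}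
    {f : α → ℝ} {M : ℝ} (hGf : ∀ᵐ x ∂μ, Tendsto (fun n => G n x) atTop (𝓝 (f x)))
    (hGi : ∀ n, Integrable (G n) μ) (hG0 : ∀ n, 0 ≤ᵐ[μ] G n) (hM : ∀ n, ∫ x, G n x ∂μ ≤ M) :
    Integrable f μ ∧ ∫ x, f x ∂μ ≤ M := by
  have hM0 : 0 ≤ M := (integral_nonneg_of_ae (hG0 0)).trans (hM 0)
  have hf0 : 0 ≤ᵐ[μ] f := by
    have hall : ∀ᵐ x ∂μ, ∀ n, 0 ≤ G n x := ae_all_iff.2 hG0
    filter_upwards [hGf, hall] with x hx hx0
    exact ge_of_tendsto' hx hx0
  have hmeas : AEStronglyMeasurable f μ :=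
    aestronglyMeasurable_of_tendsto_ae _ (fun n => (hGi n).aestronglyMeasurable) hGf
  have hle : ∫⁻ x, ENNReal.ofReal (f x) ∂μ ≤ ENNReal.ofReal M := by
    have h1 : ∫⁻ x, ENNReal.ofReal (f x) ∂μ =
        ∫⁻ x, liminf (fun n => ENNReal.ofReal (G n x)) atTop ∂μ := by
      apply lintegral_congr_ae
      filter_upwards [hGf] with x hx
      exact ((ENNReal.continuous_ofReal.tendsto _).comp hx).liminf_eq.symm
    rw [h1]
    refine (lintegral_liminf_le' (fun n => (hGi n).aestronglyMeasurable.aemeasurable.ennreal_ofReal)).trans ?_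
    have h2 : ∀ n, ∫⁻ x, ENNReal.ofReal (G n x) ∂μ ≤ ENNReal.ofReal M := fun n => by
      rw [← ofReal_integral_eq_lintegral_ofReal (hGi n) (hG0 n)]
      exact ENNReal.ofReal_le_ofReal (hM n)
    calc liminf (fun n => ∫⁻ x, ENNReal.ofReal (G n x) ∂μ) atTop
        ≤ liminf (fun _ : ℕ => ENNReal.ofReal M) atTop :=
          liminf_le_liminf (Eventually.of_forall h2)
      _ = ENNReal.ofReal M := liminf_const _
  have hint : Integrable f μ := by
    refine ⟨hmeas, ?_⟩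
    rw [hasFiniteIntegral_iff_ofReal hf0]
    exact hle.trans_lt ENNReal.ofReal_lt_top
  refine ⟨hint, ?_⟩
  rw [integral_eq_lintegral_of_nonneg_ae hf0 hmeas]
  exact ENNReal.toReal_le_of_le_ofReal hM0 hle

/-- **comparison with a nonnegative proper (almost) supersolution.** -/
theorem ly_P_le_of_proper_super (S : AnaSetting 𝓜 g) {t : ℝ} (ht : 0 < t) {x : V}
    (hx : x ∈ 𝓜.carrier) {Q : ℝ → V → ℝ} (hQ : 𝓜.SmoothST (Set.Icc 0 t) Q)
    (hQ0 : ∀ s ∈ Set.Icc 0 t, ∀ y ∈ 𝓜.carrier, 0 ≤ Q s y)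
    (hprop : ∀ L : ℝ, ∃ K : Set V, IsCompact K ∧ K ⊆ 𝓜.carrier ∧
      ∀ s ∈ Set.Icc 0 t, ∀ y ∈ 𝓜.carrier, Q s y ≤ L → y ∈ K)
    {κ : ℝ} (hκ : 0 ≤ κ)
    (hsup : ∀ s ∈ Set.Icc 0 t, ∀ y ∈ 𝓜.carrier, -κ ≤ heatOp 𝓜 g (Set.Icc 0 t) Q s y) :
    Integrable (fun y => HC.Hk t x y * Q 0 y) (hvol 𝓜 g) ∧ HC.P t (Q 0) x ≤ Q t x + κ * t := by
  have hg : IsMetric 𝓜 g := S.kahler.toIsMetric
  have hI : IsTimeDom (Set.Icc 0 t) := isTimeDom_Icc ht
  have h0I : (0 : ℝ) ∈ Set.Icc 0 t := ⟨le_rfl, ht.le⟩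
  have htI : t ∈ Set.Icc 0 t := ⟨ht.le, le_rfl⟩
  choose χ c hχs hχid hχc hχ' hχ'' hχle hχlec hNc using
    fun N : ℕ => ly_exists_trunc (N := (N : ℝ) + 1) (by positivity)
  have hχmono : ∀ N, Monotone (χ N) := fun N =>
    monotone_of_deriv_nonneg ((hχs N).differentiable (by simp)) (fun s => (hχ' N s).1)
  have hχ0 : ∀ N s, 0 ≤ s → 0 ≤ χ N s := fun N s hs => by
    have h1 : χ N 0 = 0 := hχid N 0 (by positivity)
    rw [← h1]; exact hχmono N hs
  have hQ0c : ContinuousOn (Q 0) 𝓜.carrier := (hQ.smooth h0I).continuousOn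
  have hstep : ∀ N : ℕ, Integrable (fun y => HC.Hk t x y * χ N (Q 0 y)) (hvol 𝓜 g) ∧
      ∫ y, HC.Hk t x y * χ N (Q 0 y) ∂(hvol 𝓜 g) ≤ Q t x + κ * t := by
    intro N
    have hi : Integrable (fun y => HC.Hk t x y * χ N (Q 0 y)) (hvol 𝓜 g) :=
      (ly_integrable_Hk_mul HC S ht hx ((hχs N).continuous.comp_continuousOn hQ0c) (A := c N)
        (fun y hy => by
          show |χ N (Q 0 y)| ≤ c N
          rw [abs_of_nonneg (hχ0 N _ (hQ0 0 h0I y hy))]; exact hχlec N _)).1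
    refine ⟨hi, ?_⟩
    set F : ℝ → V → ℝ := fun s y => χ N (Q s y) + (-(c N)) with hF
    have hFs : 𝓜.SmoothST (Set.Icc 0 t) F := (hQ.comp (hχs N)).add_const _
    have hFc : 𝓜.CSuppST (Set.Icc 0 t) F := by
      obtain ⟨K, hK, hKs, hKm⟩ := hprop (2 * ((N : ℝ) + 1))
      refine ⟨K, hK, hKs, fun s hs y hy hyK => ?_⟩
      have h1 : 2 * ((N : ℝ) + 1) ≤ Q s y := by
        by_contra hcon
        exact hyK (hKm s hs y hy (not_le.1 hcon).le)
      simp only [hF, hχc N _ h1]; ring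
    have hsupF : ∀ s ∈ Set.Icc 0 t, ∀ y ∈ 𝓜.carrier, -κ ≤ heatOp 𝓜 g (Set.Icc 0 t) F s y := by
      intro s hs y hy
      rw [hF, ly_heatOp_add_const,
        ly_heatOp_comp hI ((hχs N).contDiffAt.of_le (by norm_cast)) hQ hs hy]
      have h1 := hsup s hs y hy
      have h2 := hχ' N (Q s y)
      have h3 := hχ'' N (Q s y)
      have h4 := gradSq_nonneg hg (Q s) hy
      nlinarith
    have h1 := ly_P_le_of_super HC S ht hx hFs hFc hκ hsupF
    have h2 : HC.P t (F 0) x = ∫ y, HC.Hk t x y * χ N (Q 0 y) ∂(hvol 𝓜 g) - c N := by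
      have e : (fun y => HC.Hk t x y * F 0 y) =
          fun y => HC.Hk t x y * χ N (Q 0 y) - HC.Hk t x y * c N := by
        funext y; simp only [hF]; ring
      rw [HeatCore.P, e, integral_sub hi ((HC.integrable t ht x hx).mul_const _),
        integral_mul_const, ly_mass HC S ht hx, one_mul]
    rw [h2] at h1
    have h3 : F t x = χ N (Q t x) - c N := by simp only [hF]; ring
    have h4 := hχle N (Q t x)
    linarith
  refine ly_integrable_of_fatou (G := fun N y => HC.Hk t x y * χ N (Q 0 y)) ?_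
    (fun N => (hstep N).1) (fun N => ?_) (fun N => (hstep N).2)
  · refine ae_hvol_of_forall_mem fun y _ => ?_
    apply tendsto_const_nhds.congr'
    obtain ⟨N₀, hN₀⟩ := exists_nat_ge (Q 0 y)
    filter_upwards [eventually_ge_atTop N₀] with N hN
    have : Q 0 y ≤ (N : ℝ) + 1 := by
      have : (N₀ : ℝ) ≤ N := by exact_mod_cast hN
      linarith
    rw [hχid N _ this]
  · exact ae_hvol_of_forall_mem fun y hy =>
      mul_nonneg (HC.nonneg t ht x y) (hχ0 N _ (hQ0 0 h0I y hy))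

/-- second moment. -/
theorem ly_moment2 (S : AnaSetting 𝓜 g) {t : ℝ} (ht : 0 < t) {x : V} (hx : x ∈ 𝓜.carrier) :
    Integrable (fun y => HC.Hk t x y * hdist 𝓜 g x y ^ 2) (hvol 𝓜 g) ∧
    ∫ y, HC.Hk t x y * hdist 𝓜 g x y ^ 2 ∂(hvol 𝓜 g) ≤ 2 * n * t := by
  have hg : IsMetric 𝓜 g := S.kahler.toIsMetric
  have hdm : AEStronglyMeasurable (fun y => HC.Hk t x y * hdist 𝓜 g x y ^ 2) (hvol 𝓜 g) :=
    (HC.integrable t ht x hx).aestronglyMeasurable.mul
      ((measurable_hdist_right hg S.conn x).pow_const 2).aestronglyMeasurable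
  have key : ∀ ε : ℝ, 0 < ε → Integrable (fun y => HC.Hk t x y * hdist 𝓜 g x y ^ 2) (hvol 𝓜 g) ∧
      ∫ y, HC.Hk t x y * hdist 𝓜 g x y ^ 2 ∂(hvol 𝓜 g) ≤ 2 * n * t + 2 * ε := by
    intro ε hε
    obtain ⟨ρ, hρ, hρd, hρl, -, hρK⟩ := ly_exists_rho S hx hε
    have hge : ∀ y ∈ 𝓜.carrier, hdist 𝓜 g x y ^ 2 ≤ ρ y + ε := fun y hy => by
      have := (abs_le.1 (hρd y hy)).1; linarith
    obtain ⟨hi, hle⟩ := ly_P_le_of_proper_super HC S ht hx (Q := fun _ y => ρ y + ε)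
      ((hρ.add_const ε).smoothST _)
      (fun _ _ y hy => (sq_nonneg _).trans (hge y hy))
      (fun L => by
        obtain ⟨K, hK, hKs, hKm⟩ := hρK (L - ε)
        exact ⟨K, hK, hKs, fun _ _ y hy hy' => hKm y hy (by linarith)⟩)
      (κ := 2 * n) (by positivity)
      (fun s _ y hy => by
        rw [ly_heatOp_space, lap_add_const]; have := hρl y hy; linarith)
    have hle' : ∀ y ∈ 𝓜.carrier, HC.Hk t x y * hdist 𝓜 g x y ^ 2 ≤ HC.Hk t x y * (ρ y + ε) :=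
      fun y hy => mul_le_mul_of_nonneg_left (hge y hy) (HC.nonneg t ht x y)
    have hi2 : Integrable (fun y => HC.Hk t x y * hdist 𝓜 g x y ^ 2) (hvol 𝓜 g) := by
      refine hi.mono' hdm (ae_hvol_of_forall_mem fun y hy => ?_)
      rw [Real.norm_eq_abs, abs_of_nonneg (mul_nonneg (HC.nonneg t ht x y) (sq_nonneg _))]
      exact hle' y hy
    refine ⟨hi2, (integral_hvol_mono hi2 hi hle').trans (hle.trans ?_)⟩
    have h1 := (abs_le.1 (hρd x hx)).2
    rw [hdist_self hx] at h1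
    nlinarith
  refine ⟨(key 1 one_pos).1, le_of_forall_pos_le_add fun ε hε => ?_⟩
  have := (key (ε / 2) (by positivity)).2
  linarith

/-- **exponential moment.** -/
theorem ly_expMoment (S : AnaSetting 𝓜 g) : ∃ C : ℝ, 0 < C ∧ ∀ t : ℝ, 0 < t → ∀ x ∈ 𝓜.carrier,
    Integrable (fun y => HC.Hk t x y * Real.exp (hdist 𝓜 g x y ^ 2 / (4 * t))) (hvol 𝓜 g) ∧
    ∫ y, HC.Hk t x y * Real.exp (hdist 𝓜 g x y ^ 2 / (4 * t)) ∂(hvol 𝓜 g) ≤ C := by
  have hg : IsMetric 𝓜 g := S.kahler.toIsMetric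
  refine ⟨Real.exp (n * Real.log 2 + 3 / 2), Real.exp_pos _, fun t ht x hx => ?_⟩
  have hI : IsTimeDom (Set.Icc 0 t) := isTimeDom_Icc ht
  have h0I : (0 : ℝ) ∈ Set.Icc 0 t := ⟨le_rfl, ht.le⟩
  have htI : t ∈ Set.Icc 0 t := ⟨ht.le, le_rfl⟩
  set ε : ℝ := min 1 (min t (Real.sqrt t)) with hε
  have hε0 : 0 < ε := lt_min one_pos (lt_min ht (Real.sqrt_pos.2 ht))
  have hεt : ε ≤ t := (min_le_right _ _).trans (min_le_left _ _)
  have hε2 : ε ^ 2 ≤ t := by
    have h1 : ε ≤ Real.sqrt t := (min_le_right _ _).trans (min_le_right _ _)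
    calc ε ^ 2 ≤ Real.sqrt t ^ 2 := pow_le_pow_left₀ hε0.le h1 2
      _ = t := Real.sq_sqrt ht.le
  set c : ℝ := ε + ε ^ 2 with hc
  obtain ⟨ρ, hρ, hρd, hρl, hρg, hρK⟩ := ly_exists_rho S hx hε0
  have hge : ∀ y ∈ 𝓜.carrier, hdist 𝓜 g x y ^ 2 ≤ ρ y + ε := fun y hy => by
    have := (abs_le.1 (hρd y hy)).1; linarith
  have hgec : ∀ y ∈ 𝓜.carrier, hdist 𝓜 g x y ^ 2 ≤ ρ y + c := fun y hy => by
    have := hge y hy; have := sq_nonneg ε; simp only [hc]; linarith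
  have hρc0 : ∀ y ∈ 𝓜.carrier, 0 ≤ ρ y + c := fun y hy => (sq_nonneg _).trans (hgec y hy)
  -- the coefficients
  set b : ℝ → ℝ := fun s => 1 / (2 * (2 * t - s)) with hb
  set e : ℝ → ℝ := fun s => -(n * Real.log (2 * t - s)) with he
  have ha0 : ∀ s ∈ Set.Icc 0 t, 0 < 2 * t - s := fun s hs => by linarith [hs.2]
  have hbs : ContDiffOn ℝ ∞ b (Set.Icc 0 t) := by
    refine contDiffOn_const.div (contDiffOn_const.mul (contDiffOn_const.sub contDiffOn_id)) ?_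
    intro s hs; have := ha0 s hs; positivity
  have hes : ContDiffOn ℝ ∞ e (Set.Icc 0 t) := by
    refine (contDiffOn_const.mul ((contDiffOn_const.sub contDiffOn_id).log ?_)).neg
    intro s hs; exact (ha0 s hs).ne'
  have hbd : ∀ s ∈ Set.Icc 0 t, HasDerivAt b (1 / (2 * (2 * t - s) ^ 2)) s := by
    intro s hs
    have h0 := ha0 s hs
    have h1 : HasDerivAt (fun s : ℝ => 2 * (2 * t - s)) (2 * (-1)) s :=
      ((hasDerivAt_id s).const_sub (2 * t)).const_mul 2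
    have h2 := h1.inv (by positivity)
    have h3 : b = fun s => (2 * (2 * t - s))⁻¹ := by funext s; simp [hb]
    have hv : 1 / (2 * (2 * t - s) ^ 2) = -(2 * -1) / (2 * (2 * t - s)) ^ 2 := by
      field_simp
    rw [h3, hv]
    exact h2
  have hed : ∀ s ∈ Set.Icc 0 t, HasDerivAt e (n / (2 * t - s)) s := by
    intro s hs
    have h0 := ha0 s hs
    have h1 : HasDerivAt (fun s : ℝ => 2 * t - s) (-1) s := (hasDerivAt_id s).const_sub (2 * t)
    have h2 := ((h1.log h0.ne').const_mul (n : ℝ)).neg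
    have hv : (n : ℝ) / (2 * t - s) = -(↑n * (-1 / (2 * t - s))) := by
      field_simp
    rw [hv]
    exact h2
  set G : ℝ → V → ℝ := fun s y => b s * (ρ y + c) + e s with hG
  have hGs : 𝓜.SmoothST (Set.Icc 0 t) G :=
    ((CMfd.smoothST_of_time hbs).mul ((hρ.add_const c).smoothST _)).add (CMfd.smoothST_of_time hes)
  have hGheat : ∀ s ∈ Set.Icc 0 t, ∀ y ∈ 𝓜.carrier, heatOp 𝓜 g (Set.Icc 0 t) G s y =
      1 / (2 * (2 * t - s) ^ 2) * (ρ y + c) + n / (2 * t - s) - b s * lap 𝓜 g ρ y := by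
    intro s hs y hy
    have h1 : HasDerivWithinAt (fun r => G r y)
        (1 / (2 * (2 * t - s) ^ 2) * (ρ y + c) + n / (2 * t - s)) (Set.Icc 0 t) s :=
      (((hbd s hs).mul_const (ρ y + c)).add (hed s hs)).hasDerivWithinAt
    rw [ly_heatOp_of_hasDerivWithinAt hI hs h1]
    have h2 : lap 𝓜 g (G s) y = b s * lap 𝓜 g ρ y := by
      simp only [hG]
      rw [lap_add_const, lap_const_mul g (b s) ((hρ.add_const c).c2At hy), lap_add_const]
    rw [h2]
  have hGgrad : ∀ s ∈ Set.Icc 0 t, ∀ y ∈ 𝓜.carrier,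
      gradSq 𝓜 g (G s) y = b s ^ 2 * gradSq 𝓜 g ρ y := by
    intro s hs y hy
    simp only [hG]
    rw [gradSq_add_const, gradSq_const_mul g (b s) ((hρ.add_const c).diffAt hy), gradSq_add_const]
  obtain ⟨hi, hle⟩ := ly_P_le_of_proper_super HC S ht hx (Q := fun s y => Real.exp (G s y)) hGs.exp
    (fun _ _ _ _ => (Real.exp_pos _).le)
    (fun L => by
      obtain ⟨K, hK, hKs, hKm⟩ := hρK (4 * t * (L * Real.exp (n * Real.log (2 * t))))
      refine ⟨K, hK, hKs, fun s hs y hy hy' => hKm y hy ?_⟩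
      have h0 := ha0 s hs
      have h2t : 2 * t - s ≤ 2 * t := by linarith [hs.1]
      have h1 : (ρ y + c) / (4 * t) - n * Real.log (2 * t) ≤ G s y := by
        have hb1 : 1 / (4 * t) ≤ b s := by
          simp only [hb]
          apply one_div_le_one_div_of_le (by positivity); linarith
        have hl : Real.log (2 * t - s) ≤ Real.log (2 * t) := Real.log_le_log h0 h2t
        have h3 : 1 / (4 * t) * (ρ y + c) ≤ b s * (ρ y + c) :=
          mul_le_mul_of_nonneg_right hb1 (hρc0 y hy)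
        have h4 : (n : ℝ) * Real.log (2 * t - s) ≤ n * Real.log (2 * t) :=
          mul_le_mul_of_nonneg_left hl (by positivity)
        simp only [hG, he]
        have h5 : (ρ y + c) / (4 * t) = 1 / (4 * t) * (ρ y + c) := by ring
        linarith
      have h2 : Real.exp ((ρ y + c) / (4 * t)) ≤ L * Real.exp (n * Real.log (2 * t)) := by
        have h3 : Real.exp ((ρ y + c) / (4 * t) - n * Real.log (2 * t)) ≤ L :=
          (Real.exp_le_exp.2 h1).trans hy'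
        rw [Real.exp_sub, div_le_iff₀ (Real.exp_pos _)] at h3
        exact h3
      have h3 : (ρ y + c) / (4 * t) ≤ L * Real.exp (n * Real.log (2 * t)) := by
        have := Real.add_one_le_exp ((ρ y + c) / (4 * t)); linarith
      rw [div_le_iff₀ (by positivity)] at h3
      have hc0 : 0 ≤ c := by positivity
      linarith)
    (κ := 0) le_rfl
    (fun s hs y hy => by
      have h0 := ha0 s hs
      rw [ly_heatOp_comp (χ := Real.exp) hI Real.contDiff_exp.contDiffAt hGs hs hy]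
      simp only [Real.deriv_exp, neg_zero]
      rw [hGheat s hs y hy, hGgrad s hs y hy, ← mul_sub]
      apply mul_nonneg (Real.exp_pos _).le
      have h1 := hρl y hy
      have h2 : gradSq 𝓜 g ρ y ≤ 2 * (ρ y + c) := by
        have h3 := hρg y hy
        have h4 := hge y hy
        simp only [hc]
        nlinarith [sq_nonneg (hdist 𝓜 g x y - ε)]
      have hbv : b s = 1 / (2 * (2 * t - s)) := rfl
      have e1 : 1 / (2 * (2 * t - s) ^ 2) * (ρ y + c) + n / (2 * t - s) - b s * lap 𝓜 g ρ y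
          - b s ^ 2 * gradSq 𝓜 g ρ y =
          (2 * n - lap 𝓜 g ρ y) / (2 * (2 * t - s))
            + (2 * (ρ y + c) - gradSq 𝓜 g ρ y) / (4 * (2 * t - s) ^ 2) := by
        rw [hbv]; field_simp; ring
      rw [e1]
      have p1 : 0 ≤ (2 * n - lap 𝓜 g ρ y) / (2 * (2 * t - s)) :=
        div_nonneg (by linarith) (by positivity)
      have p2 : 0 ≤ (2 * (ρ y + c) - gradSq 𝓜 g ρ y) / (4 * (2 * t - s) ^ 2) :=
        div_nonneg (by linarith) (by positivity)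
      linarith)
  -- conclusion
  set A : ℝ := Real.exp (n * Real.log (2 * t)) with hA
  have hpt : ∀ y ∈ 𝓜.carrier, HC.Hk t x y * Real.exp (hdist 𝓜 g x y ^ 2 / (4 * t)) ≤
      A * (HC.Hk t x y * Real.exp (G 0 y)) := by
    intro y hy
    have h1 : A * Real.exp (G 0 y) = Real.exp ((ρ y + c) / (4 * t)) := by
      rw [hA, ← Real.exp_add]
      congr 1
      simp only [hG, hb, he, sub_zero]
      field_simp
      ring
    have h2 : Real.exp (hdist 𝓜 g x y ^ 2 / (4 * t)) ≤ Real.exp ((ρ y + c) / (4 * t)) :=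
      Real.exp_le_exp.2 (div_le_div_of_nonneg_right (hgec y hy) (by positivity))
    calc HC.Hk t x y * Real.exp (hdist 𝓜 g x y ^ 2 / (4 * t))
        ≤ HC.Hk t x y * (A * Real.exp (G 0 y)) := by
          rw [h1]; exact mul_le_mul_of_nonneg_left h2 (HC.nonneg t ht x y)
      _ = A * (HC.Hk t x y * Real.exp (G 0 y)) := by ring
  have hdm : AEStronglyMeasurable
      (fun y => HC.Hk t x y * Real.exp (hdist 𝓜 g x y ^ 2 / (4 * t))) (hvol 𝓜 g) :=
    (HC.integrable t ht x hx).aestronglyMeasurable.mul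
      (Real.measurable_exp.comp
        (((measurable_hdist_right hg S.conn x).pow_const 2).div_const _)).aestronglyMeasurable
  have hi2 : Integrable (fun y => HC.Hk t x y * Real.exp (hdist 𝓜 g x y ^ 2 / (4 * t)))
      (hvol 𝓜 g) := by
    refine (hi.const_mul A).mono' hdm (ae_hvol_of_forall_mem fun y hy => ?_)
    rw [Real.norm_eq_abs, abs_of_nonneg (mul_nonneg (HC.nonneg t ht x y) (Real.exp_pos _).le)]
    exact hpt y hy
  refine ⟨hi2, (integral_hvol_mono hi2 (hi.const_mul A) hpt).trans ?_⟩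
  rw [integral_const_mul]
  have h1 : A * ∫ y, HC.Hk t x y * Real.exp (G 0 y) ∂(hvol 𝓜 g) ≤ A * Real.exp (G t x) := by
    apply mul_le_mul_of_nonneg_left _ (Real.exp_pos _).le
    simpa [HeatCore.P] using hle
  refine h1.trans ?_
  rw [hA, ← Real.exp_add]
  apply Real.exp_le_exp.2
  have h2 := (abs_le.1 (hρd x hx)).2
  rw [hdist_self hx] at h2
  have h3 : ρ x + c ≤ 3 * t := by simp only [hc]; nlinarith
  have h4 : G t x = (ρ x + c) / (2 * t) - n * Real.log t := by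
    simp only [hG, hb, he]
    have : 2 * t - t = t := by ring
    rw [this]; ring
  have h5 : (ρ x + c) / (2 * t) ≤ 3 / 2 := by
    rw [div_le_iff₀ (by positivity)]; linarith
  rw [h4, Real.log_mul two_ne_zero ht.ne']
  nlinarith

/-- Gaussian tails of the heat measure. -/
theorem ly_tail (S : AnaSetting 𝓜 g) : ∃ C : ℝ, 0 < C ∧ ∀ t : ℝ, 0 < t → ∀ x ∈ 𝓜.carrier, ∀ D : ℝ,
    0 ≤ D → ∫ y in {y | D ≤ hdist 𝓜 g x y}, HC.Hk t x y ∂(hvol 𝓜 g) ≤
      C * Real.exp (-(D ^ 2 / (4 * t))) := by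
  have hg : IsMetric 𝓜 g := S.kahler.toIsMetric
  obtain ⟨C, hC, hexp⟩ := ly_expMoment HC S
  refine ⟨C, hC, fun t ht x hx D hD => ?_⟩
  obtain ⟨hi, hle⟩ := hexp t ht x hx
  set A : Set V := {y | D ≤ hdist 𝓜 g x y} with hA
  have hAm : MeasurableSet A := measurableSet_le measurable_const (measurable_hdist_right hg S.conn x)
  set w : ℝ := Real.exp (-(D ^ 2 / (4 * t))) with hw
  have h1 : ∫ y in A, HC.Hk t x y ∂(hvol 𝓜 g) ≤
      ∫ y in A, (HC.Hk t x y * Real.exp (hdist 𝓜 g x y ^ 2 / (4 * t))) * w ∂(hvol 𝓜 g) := by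
    refine setIntegral_mono_on (HC.integrable t ht x hx).integrableOn (hi.mul_const w).integrableOn
      hAm (fun y hy => ?_)
    have h2 : 1 ≤ Real.exp (hdist 𝓜 g x y ^ 2 / (4 * t)) * w := by
      rw [hw, ← Real.exp_add]
      apply Real.one_le_exp
      have h3 : D ^ 2 ≤ hdist 𝓜 g x y ^ 2 := pow_le_pow_left₀ hD hy 2
      have h4 : D ^ 2 / (4 * t) ≤ hdist 𝓜 g x y ^ 2 / (4 * t) :=
        div_le_div_of_nonneg_right h3 (by positivity)
      linarith
    calc HC.Hk t x y = HC.Hk t x y * 1 := (mul_one _).symm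
      _ ≤ HC.Hk t x y * (Real.exp (hdist 𝓜 g x y ^ 2 / (4 * t)) * w) :=
          mul_le_mul_of_nonneg_left h2 (HC.nonneg t ht x y)
      _ = _ := by ring
  have h2 : ∫ y in A, (HC.Hk t x y * Real.exp (hdist 𝓜 g x y ^ 2 / (4 * t))) * w ∂(hvol 𝓜 g) ≤
      ∫ y, (HC.Hk t x y * Real.exp (hdist 𝓜 g x y ^ 2 / (4 * t))) * w ∂(hvol 𝓜 g) :=
    setIntegral_le_integral (hi.mul_const w) (Filter.Eventually.of_forall fun y =>
      mul_nonneg (mul_nonneg (HC.nonneg t ht x y) (Real.exp_pos _).le) (Real.exp_pos _).le)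
  have h3 : ∫ y, (HC.Hk t x y * Real.exp (hdist 𝓜 g x y ^ 2 / (4 * t))) * w ∂(hvol 𝓜 g) =
      (∫ y, HC.Hk t x y * Real.exp (hdist 𝓜 g x y ^ 2 / (4 * t)) ∂(hvol 𝓜 g)) * w :=
    integral_mul_const _ _
  rw [h3] at h2
  exact h1.trans (h2.trans (mul_le_mul_of_nonneg_right hle (Real.exp_pos _).le))

end Claimed.Agent.R316
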