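import Claimed.Agent.R316.Base.LiYau.Cutoff
import Claimed.Agent.R316.CM.MaxP

/-!
# Row 316, `BP-G9`, file 2: algebra of heat solutions; the space-time maximum point     (leaf `G9-MAXPT`)

Sub-captain: helper201.  Statements are frozen; the owner of the leaf replaces every `sorry`.

PLANS
* `ly_heatSol_*`: unfold `IsHeatSol`; `SmoothST` algebra from `CM/SmoothAlg.lean`, `lap_add/sub/const_mul/add_const` from `Base/Vol/Calc.lean`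
  (`(hu.1.smooth ht).c2At hx` gives `C2At`; slices: `CMfd.SmoothST.smooth` in `CM/Top.lean`), `HasDerivWithinAt.add/sub/const_mul/mono`.
* `ly_heatSol_lap`: `smoothST_lap` (`CM/FormsST.lean`, constant family `isMetricST_const`), and `hasDerivWithinAt_lap` with `h' = 0`
  (`isTimeDeriv_const`); the term `ipH 𝓜 g 0 (ddc u)` is `0` (unfold `ipH`, `ipF`: `H⁻¹ * 0 = 0`).
* `ly_heatSol_shift`: `u (· + c)`: compose with the affine map `(t,z) ↦ (t + c, z)`.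
* `ly_exists_max`: `(t,x) ↦ G t x` is continuous on the compact set `Icc a b ×ˢ K` (`CMfd.SmoothST.continuousOn`), take a maximum point `(t₀,x₀)`
  (`IsCompact.exists_isMaxOn`; if `K = ∅` the first alternative holds).  If the maximum is `≤ 0`: first alternative.  Otherwise `t₀ ≠ a` by `h0` and
  `x₀ ∈ O` by `hbd`; `𝓜.carrier ∩ O ⊆ K` is a neighbourhood of `x₀` in the carrier, so `x₀` is a local maximum of `G t₀` on the carrier: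
  `lap_nonpos_of_localMax` gives `Δ ≤ 0` and `gradSq = 0`, and `gradInner_sq_le` gives `gradInner (G t₀) v x₀ = 0`.
  Time: `s ↦ G s x₀` has a maximum over `Icc a b` at `t₀ > a`; its `derivWithin` (exists: `CMfd.SmoothST.hasDerivWithinAt`) is the limit of the
  slopes `(G s x₀ - G t₀ x₀)/(s - t₀) ≥ 0`, `s ↑ t₀` (`HasDerivWithinAt.mono` to `Icc a t₀`, `hasDerivWithinAt_iff_tendsto_slope`, `ge_of_tendsto`).
-/

set_option autoImplicit false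
open scoped ContDiff ComplexOrder Topology
open MeasureTheory Filter

namespace Claimed.Agent.R316

variable {V : Type} [NormedAddCommGroup V] [NormedSpace ℝ V] [FiniteDimensional ℝ V]
  [MeasurableSpace V] [BorelSpace V]
variable {n : ℕ} {𝓜 : CMfd V (Fin n)} {g : HFam V (Fin n)} {I J : Set ℝ} {u v : ℝ → V → ℝ}

theorem ly_heatSol_mono (hu : IsHeatSol 𝓜 g I u) (hJ : J ⊆ I) : IsHeatSol 𝓜 g J u :=
  ⟨hu.1.mono hJ, fun t ht x hx => (hu.2 t (hJ ht) x hx).mono hJ⟩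

theorem ly_heatSub_mono (hu : IsHeatSub 𝓜 g I u) (hJ : J ⊆ I) : IsHeatSub 𝓜 g J u :=
  ⟨hu.1.mono hJ, fun t ht x hx => by
    obtain ⟨ut, h1, h2⟩ := hu.2 t (hJ ht) x hx
    exact ⟨ut, h1.mono hJ, h2⟩⟩

theorem ly_heatSol_heatSub (hu : IsHeatSol 𝓜 g I u) : IsHeatSub 𝓜 g I u :=
  ⟨hu.1, fun t ht x hx => ⟨_, hu.2 t ht x hx, le_rfl⟩⟩

theorem ly_heatSol_const (c : ℝ) : IsHeatSol 𝓜 g I (fun _ _ => c) :=
  ⟨CMfd.smoothST_const c, fun t _ x _ => by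
    rw [lap_const]; exact hasDerivWithinAt_const _ _ _⟩

theorem ly_heatSol_add (hu : IsHeatSol 𝓜 g I u) (hv : IsHeatSol 𝓜 g I v) :
    IsHeatSol 𝓜 g I (fun t x => u t x + v t x) :=
  ⟨hu.1.add hv.1, fun t ht x hx => by
    rw [lap_add g ((hu.1.smooth ht).c2At hx) ((hv.1.smooth ht).c2At hx)]
    exact (hu.2 t ht x hx).add (hv.2 t ht x hx)⟩

theorem ly_heatSol_sub (hu : IsHeatSol 𝓜 g I u) (hv : IsHeatSol 𝓜 g I v) :
    IsHeatSol 𝓜 g I (fun t x => u t x - v t x) :=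
  ⟨hu.1.sub hv.1, fun t ht x hx => by
    rw [lap_sub g ((hu.1.smooth ht).c2At hx) ((hv.1.smooth ht).c2At hx)]
    exact (hu.2 t ht x hx).sub (hv.2 t ht x hx)⟩

theorem ly_heatSol_neg (hu : IsHeatSol 𝓜 g I u) : IsHeatSol 𝓜 g I (fun t x => - u t x) :=
  ⟨hu.1.neg, fun t ht x hx => by
    rw [lap_neg]
    exact (hu.2 t ht x hx).neg⟩

theorem ly_heatSol_const_mul (c : ℝ) (hu : IsHeatSol 𝓜 g I u) :
    IsHeatSol 𝓜 g I (fun t x => c * u t x) :=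
  ⟨hu.1.const_mul c, fun t ht x hx => by
    rw [lap_const_mul g c ((hu.1.smooth ht).c2At hx)]
    exact (hu.2 t ht x hx).const_mul c⟩

theorem ly_heatSol_add_const (hu : IsHeatSol 𝓜 g I u) (c : ℝ) :
    IsHeatSol 𝓜 g I (fun t x => u t x + c) :=
  ⟨hu.1.add_const c, fun t ht x hx => by
    rw [lap_add_const]
    exact (hu.2 t ht x hx).add_const c⟩

/-- time translation. -/
theorem ly_heatSol_shift (hu : IsHeatSol 𝓜 g I u) (c : ℝ) :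
    IsHeatSol 𝓜 g {t | t + c ∈ I} (fun t x => u (t + c) x) := by
  refine ⟨fun Φ U hΦ => ?_, fun t ht x hx => ?_⟩
  · have h1 : ContDiffOn ℝ ∞ (fun q : ℝ × CE (Fin n) => ((q.1 + c, q.2) : ℝ × CE (Fin n)))
        ({t | t + c ∈ I} ×ˢ U) :=
      ((contDiff_fst.add contDiff_const).prodMk contDiff_snd).contDiffOn
    exact (hu.1 Φ U hΦ).comp h1 (fun q hq => ⟨hq.1, hq.2⟩)
  · have h1 := hu.2 (t + c) ht x hx
    have h2 : HasDerivWithinAt (fun s : ℝ => s + c) 1 {t | t + c ∈ I} t :=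
      ((hasDerivAt_id t).add_const c).hasDerivWithinAt
    have h3 := h1.comp t h2 (fun s hs => hs)
    simpa [Function.comp_def] using h3

/-- `Δu` is again a solution. -/
theorem ly_heatSol_lap (hg : IsMetric 𝓜 g) (hI : IsTimeDom I) (hu : IsHeatSol 𝓜 g I u) :
    IsHeatSol 𝓜 g I (fun t => lap 𝓜 g (u t)) := by
  refine ⟨smoothST_lap hI (isMetricST_const hg I) hu.1, fun t ht x hx => ?_⟩
  have h1 := hasDerivWithinAt_lap (h := fun _ => g) (h' := fun _ _ _ => 0) hI (fun _ _ => hg)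
    (isTimeDeriv_const 𝓜 I g) hu.1 hu.2 ht hx
  have h2 : ipH 𝓜 g (fun _ _ => 0) (ddc (u t)) x = 0 := by
    simp [ipH, CMfd.scal, ipF]
  rw [h2, sub_zero] at h1
  exact h1

/-- one-sided derivative at a maximum point `t₀ > a` of an interval `[a,b]`. -/
theorem ly_deriv_nonneg_of_max {f : ℝ → ℝ} {a b t₀ D : ℝ} (ht₀ : t₀ ∈ Set.Ioc a b)
    (hD : HasDerivWithinAt f D (Set.Icc a b) t₀) (hmax : ∀ s ∈ Set.Icc a b, f s ≤ f t₀) : 0 ≤ D := by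
  have h1 : HasDerivWithinAt f D (Set.Icc a t₀) t₀ := hD.mono (Set.Icc_subset_Icc le_rfl ht₀.2)
  rw [hasDerivWithinAt_iff_tendsto_slope] at h1
  have h2 : Set.Icc a t₀ \ {t₀} = Set.Ico a t₀ := by
    ext s; simp only [Set.mem_sdiff, Set.mem_Icc, Set.mem_singleton_iff, Set.mem_Ico]
    constructor
    · rintro ⟨⟨h1, h2⟩, h3⟩; exact ⟨h1, lt_of_le_of_ne h2 h3⟩
    · rintro ⟨h1, h2⟩; exact ⟨⟨h1, h2.le⟩, h2.ne⟩
  rw [h2, nhdsWithin_Ico_eq_nhdsLT ht₀.1] at h1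
  refine ge_of_tendsto h1 ?_
  filter_upwards [Ioo_mem_nhdsLT ht₀.1] with s hs
  rw [slope_def_field]
  apply div_nonneg_of_nonpos
  · have := hmax s ⟨hs.1.le, hs.2.le.trans ht₀.2⟩
    linarith
  · linarith [hs.2]

/-- **the maximum point.**  `K` compact, `𝓜.carrier ∩ O ⊆ K`, `G ≤ 0` on the parabolic boundary
(`t = a`, or `x ∈ K \ O`). -/
theorem ly_exists_max (hg : IsMetric 𝓜 g) {a b : ℝ} (hab : a < b) {G : ℝ → V → ℝ}
    (hG : 𝓜.SmoothST (Set.Icc a b) G) {K O : Set V} (hK : IsCompact K) (hKM : K ⊆ 𝓜.carrier)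
    (hO : IsOpen O) (hOK : 𝓜.carrier ∩ O ⊆ K)
    (hbd : ∀ t ∈ Set.Icc a b, ∀ x ∈ K, x ∉ O → G t x ≤ 0) (h0 : ∀ x ∈ K, G a x ≤ 0) :
    (∀ t ∈ Set.Icc a b, ∀ x ∈ K, G t x ≤ 0) ∨
    ∃ t₀ ∈ Set.Ioc a b, ∃ x₀ ∈ 𝓜.carrier ∩ O, 0 < G t₀ x₀ ∧
      (∀ t ∈ Set.Icc a b, ∀ x ∈ K, G t x ≤ G t₀ x₀) ∧
      0 ≤ derivWithin (fun s => G s x₀) (Set.Icc a b) t₀ ∧ lap 𝓜 g (G t₀) x₀ ≤ 0 ∧
      ∀ w : V → ℝ, gradInner 𝓜 g (G t₀) w x₀ = 0 := by
  by_cases hall : ∀ t ∈ Set.Icc a b, ∀ x ∈ K, G t x ≤ 0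
  · exact Or.inl hall
  right
  push Not at hall
  obtain ⟨t₁, ht₁, x₁, hx₁, hpos₁⟩ := hall
  have hcont : ContinuousOn (fun p : ℝ × V => G p.1 p.2) (Set.Icc a b ×ˢ K) :=
    hG.continuousOn.mono (Set.prod_mono le_rfl hKM)
  obtain ⟨⟨t₀, x₀⟩, ⟨ht₀, hx₀⟩, hmax⟩ :=
    (isCompact_Icc.prod hK).exists_isMaxOn ⟨(t₁, x₁), ht₁, hx₁⟩ hcont
  have hmax' : ∀ t ∈ Set.Icc a b, ∀ x ∈ K, G t x ≤ G t₀ x₀ := fun t ht x hx =>
    hmax (show ((t, x) : ℝ × V) ∈ Set.Icc a b ×ˢ K from ⟨ht, hx⟩)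
  simp only at ht₀ hx₀
  have hpos : 0 < G t₀ x₀ := hpos₁.trans_le (hmax' t₁ ht₁ x₁ hx₁)
  have hta : t₀ ≠ a := by
    rintro rfl; exact absurd (h0 x₀ hx₀) (not_le.2 hpos)
  have hxO : x₀ ∈ O := by
    by_contra h; exact absurd (hbd t₀ ht₀ x₀ hx₀ h) (not_le.2 hpos)
  have hxM := hKM hx₀
  have hloc : ∀ᶠ y in 𝓝[𝓜.carrier] x₀, G t₀ y ≤ G t₀ x₀ := by
    have : 𝓜.carrier ∩ O ∈ 𝓝[𝓜.carrier] x₀ :=
      Filter.inter_mem self_mem_nhdsWithin (mem_nhdsWithin_of_mem_nhds (hO.mem_nhds hxO))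
    filter_upwards [this] with y hy using hmax' t₀ ht₀ y (hOK hy)
  obtain ⟨hlap, hgr⟩ := lap_nonpos_of_localMax hg (hG.smooth ht₀) hxM hloc
  have ht₀' : t₀ ∈ Set.Ioc a b := ⟨lt_of_le_of_ne ht₀.1 (Ne.symm hta), ht₀.2⟩
  refine ⟨t₀, ht₀', x₀, ⟨hxM, hxO⟩, hpos, hmax', ?_, hlap, ?_⟩
  · exact ly_deriv_nonneg_of_max ht₀' (hG.hasDerivWithinAt ht₀ hxM) (fun s hs => hmax' s hs x₀ hx₀)
  · intro w
    have := gradInner_sq_le hg hxM (G t₀) w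
    rw [hgr, zero_mul] at this
    exact pow_eq_zero_iff (two_ne_zero) |>.1 (le_antisymm this (sq_nonneg _))

/-- the balls as pairs `(K, O)` for `ly_exists_max`. -/
theorem ly_exists_ball_pair (S : AnaSetting 𝓜 g) {x₀ : V} (hx₀ : x₀ ∈ 𝓜.carrier) (R : ℝ) :
    ∃ O : Set V, IsOpen O ∧ 𝓜.carrier ∩ O = hball 𝓜 g x₀ R ∧ IsCompact (hcball 𝓜 g x₀ R) ∧
      hcball 𝓜 g x₀ R ⊆ 𝓜.carrier ∧ 𝓜.carrier ∩ O ⊆ hcball 𝓜 g x₀ R ∧
      ∀ x ∈ hcball 𝓜 g x₀ R, x ∉ O → hdist 𝓜 g x₀ x = R := by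
  obtain ⟨O, hO, hOe⟩ := exists_isOpen_hball S.kahler.toIsMetric S.conn hx₀ R
  refine ⟨O, hO, hOe.symm, S.proper x₀ hx₀ R, hcball_subset_carrier _ _ _ _, ?_, ?_⟩
  · rw [← hOe]; exact hball_subset_hcball _ _ _ _
  · intro x hx hxO
    refine le_antisymm hx.2 (not_lt.1 fun hlt => hxO ?_)
    have : x ∈ hball 𝓜 g x₀ R := ⟨hx.1, hlt⟩
    rw [hOe] at this
    exact this.2

end Claimed.Agent.R316
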