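import Claimed.Agent.R316.Base.LiYau.Gauss
import Claimed.Agent.R316.S3.Defs
import Claimed.Agent.R316.S3.Limit

/-!
# Row 316, `BP-G9`, file 13: `P_t f` for `f ∈ SubGauss` is a smooth solution (fields `sol`, `init` of `HeatData`)
(leaves `G9-REG-A` (`ly_integrable_subGauss`, `ly_far_bound`), `G9-REG-B` (`ly_exists_test_approx`), `G9-REG-C` (`ly_near`), `G9-REG-D` (`ly_far_test`, `ly_far`), `G9-REG-E` (`ly_sol`, `ly_init`))

Sub-captain: helper201.  ALL LEAVES PROVED (the only open inputs are `S3.aa_smooth` and the files imported).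

External inputs: `S3.StLinLocalReg` (package `B8M`; interior-in-space estimates UP TO `t = 0` of all derivatives for bounded solutions in a chart ball with ZERO initial values) and `S3.aa_smooth`
(smooth Arzela-Ascoli).  No interior-in-time estimates are needed: near the point we use `HC.solL2` / `HC.test`, far from the point the data vanish near the point.

* `ly_integrable_subGauss`: `ly_upper`: `Hk t x y ≤ C_{t,x} e^{-c d(x,y)²/t}`, `d(x,y)² ≥ d(o,y)²/2 - d(o,x)²`; so `|Hk f| ≤ C' |f| e^{-ε d(o,y)²}`, `ε = c/2t`.  Measurability of `Hk t x ·`: continuous on the carrier (`HC.cont`).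
* `ly_far_bound`: for `d(x₀,x) ≤ δ/2`, `d(x₀,y) ≥ 3δ/4`: `d(x,y) ≥ d(x₀,y)/3`; `Hk t x y ≤ C/Vb x √t · e^{-c d(x₀,y)²/9t} ≤ [C/Vb x √t · e^{-c δ²/32t}] e^{-c d(x₀,y)²/18T}`;
  `Vb x √t ≥ (√t/√T)^{2n} Vb x √T / C ≥ c' t^n` uniformly for `x ∈ hcball x₀ (δ/2)` (`VolComparison.ratio`, `ly_Vb_le_Vb`), and `t^{-n} e^{-a/t}` is bounded on `(0,∞)`.
* `ly_exists_test_approx` (density; essentially Mathlib only).  `μ = hvol` restricted to a compact neighbourhood of `K` is a finite Borel measure on the finite dimensional space `V`, hence regular: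
  `Integrable.exists_hasCompactSupport_integral_sub_le` gives a continuous compactly supported `f₁ : V → ℝ`; multiply by a smooth ambient bump `= 1` on `K` supported in `O` (`exists_contDiff_tsupport_subset`/`exists_smooth_…`; this does not increase `∫|f₁ - h|` outside … since `h = 0` off `K`: estimate `∫|b f₁ - h| ≤ ∫|f₁ - h|` because `|b f₁ - h| ≤ |f₁ - h|` pointwise where `h = 0` or `b = 1`);
  convolve with a `ContDiffBump` of small radius (uniform convergence of `f₁ ⋆ φ_r` for uniformly continuous `f₁`; supports stay in `O` and in a fixed compact set); restrictions of ambient smooth functions are `𝓜.Smooth` (`CMfd.smooth_of_contDiff`).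
  `CSupp`: the support meets the carrier inside the compact set `K'` (hypothesis `hK'`: `K' ⊆ M` compact neighbourhood of `K` in `M`: `𝓜.carrier ∩ O' ⊆ K'`).
* `ly_near`.  `h ∈ L¹`, zero off a compact set.  For `a > 0`: `w = P_a h` is bounded (`Hk a z y ≤ C/Vb y √a`, `Vb y √a ≥ c > 0` for `y` in the compact set) and integrable (Tonelli, `HC.submarkov`, `HC.symm`), so `MemLp w 2`.
  Fubini + `HC.semigroup`: `P_s w = P_{s+a} h`.  `HC.solL2 w` and `ly_heatSol_shift`: `P_t h` is a solution on `Ioi a`.  All `a > 0`: solution on `Ioi 0` (`ContDiffOn` on a union of open sets; `HasDerivWithinAt` on `Ioi` = `HasDerivAt`).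
* `ly_far_test` (a priori bound, uniform over test data).  Choose a centred parametrisation `Φ, U` at `x₀` (`CMfd.exists_centred`) and `r > 0` with `closedBall 0 (2r) ⊆ U`, `Φ '' closedBall 0 (2r) ⊆ hball x₀ (δ/2)`.  `k t z = g Φ z` is smooth on a neighbourhood of the compact ball: `Λ`, `Bk` exist.
  For a test function `f` vanishing on `hball x₀ (3δ/4)` with `∫|f| e^{-ε₀ d²} ≤ M₀`: `u t z = (if t = 0 then f else P_t f)(Φ z)` is `C^∞` on `Icc 0 T ×ˢ ball 0 (2r)` (`HC.test`), `u 0 = 0`, `|u| ≤ C M₀` (`ly_far_bound`), solves `u_t = tr (k⁻¹ levi u)`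
  (`HC.solL2` for `t > 0`, `lap_eq_of_c2At`; at `t = 0` by continuity of both sides, or `hasDerivWithinAt` of a `C¹` function whose derivative is known on `(0,T]`).  `hReg` gives the bounds `Ck m`.
* `ly_far`.  `h_k` test functions vanishing on `hball x₀ (3δ/4)` with `∫ |h_k - h| e^{-ε₀ d²} → 0` (first cut `h` to `hball x₀ k`: dominated convergence; then `ly_exists_test_approx`).  `u_k → u` uniformly on `Icc 0 T ×ˢ ball` (`ly_far_bound`), all derivatives bounded (`ly_far_test`);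
  `aa_smooth` on `Icc 0 T ×ˢ ball 0 r` (`iteratedFDerivWithin` with respect to the smaller product coincides at its points: `iteratedFDerivWithin_inter_open`-type): the limit is smooth and equals `u`; first and second derivatives converge, so the equation passes to the limit.
* `ly_sol`: at `x₀`: `f = f 1_{B(x₀,1)} + f 1_{B(x₀,1)ᶜ}`, `ly_near` + `ly_far`, `CMfd.smoothST_of_cover`.     `ly_init`: `f = χ f + (1-χ) f`, `χ` the cutoff of `ly_cutoff`: `HC.test (χ f)` + `ly_far`.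
-/

set_option autoImplicit false
open scoped ContDiff ComplexOrder Topology
open MeasureTheory Filter

namespace Claimed.Agent.R316

variable {V : Type} [NormedAddCommGroup V] [NormedSpace ℝ V] [FiniteDimensional ℝ V]
  [MeasurableSpace V] [BorelSpace V]
variable {n : ℕ} {𝓜 : CMfd V (Fin n)} {g : HFam V (Fin n)} (HC : HeatCore 𝓜 g)

/-- `SubGauss` data are a.e. strongly measurable. -/
theorem ly_subGauss_aesm (S : AnaSetting 𝓜 g) {o : V} {f : V → ℝ} (hf : SubGauss 𝓜 g o f) :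
    AEStronglyMeasurable f (hvol 𝓜 g) := by
  have hg : IsMetric 𝓜 g := S.kahler.toIsMetric
  have h1 := (hf 1 one_pos).aestronglyMeasurable
  have h2 : Measurable fun y => Real.exp (1 * hdist 𝓜 g o y ^ 2) :=
    Real.measurable_exp.comp (((measurable_hdist_right hg S.conn o).pow_const 2).const_mul 1)
  have h3 := h1.mul h2.aestronglyMeasurable
  refine h3.congr (Eventually.of_forall fun y => ?_)
  show f y * Real.exp (-(1 * hdist 𝓜 g o y ^ 2)) * Real.exp (1 * hdist 𝓜 g o y ^ 2) = f y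
  rw [mul_assoc, ← Real.exp_add]; simp

/-- domination: a measurable function with a Gaussian bound times `SubGauss` data is integrable. -/
theorem ly_integrable_mul_subGauss (S : AnaSetting 𝓜 g) {o : V} {f : V → ℝ}
    (hf : SubGauss 𝓜 g o f) {k : V → ℝ} (hk : AEStronglyMeasurable k (hvol 𝓜 g)) {C ε : ℝ}
    (hε : 0 < ε) (hle : ∀ y ∈ 𝓜.carrier, |k y| ≤ C * Real.exp (-(ε * hdist 𝓜 g o y ^ 2))) :
    Integrable (fun y => k y * f y) (hvol 𝓜 g) := by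
  refine Integrable.mono' (((hf ε hε).abs).const_mul C) (hk.mul (ly_subGauss_aesm S hf))
    (ae_hvol_of_forall_mem fun y hy => ?_)
  rw [Real.norm_eq_abs, abs_mul, abs_mul, abs_of_pos (Real.exp_pos _)]
  calc |k y| * |f y| ≤ C * Real.exp (-(ε * hdist 𝓜 g o y ^ 2)) * |f y| :=
        mul_le_mul_of_nonneg_right (hle y hy) (abs_nonneg _)
    _ = _ := by ring

/-- independence of the base point. -/
theorem ly_subGauss_base (S : AnaSetting 𝓜 g) {o o' : V} (ho : o ∈ 𝓜.carrier) (ho' : o' ∈ 𝓜.carrier)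
    {f : V → ℝ} (hf : SubGauss 𝓜 g o f) : SubGauss 𝓜 g o' f := by
  have hg : IsMetric 𝓜 g := S.kahler.toIsMetric
  intro ε hε
  have hm : Measurable fun y => Real.exp (-(ε * hdist 𝓜 g o' y ^ 2)) :=
    Real.measurable_exp.comp
      (((measurable_hdist_right hg S.conn o').pow_const 2).const_mul ε).neg
  have h1 := ly_integrable_mul_subGauss S hf hm.aestronglyMeasurable
    (C := Real.exp (ε * hdist 𝓜 g o o' ^ 2)) (ε := ε / 2) (by positivity) (fun y hy => ?_)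
  · refine h1.congr (Eventually.of_forall fun y => ?_)
    exact mul_comm _ _
  · rw [abs_of_pos (Real.exp_pos _), ← Real.exp_add]
    refine Real.exp_le_exp.2 ?_
    have h2 := hdist_triangle hg S.conn ho ho' hy
    have h3 := hdist_nonneg 𝓜 g o y
    have h4 := hdist_nonneg 𝓜 g o o'
    have h5 := hdist_nonneg 𝓜 g o' y
    have h6 : hdist 𝓜 g o y ^ 2 ≤ 2 * hdist 𝓜 g o o' ^ 2 + 2 * hdist 𝓜 g o' y ^ 2 := by
      have : hdist 𝓜 g o y ^ 2 ≤ (hdist 𝓜 g o o' + hdist 𝓜 g o' y) ^ 2 :=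
        pow_le_pow_left₀ h3 h2 2
      nlinarith [sq_nonneg (hdist 𝓜 g o o' - hdist 𝓜 g o' y)]
    nlinarith

/-- `SubGauss` data are integrable against the kernel. -/
theorem ly_integrable_subGauss (S : AnaSetting 𝓜 g) {o : V} (ho : o ∈ 𝓜.carrier) {f : V → ℝ}
    (hf : SubGauss 𝓜 g o f) {t : ℝ} (ht : 0 < t) {x : V} (hx : x ∈ 𝓜.carrier) :
    Integrable (fun y => HC.Hk t x y * f y) (hvol 𝓜 g) := by
  obtain ⟨C, c, hc, hup⟩ := ly_upper HC S
  refine ly_integrable_mul_subGauss S (ly_subGauss_base S ho hx hf)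
    (HC.integrable t ht x hx).aestronglyMeasurable (C := C / Vb 𝓜 g x (Real.sqrt t)) (ε := c / t)
    (by positivity) (fun y hy => ?_)
  rw [abs_of_nonneg (HC.nonneg t ht x y)]
  have := hup t ht x hx y hy
  rwa [show c * hdist 𝓜 g x y ^ 2 / t = c / t * hdist 𝓜 g x y ^ 2 by ring] at this

/-- off-diagonal bound, uniform up to `t = 0`. -/
theorem ly_far_bound (S : AnaSetting 𝓜 g) {x₀ : V} (hx₀ : x₀ ∈ 𝓜.carrier) {δ T : ℝ} (hδ : 0 < δ)
    (hT : 0 < T) : ∃ C ε₀ : ℝ, 0 < C ∧ 0 < ε₀ ∧ ∀ t ∈ Set.Ioc 0 T, ∀ x ∈ hcball 𝓜 g x₀ (δ / 2),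
      ∀ y ∈ 𝓜.carrier, 3 * δ / 4 ≤ hdist 𝓜 g x₀ y →
        HC.Hk t x y ≤ C * Real.exp (-(ε₀ * hdist 𝓜 g x₀ y ^ 2)) := by
  have hg : IsMetric 𝓜 g := S.kahler.toIsMetric
  have hV := ly_volComparison HC S
  obtain ⟨C₀, hC₀1, hratio⟩ := hV.ratio
  obtain ⟨Cu, c, hc, hup⟩ := ly_upper HC S
  obtain ⟨C₃, hC₃, hVV⟩ := ly_Vb_le_Vb S hV
  have hsT : 0 < Real.sqrt T := Real.sqrt_pos.2 hT
  have hV0 : 0 < Vb 𝓜 g x₀ (Real.sqrt T) := hV.pos x₀ hx₀ _ hsT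
  obtain ⟨a, ha⟩ : ∃ a : ℝ, a = c * δ ^ 2 / 32 := ⟨_, rfl⟩
  have ha0 : 0 < a := by rw [ha]; positivity
  set K : ℝ := |Cu| * (C₀ * T ^ n * (n.factorial / a ^ n)) *
    (C₃ * (1 + δ / 2 / Real.sqrt T) ^ (2 * n) / Vb 𝓜 g x₀ (Real.sqrt T)) with hK
  have hK0 : 0 ≤ K := by positivity
  refine ⟨K + 1, c / (18 * T), by linarith, by positivity, fun t ht x hx y hy hdy => ?_⟩
  have ht0 : 0 < t := ht.1
  have hst : 0 < Real.sqrt t := Real.sqrt_pos.2 ht0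
  have hVx : 0 < Vb 𝓜 g x (Real.sqrt t) := hV.pos x hx.1 _ hst
  have hVxT : 0 < Vb 𝓜 g x (Real.sqrt T) := hV.pos x hx.1 _ hsT
  set d₀ := hdist 𝓜 g x₀ y with hd₀
  -- distances
  have h1 : d₀ / 3 ≤ hdist 𝓜 g x y := by
    have h2 := hdist_triangle hg S.conn hx₀ hx.1 hy
    have h3 := hx.2
    linarith
  have hd0 : 0 ≤ d₀ := hdist_nonneg _ _ _ _
  have h4 : d₀ ^ 2 / 9 ≤ hdist 𝓜 g x y ^ 2 := by
    have := pow_le_pow_left₀ (by positivity : 0 ≤ d₀ / 3) h1 2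
    calc d₀ ^ 2 / 9 = (d₀ / 3) ^ 2 := by ring
      _ ≤ _ := this
  -- the exponent
  have h5 : a / t + c / (18 * T) * d₀ ^ 2 ≤ c * hdist 𝓜 g x y ^ 2 / t := by
    have h6 : c * (d₀ ^ 2 / 9) / t ≤ c * hdist 𝓜 g x y ^ 2 / t := by gcongr
    have h7 : a / t ≤ c * (d₀ ^ 2 / 18) / t := by
      rw [ha]
      have : δ ^ 2 / 32 ≤ d₀ ^ 2 / 18 := by
        have := pow_le_pow_left₀ (by positivity : 0 ≤ 3 * δ / 4) hdy 2
        nlinarith
      have h8 : c * δ ^ 2 / 32 = c * (δ ^ 2 / 32) := by ring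
      rw [h8]; gcongr
    have h8 : c / (18 * T) * d₀ ^ 2 ≤ c * (d₀ ^ 2 / 18) / t := by
      have : c / (18 * T) * d₀ ^ 2 = c * (d₀ ^ 2 / 18) / T := by field_simp
      rw [this]
      exact div_le_div_of_nonneg_left (by positivity) ht0 ht.2
    have h9 : c * (d₀ ^ 2 / 9) / t = c * (d₀ ^ 2 / 18) / t + c * (d₀ ^ 2 / 18) / t := by ring
    linarith
  -- volumes
  have h10 : Vb 𝓜 g x (Real.sqrt T) ≤ C₀ * (T / t) ^ n * Vb 𝓜 g x (Real.sqrt t) := by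
    have := hratio x hx.1 (Real.sqrt t) (Real.sqrt T) hst (Real.sqrt_le_sqrt ht.2)
    rwa [pow_mul, div_pow, Real.sq_sqrt hT.le, Real.sq_sqrt ht0.le] at this
  have h11 : Vb 𝓜 g x₀ (Real.sqrt T) ≤
      C₃ * (1 + δ / 2 / Real.sqrt T) ^ (2 * n) * Vb 𝓜 g x (Real.sqrt T) := by
    refine (hVV x₀ hx₀ x hx.1 _ hsT).trans ?_
    have := hx.2
    have h12 := hdist_nonneg 𝓜 g x₀ x
    gcongr
  have h13 : (1 / t) ^ n * Real.exp (-(a / t)) ≤ n.factorial / a ^ n := by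
    have h14 := Real.pow_div_factorial_le_exp (x := a / t) (by positivity) n
    have hf : (0 : ℝ) < n.factorial := by positivity
    rw [div_le_iff₀ hf] at h14
    rw [Real.exp_neg, le_div_iff₀ (by positivity)]
    have h15 : (1 / t) ^ n * (Real.exp (a / t))⁻¹ * a ^ n = (a / t) ^ n * (Real.exp (a / t))⁻¹ := by
      rw [div_pow, div_pow, one_pow]; ring
    rw [h15, ← div_eq_mul_inv, div_le_iff₀ (Real.exp_pos _)]
    linarith
  have h16 : 1 / Vb 𝓜 g x (Real.sqrt t) ≤ C₀ * (T / t) ^ n *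
      (C₃ * (1 + δ / 2 / Real.sqrt T) ^ (2 * n) / Vb 𝓜 g x₀ (Real.sqrt T)) := by
    rw [div_le_iff₀ hVx]
    have h17 : 1 ≤ C₃ * (1 + δ / 2 / Real.sqrt T) ^ (2 * n) / Vb 𝓜 g x₀ (Real.sqrt T)
        * Vb 𝓜 g x (Real.sqrt T) := by
      rw [div_mul_eq_mul_div, le_div_iff₀ hV0]; linarith
    have h18 : 0 ≤ C₃ * (1 + δ / 2 / Real.sqrt T) ^ (2 * n) / Vb 𝓜 g x₀ (Real.sqrt T) := by
      positivity
    calc (1 : ℝ) ≤ C₃ * (1 + δ / 2 / Real.sqrt T) ^ (2 * n) / Vb 𝓜 g x₀ (Real.sqrt T)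
        * Vb 𝓜 g x (Real.sqrt T) := h17
      _ ≤ C₃ * (1 + δ / 2 / Real.sqrt T) ^ (2 * n) / Vb 𝓜 g x₀ (Real.sqrt T)
        * (C₀ * (T / t) ^ n * Vb 𝓜 g x (Real.sqrt t)) := mul_le_mul_of_nonneg_left h10 h18
      _ = _ := by ring
  set W : ℝ := C₃ * (1 + δ / 2 / Real.sqrt T) ^ (2 * n) / Vb 𝓜 g x₀ (Real.sqrt T) with hW
  have hW0 : 0 ≤ W := by positivity
  calc HC.Hk t x y ≤ Cu / Vb 𝓜 g x (Real.sqrt t) *
        Real.exp (-(c * hdist 𝓜 g x y ^ 2 / t)) := hup t ht0 x hx.1 y hy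
    _ ≤ |Cu| * (1 / Vb 𝓜 g x (Real.sqrt t)) *
        (Real.exp (-(a / t)) * Real.exp (-(c / (18 * T) * d₀ ^ 2))) := by
        rw [← Real.exp_add]
        have h19 : Cu / Vb 𝓜 g x (Real.sqrt t) ≤ |Cu| * (1 / Vb 𝓜 g x (Real.sqrt t)) := by
          rw [mul_one_div]; gcongr; exact le_abs_self _
        have h20 : Real.exp (-(c * hdist 𝓜 g x y ^ 2 / t)) ≤
            Real.exp (-(a / t) + -(c / (18 * T) * d₀ ^ 2)) := Real.exp_le_exp.2 (by linarith)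
        exact mul_le_mul h19 h20 (Real.exp_pos _).le (by positivity)
    _ ≤ |Cu| * (C₀ * (T / t) ^ n * W) *
        (Real.exp (-(a / t)) * Real.exp (-(c / (18 * T) * d₀ ^ 2))) := by gcongr
    _ = |Cu| * (C₀ * T ^ n * ((1 / t) ^ n * Real.exp (-(a / t)))) * W *
        Real.exp (-(c / (18 * T) * d₀ ^ 2)) := by
        rw [div_pow, div_pow]; ring
    _ ≤ |Cu| * (C₀ * T ^ n * (n.factorial / a ^ n)) * W *
        Real.exp (-(c / (18 * T) * d₀ ^ 2)) := by gcongr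
    _ = K * Real.exp (-(c / (18 * T) * d₀ ^ 2)) := by rw [hK]
    _ ≤ (K + 1) * Real.exp (-(c / (18 * T) * d₀ ^ 2)) := by gcongr; linarith

open scoped Manifold in
/-- uniform approximation of a continuous function vanishing off an open set by a smooth one. -/
theorem ly_exists_contDiff_approx {f : V → ℝ} (hf : Continuous f) {O : Set V} (hO : IsOpen O)
    (h0 : ∀ y, y ∉ O → f y = 0) {ε : ℝ} (hε : 0 < ε) :
    ∃ G : V → ℝ, ContDiff ℝ ∞ G ∧ (∀ y, y ∉ O → G y = 0) ∧ ∀ y, |G y - f y| ≤ ε := by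
  classical
  set t : V → Set ℝ := fun y => if y ∈ O then Metric.ball (f y) ε else {0} with ht
  have hconv : ∀ y, Convex ℝ (t y) := by
    intro y
    by_cases hy : y ∈ O
    · simp only [ht, if_pos hy]; exact convex_ball _ _
    · simp only [ht, if_neg hy]; exact convex_singleton _
  have hloc : ∀ x : V, ∃ c : ℝ, ∀ᶠ y in 𝓝 x, c ∈ t y := by
    intro x
    refine ⟨f x, ?_⟩
    have h1 : ∀ᶠ y in 𝓝 x, f x ∈ Metric.ball (f y) ε := by
      have := hf.continuousAt.eventually (Metric.ball_mem_nhds (f x) hε)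
      filter_upwards [this] with y hy
      rw [Metric.mem_ball, dist_comm]; exact hy
    by_cases hx : x ∈ O
    · filter_upwards [h1, hO.mem_nhds hx] with y hy hyO
      simp only [ht, if_pos hyO]; exact hy
    · filter_upwards [h1] with y hy
      by_cases hyO : y ∈ O
      · simp only [ht, if_pos hyO]; exact hy
      · simp only [ht, if_neg hyO]; rw [h0 x hx]; rfl
  obtain ⟨G, hG⟩ := exists_contMDiffMap_forall_mem_convex_of_local_const (n := (⊤ : ℕ∞)) 𝓘(ℝ, V) hconv hloc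
  refine ⟨G, G.contMDiff.contDiff, fun y hy => ?_, fun y => ?_⟩
  · have := hG y
    simp only [ht, if_neg hy] at this
    exact this
  · have := hG y
    by_cases hy : y ∈ O
    · simp only [ht, if_pos hy] at this
      rw [Metric.mem_ball, Real.dist_eq] at this
      exact this.le
    · simp only [ht, if_neg hy] at this
      rw [h0 y hy, Set.mem_singleton_iff.1 this]; simpa using hε.le

/-- **density of test functions** in `L¹`, with control of the supports. -/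
theorem ly_exists_test_approx (hg : IsMetric 𝓜 g) {h : V → ℝ} (hh : Integrable h (hvol 𝓜 g))
    {K K' O : Set V} (hK : IsCompact K) (hK' : IsCompact K') (hK'M : K' ⊆ 𝓜.carrier) (hO : IsOpen O)
    (hKO : K ⊆ O) (hOK' : 𝓜.carrier ∩ O ⊆ K') (h0 : ∀ y ∈ 𝓜.carrier, y ∉ K → h y = 0) {η : ℝ}
    (hη : 0 < η) :
    ∃ f : V → ℝ, 𝓜.Smooth f ∧ (∀ y ∈ 𝓜.carrier, y ∉ O → f y = 0) ∧
      ∫ y, |f y - h y| ∂(hvol 𝓜 g) ≤ η := by
  have hfin : hvol 𝓜 g K' < ⊤ := hvol_lt_top_of_isCompact hg hK' hK'M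
  have : IsFiniteMeasure ((hvol 𝓜 g).restrict K') :=
    ⟨by rw [Measure.restrict_apply_univ]; exact hfin⟩
  obtain ⟨f₁, -, hf₁le, hf₁c, hf₁i⟩ :=
    (hh.restrict (s := K')).exists_hasCompactSupport_integral_sub_le (half_pos hη)
  obtain ⟨b, hb1, hb0, -, hb01⟩ := exists_continuous_one_zero_of_isCompact hK hO.isClosed_compl
    (Set.disjoint_compl_right_iff_subset.2 hKO)
  obtain ⟨m, hm⟩ : ∃ m : ℝ, m = (hvol 𝓜 g).real K' := ⟨_, rfl⟩
  have hm0 : 0 ≤ m := by rw [hm]; exact measureReal_nonneg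
  obtain ⟨ε, hεd⟩ : ∃ ε : ℝ, ε = η / (2 * (m + 1)) := ⟨_, rfl⟩
  have hε : 0 < ε := by rw [hεd]; positivity
  obtain ⟨G, hGs, hG0, hGle⟩ := ly_exists_contDiff_approx (f := fun y => b y * f₁ y)
    (b.continuous.mul hf₁c) hO (fun y hy => by rw [hb0 hy]; simp) hε
  refine ⟨G, CMfd.smooth_of_contDiff hGs, fun y _ hy => hG0 y hy, ?_⟩
  have hpt : ∀ y ∈ 𝓜.carrier, |G y - h y| ≤ K'.indicator (fun y => ε + ‖h y - f₁ y‖) y := by
    intro y hy
    by_cases hyO : y ∈ O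
    · rw [Set.indicator_of_mem (hOK' ⟨hy, hyO⟩)]
      have h1 : |b y * f₁ y - h y| ≤ ‖h y - f₁ y‖ := by
        rw [Real.norm_eq_abs]
        by_cases hyK : y ∈ K
        · rw [hb1 hyK]; simp [abs_sub_comm]
        · rw [h0 y hy hyK]
          simp only [sub_zero, zero_sub, abs_neg, abs_mul]
          have := hb01 y
          rw [abs_of_nonneg this.1]
          exact mul_le_of_le_one_left (abs_nonneg _) this.2
      calc |G y - h y| = |(G y - b y * f₁ y) + (b y * f₁ y - h y)| := by ring_nf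
        _ ≤ |G y - b y * f₁ y| + |b y * f₁ y - h y| := abs_add_le _ _
        _ ≤ _ := add_le_add (hGle y) h1
    · rw [hG0 y hyO, h0 y hy (fun hyK => hyO (hKO hyK))]
      simp only [sub_zero, abs_zero]
      exact Set.indicator_nonneg (fun y _ => by positivity) y
  have hiOn : IntegrableOn (fun y => ε + ‖h y - f₁ y‖) K' (hvol 𝓜 g) :=
    (integrable_const ε).add ((hh.restrict (s := K')).sub hf₁i).norm
  have hi2 : Integrable (K'.indicator (fun y => ε + ‖h y - f₁ y‖)) (hvol 𝓜 g) :=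
    hiOn.integrable_indicator hK'.measurableSet
  have hi1 : Integrable (fun y => |G y - h y|) (hvol 𝓜 g) := by
    refine Integrable.mono' hi2
      ((hGs.continuous.aestronglyMeasurable.sub hh.aestronglyMeasurable).norm)
      (ae_hvol_of_forall_mem fun y hy => ?_)
    rw [Real.norm_eq_abs, abs_abs]; exact hpt y hy
  calc ∫ y, |G y - h y| ∂(hvol 𝓜 g)
      ≤ ∫ y, K'.indicator (fun y => ε + ‖h y - f₁ y‖) y ∂(hvol 𝓜 g) :=
        integral_hvol_mono hi1 hi2 hpt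
    _ = ∫ y in K', (ε + ‖h y - f₁ y‖) ∂(hvol 𝓜 g) := integral_indicator hK'.measurableSet
    _ = ε * m + ∫ y in K', ‖h y - f₁ y‖ ∂(hvol 𝓜 g) := by
        have hn : Integrable (fun y => ‖h y - f₁ y‖) ((hvol 𝓜 g).restrict K') :=
          ((hh.restrict (s := K')).sub hf₁i).norm
        rw [integral_add (integrable_const ε) hn, integral_const, hm]
        simp [mul_comm]
    _ ≤ η / 2 + η / 2 := by
        refine add_le_add ?_ hf₁le
        rw [hεd, div_mul_eq_mul_div, div_le_div_iff₀ (by positivity) (by positivity)]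
        nlinarith
    _ = η := by ring

/-- heat solutions only depend on the values on `I × M`. -/
theorem ly_heatSol_congr {I : Set ℝ} {u v : ℝ → V → ℝ} (hu : IsHeatSol 𝓜 g I u)
    (h : ∀ t ∈ I, ∀ x ∈ 𝓜.carrier, v t x = u t x) : IsHeatSol 𝓜 g I v := by
  refine ⟨fun Φ U hΦ => (hu.1 Φ U hΦ).congr fun q hq => h q.1 hq.1 _ (CMfd.mem_carrier hΦ hq.2),
    fun t ht x hx => ?_⟩
  rw [lap_congr_of_eqOn g (fun y hy => h t ht y hy) hx]
  exact (hu.2 t ht x hx).congr (fun s hs => h s hs x hx) (h t ht x hx)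

/-- solutions on all `(a, ∞)`, `a > 0`, are solutions on `(0, ∞)`. -/
theorem ly_heatSol_Ioi {u : ℝ → V → ℝ} (hu : ∀ a : ℝ, 0 < a → IsHeatSol 𝓜 g (Set.Ioi a) u) :
    IsHeatSol 𝓜 g (Set.Ioi 0) u := by
  refine ⟨fun Φ U hΦ q hq => ?_, fun t ht x hx => ?_⟩
  · have hq1 : 0 < q.1 := hq.1
    have h1 := (hu (q.1 / 2) (by positivity)).1 Φ U hΦ
    have hopen : IsOpen (Set.Ioi (q.1 / 2) ×ˢ U) := isOpen_Ioi.prod (CMfd.isOpen_dom hΦ)
    have hmem : q ∈ Set.Ioi (q.1 / 2) ×ˢ U := ⟨by show q.1 / 2 < q.1; linarith, hq.2⟩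
    exact (h1.contDiffAt (hopen.mem_nhds hmem)).contDiffWithinAt
  · have ht0 : 0 < t := ht
    have h1 := (hu (t / 2) (by positivity)).2 t (by show t / 2 < t; linarith) x hx
    exact (h1.hasDerivAt (Ioi_mem_nhds (by linarith))).hasDerivWithinAt

/-- joint measurability of the kernel. -/
theorem ly_aesm_Hk_prod (hg : IsMetric 𝓜 g) {t : ℝ} (ht : 0 < t) :
    AEStronglyMeasurable (fun p : V × V => HC.Hk t p.1 p.2) ((hvol 𝓜 g).prod (hvol 𝓜 g)) := by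
  have := sigmaFinite_hvol hg
  have h1 : ContinuousOn (fun p : V × V => HC.Hk t p.1 p.2) (𝓜.carrier ×ˢ 𝓜.carrier) :=
    HC.cont.comp (f := fun p : V × V => ((t, p.1, p.2) : ℝ × V × V))
      (by fun_prop) (fun p hp => ⟨ht, hp.1, hp.2⟩)
  have h2 := h1.aestronglyMeasurable (μ := (hvol 𝓜 g).prod (hvol 𝓜 g))
    (𝓜.measurableSet_carrier.prod 𝓜.measurableSet_carrier)
  rwa [← Measure.prod_restrict, hvol_restrict_carrier] at h2

/-- the kernel is bounded when one argument stays in a compact set. -/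
theorem ly_Hk_le_of_compact (S : AnaSetting 𝓜 g) {K : Set V} (hK : IsCompact K)
    (hKM : K ⊆ 𝓜.carrier) {a : ℝ} (ha : 0 < a) :
    ∃ B : ℝ, 0 ≤ B ∧ ∀ z ∈ 𝓜.carrier, ∀ y ∈ K, HC.Hk a z y ≤ B := by
  have hg : IsMetric 𝓜 g := S.kahler.toIsMetric
  have hV := ly_volComparison HC S
  obtain ⟨Cu, c, hc, hup⟩ := ly_upper HC S
  obtain ⟨C₃, hC₃, hVV⟩ := ly_Vb_le_Vb S hV
  obtain ⟨x₁, hx₁⟩ := S.conn.nonempty
  obtain ⟨D, hD⟩ := hK.exists_bound_of_continuousOn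
    ((continuousOn_hdist_right hg S.conn hx₁).mono hKM)
  have hsa : 0 < Real.sqrt a := Real.sqrt_pos.2 ha
  have hV1 : 0 < Vb 𝓜 g x₁ (Real.sqrt a) := hV.pos x₁ hx₁ _ hsa
  refine ⟨|Cu| * (C₃ * (1 + |D| / Real.sqrt a) ^ (2 * n) / Vb 𝓜 g x₁ (Real.sqrt a)), by positivity,
    fun z hz y hy => ?_⟩
  have hyM := hKM hy
  have hVy : 0 < Vb 𝓜 g y (Real.sqrt a) := hV.pos y hyM _ hsa
  have h1 : Vb 𝓜 g x₁ (Real.sqrt a) ≤
      C₃ * (1 + |D| / Real.sqrt a) ^ (2 * n) * Vb 𝓜 g y (Real.sqrt a) := by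
    refine (hVV x₁ hx₁ y hyM _ hsa).trans ?_
    have h2 : hdist 𝓜 g x₁ y ≤ |D| := by
      have := hD y hy
      rw [Real.norm_eq_abs] at this
      exact (le_abs_self _).trans (this.trans (le_abs_self _))
    have h3 := hdist_nonneg 𝓜 g x₁ y
    gcongr
  have h4 : 1 / Vb 𝓜 g y (Real.sqrt a) ≤
      C₃ * (1 + |D| / Real.sqrt a) ^ (2 * n) / Vb 𝓜 g x₁ (Real.sqrt a) := by
    rw [div_le_div_iff₀ hVy hV1]; linarith
  calc HC.Hk a z y = HC.Hk a y z := HC.symm _ _ _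
    _ ≤ Cu / Vb 𝓜 g y (Real.sqrt a) * Real.exp (-(c * hdist 𝓜 g y z ^ 2 / a)) :=
        hup a ha y hyM z hz
    _ ≤ |Cu| * (1 / Vb 𝓜 g y (Real.sqrt a)) * 1 := by
        have h5 : Cu / Vb 𝓜 g y (Real.sqrt a) ≤ |Cu| * (1 / Vb 𝓜 g y (Real.sqrt a)) := by
          rw [mul_one_div]; gcongr; exact le_abs_self _
        have h6 : Real.exp (-(c * hdist 𝓜 g y z ^ 2 / a)) ≤ 1 := by
          rw [Real.exp_le_one_iff]
          have : 0 ≤ c * hdist 𝓜 g y z ^ 2 / a := by positivity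
          linarith
        exact mul_le_mul h5 h6 (Real.exp_pos _).le (by positivity)
    _ ≤ _ := by rw [mul_one]; gcongr

/-- product integrability. -/
theorem ly_integrable_prod (hg : IsMetric 𝓜 g) {h : V → ℝ} (hh : Integrable h (hvol 𝓜 g)) {K : Set V}
    (h0 : ∀ y ∈ 𝓜.carrier, y ∉ K → h y = 0) {a : ℝ} (ha : 0 < a) {k : V → ℝ}
    (hk : AEStronglyMeasurable k (hvol 𝓜 g)) (hk0 : ∀ z, 0 ≤ k z)
    (hki : ∀ y ∈ 𝓜.carrier, Integrable (fun z => k z * HC.Hk a z y) (hvol 𝓜 g)) {B : ℝ}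
    (hB : ∀ y ∈ 𝓜.carrier, y ∈ K → ∫ z, k z * HC.Hk a z y ∂(hvol 𝓜 g) ≤ B) :
    Integrable (fun p : V × V => k p.2 * HC.Hk a p.2 p.1 * h p.1)
      ((hvol 𝓜 g).prod (hvol 𝓜 g)) := by
  have := sigmaFinite_hvol hg
  have hm : AEStronglyMeasurable (fun p : V × V => k p.2 * HC.Hk a p.2 p.1 * h p.1)
      ((hvol 𝓜 g).prod (hvol 𝓜 g)) :=
    (hk.comp_snd.mul (ly_aesm_Hk_prod HC hg ha).prod_swap).mul hh.aestronglyMeasurable.comp_fst
  rw [integrable_prod_iff hm]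
  have hnorm : ∀ y, ∫ z, ‖k z * HC.Hk a z y * h y‖ ∂(hvol 𝓜 g) =
      (∫ z, k z * HC.Hk a z y ∂(hvol 𝓜 g)) * |h y| := by
    intro y
    rw [← integral_mul_const]
    refine integral_congr_ae (Eventually.of_forall fun z => ?_)
    show ‖k z * HC.Hk a z y * h y‖ = _
    rw [Real.norm_eq_abs, abs_mul, abs_of_nonneg (mul_nonneg (hk0 z) (HC.nonneg a ha z y))]
  refine ⟨ae_hvol_of_forall_mem fun y hy => (hki y hy).mul_const (h y), ?_⟩
  refine Integrable.mono' (hh.abs.const_mul B) hm.norm.integral_prod_right'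
    (ae_hvol_of_forall_mem fun y hy => ?_)
  show ‖∫ z, ‖k z * HC.Hk a z y * h y‖ ∂(hvol 𝓜 g)‖ ≤ B * |h y|
  rw [hnorm y, Real.norm_eq_abs, abs_mul, abs_abs, abs_of_nonneg
    (integral_nonneg fun z => mul_nonneg (hk0 z) (HC.nonneg a ha z y))]
  by_cases hyK : y ∈ K
  · exact mul_le_mul_of_nonneg_right (hB y hy hyK) (abs_nonneg _)
  · rw [h0 y hy hyK]; simp

/-- integrable data with compact support. -/
theorem ly_near (S : AnaSetting 𝓜 g) {h : V → ℝ} (hh : Integrable h (hvol 𝓜 g)) (hc : 𝓜.CSupp h) :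
    IsHeatSol 𝓜 g (Set.Ioi 0) (fun t => HC.P t h) := by
  have hg : IsMetric 𝓜 g := S.kahler.toIsMetric
  have := sigmaFinite_hvol hg
  obtain ⟨K, hK, hKM, h0⟩ := hc
  refine ly_heatSol_Ioi fun a ha => ?_
  obtain ⟨w, hw⟩ : ∃ w : V → ℝ, w = HC.P a h := ⟨_, rfl⟩
  obtain ⟨B, hB0, hB⟩ := ly_Hk_le_of_compact HC S hK hKM ha
  have hp1 := ly_integrable_prod HC hg hh h0 ha (k := fun _ => 1) aestronglyMeasurable_const
    (fun _ => zero_le_one)
    (fun y hy => by simpa [HC.symm a _ y] using HC.integrable a ha y hy) (B := 1)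
    (fun y hy _ => by simpa [HC.symm a _ y] using HC.submarkov a ha y hy)
  have hwi : Integrable w (hvol 𝓜 g) := by
    refine hp1.integral_prod_right.congr (Eventually.of_forall fun z => ?_)
    simp [hw, HeatCore.P]
  have hwb : ∀ z ∈ 𝓜.carrier, |w z| ≤ B * ∫ y, |h y| ∂(hvol 𝓜 g) := by
    intro z hz
    calc |w z| ≤ ∫ y, |HC.Hk a z y * h y| ∂(hvol 𝓜 g) := by
          rw [hw]; exact abs_integral_le_integral_abs
      _ ≤ ∫ y, B * |h y| ∂(hvol 𝓜 g) := by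
          refine integral_mono_of_nonneg (Eventually.of_forall fun y => abs_nonneg _)
            (hh.abs.const_mul B) (ae_hvol_of_forall_mem fun y hy => ?_)
          show |HC.Hk a z y * h y| ≤ B * |h y|
          rw [abs_mul, abs_of_nonneg (HC.nonneg a ha z y)]
          by_cases hyK : y ∈ K
          · exact mul_le_mul_of_nonneg_right (hB z hz y hyK) (abs_nonneg _)
          · rw [h0 y hy hyK]; simp
      _ = _ := integral_const_mul _ _
  have hw2 : MemLp w 2 (hvol 𝓜 g) := by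
    rw [memLp_two_iff_integrable_sq hwi.aestronglyMeasurable]
    refine Integrable.mono' (hwi.abs.const_mul (B * ∫ y, |h y| ∂(hvol 𝓜 g)))
      (hwi.aestronglyMeasurable.pow 2) (ae_hvol_of_forall_mem fun z hz => ?_)
    rw [Real.norm_eq_abs, abs_pow, sq]
    exact mul_le_mul_of_nonneg_right (hwb z hz) (abs_nonneg _)
  have hsol := HC.solL2 w hw2
  have hsg : ∀ s : ℝ, 0 < s → ∀ x ∈ 𝓜.carrier,
      ∫ z, HC.Hk s x z * w z ∂(hvol 𝓜 g) = HC.P (s + a) h x := by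
    intro s hs x hx
    obtain ⟨B', hB'0, hB'⟩ := ly_Hk_le_of_compact HC S hK hKM (add_pos hs ha)
    have hp2 := ly_integrable_prod HC hg hh h0 ha (k := fun z => HC.Hk s x z)
      (HC.integrable s hs x hx).aestronglyMeasurable (fun z => HC.nonneg s hs x z)
      (fun y hy => (HC.semigroup s a hs ha x hx y hy).1) (B := B')
      (fun y hy hyK => by rw [(HC.semigroup s a hs ha x hx y hy).2]; exact hB' x hx y hyK)
    have hswap := integral_integral_swap (f := fun y z => HC.Hk s x z * HC.Hk a z y * h y) hp2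
    calc ∫ z, HC.Hk s x z * w z ∂(hvol 𝓜 g)
        = ∫ z, ∫ y, HC.Hk s x z * HC.Hk a z y * h y ∂(hvol 𝓜 g) ∂(hvol 𝓜 g) := by
          refine integral_congr_ae (Eventually.of_forall fun z => ?_)
          show HC.Hk s x z * w z = _
          rw [hw, HeatCore.P, ← integral_const_mul]; simp only [mul_assoc]
      _ = ∫ y, ∫ z, HC.Hk s x z * HC.Hk a z y * h y ∂(hvol 𝓜 g) ∂(hvol 𝓜 g) := hswap.symm
      _ = ∫ y, HC.Hk (s + a) x y * h y ∂(hvol 𝓜 g) := by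
          refine integral_hvol_congr fun y hy => ?_
          rw [integral_mul_const, (HC.semigroup s a hs ha x hx y hy).2]
  have h1 := ly_heatSol_shift hsol (-a)
  refine ly_heatSol_congr (ly_heatSol_mono h1 (fun t ht => ?_)) (fun t ht x hx => ?_)
  · have : a < t := ht
    show 0 < t + -a
    linarith
  · have hta : a < t := ht
    show HC.P t h x = ∫ z, HC.Hk (t + -a) x z * w z ∂(hvol 𝓜 g)
    rw [hsg (t + -a) (by linarith) x hx]; congr 1; ring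

/-- test data: the solution up to `t = 0`. -/
theorem ly_test_heatSol (hg : IsMetric 𝓜 g) {f : V → ℝ} (hf : 𝓜.Smooth f) (hc : 𝓜.CSupp f) :
    IsHeatSol 𝓜 g (Set.Ici 0) (fun t x => if t = 0 then f x else HC.P t f x) := by
  set w : ℝ → V → ℝ := fun t x => if t = 0 then f x else HC.P t f x with hw
  have hws : 𝓜.SmoothST (Set.Ici 0) w := HC.test f hf hc
  have hI := isTimeDom_Ici (0 : ℝ)
  have hH := (ly_smoothST_heatOp hg hI hws).continuousOn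
  have hf2 : MemLp f 2 (hvol 𝓜 g) := by
    rw [memLp_two_iff_integrable_sq hf.aestronglyMeasurable]
    obtain ⟨K, hK, hKM, h0⟩ := hc
    exact integrable_hvol_of_csupp hg (hf.continuousOn.pow 2)
      ⟨K, hK, hKM, fun x hx hxK => by simp [h0 x hx hxK]⟩
  have hsol := HC.solL2 f hf2
  have hpos : ∀ t : ℝ, 0 < t → ∀ x ∈ 𝓜.carrier,
      HasDerivWithinAt (fun s => w s x) (lap 𝓜 g (w t) x) (Set.Ici 0) t := by
    intro t ht x hx
    have h1 := (hsol.2 t ht x hx).hasDerivAt (Ioi_mem_nhds ht)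
    have h2 : w t = fun x => ∫ y, HC.Hk t x y * f y ∂(hvol 𝓜 g) := by
      funext y; simp [hw, ht.ne', HeatCore.P]
    rw [h2]
    refine (h1.congr_of_eventuallyEq ?_).hasDerivWithinAt
    filter_upwards [Ioi_mem_nhds ht] with s hs
    simp [hw, (show s ≠ 0 from ne_of_gt hs), HeatCore.P]
  have hzero : ∀ t ∈ Set.Ici (0 : ℝ), ∀ x ∈ 𝓜.carrier, heatOp 𝓜 g (Set.Ici 0) w t x = 0 := by
    intro t ht x hx
    have hp : ∀ s : ℝ, 0 < s → heatOp 𝓜 g (Set.Ici 0) w s x = 0 := fun s hs => by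
      rw [ly_heatOp_of_hasDerivWithinAt hI (Set.mem_Ici.2 hs.le) (hpos s hs x hx), sub_self]
    rcases eq_or_lt_of_le (show (0 : ℝ) ≤ t from ht) with rfl | ht'
    · have hc1 : ContinuousWithinAt (fun s => heatOp 𝓜 g (Set.Ici 0) w s x) (Set.Ici 0) 0 := by
        have h3 := hH (0, x) ⟨Set.self_mem_Ici, hx⟩
        exact h3.comp (f := fun s : ℝ => (s, x)) (by fun_prop) (fun s hs => ⟨hs, hx⟩)
      have hc2 : Tendsto (fun s => heatOp 𝓜 g (Set.Ici 0) w s x) (𝓝[>] 0)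
          (𝓝 (heatOp 𝓜 g (Set.Ici 0) w 0 x)) :=
        hc1.tendsto.mono_left (nhdsWithin_mono _ Set.Ioi_subset_Ici_self)
      have hc3 : Tendsto (fun s => heatOp 𝓜 g (Set.Ici 0) w s x) (𝓝[>] 0) (𝓝 0) := by
        refine tendsto_const_nhds.congr' ?_
        filter_upwards [self_mem_nhdsWithin] with s hs using (hp s hs).symm
      exact tendsto_nhds_unique hc2 hc3
    · exact hp t ht'
  refine ⟨hws, fun t ht x hx => ?_⟩
  have h1 := hws.hasDerivWithinAt ht hx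
  have h2 := hzero t ht x hx
  rw [heatOp, sub_eq_zero] at h2
  rwa [h2] at h1

/-- uniform ellipticity on compact subsets of a parametrisation. -/
theorem ly_exists_pinch (hg : IsMetric 𝓜 g) {Φ : CE (Fin n) → V} {U K : Set (CE (Fin n))}
    (hΦ : 𝓜.IsHol Φ U) (hK : IsCompact K) (hKU : K ⊆ U) :
    ∃ Λ : ℝ, 0 < Λ ∧ ∀ z ∈ K, leM (cI Λ⁻¹) (g Φ z) ∧ leM (g Φ z) (cI Λ) := by
  obtain ⟨c, hc, hlow⟩ := exists_cI_le hK hKU (G := g Φ)
    (fun j k => (hg.smooth hΦ j k).continuousOn) (fun z hz => hg.posDef hΦ z hz)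
  have htr : ContinuousOn (fun z => (g Φ z).trace.re) K := by
    have h1 : ContinuousOn (fun z => (g Φ z).trace) K := by
      simp only [Matrix.trace, Matrix.diag_apply]
      exact continuousOn_finsetSum _ fun j _ => ((hg.smooth hΦ j j).continuousOn.mono hKU)
    exact Complex.continuous_re.comp_continuousOn h1
  obtain ⟨b, hb⟩ := hK.exists_bound_of_continuousOn htr
  refine ⟨max c⁻¹ (max b 1), lt_max_of_lt_left (inv_pos.2 hc), fun z hz => ⟨?_, ?_⟩⟩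
  · refine rich_sub_cI_mono (hlow z hz) ?_
    rw [inv_le_comm₀ (lt_max_of_lt_left (inv_pos.2 hc)) hc]
    exact le_max_left _ _
  · have h1 := le_trace_smul (H := 1) Matrix.PosDef.one (hg.posDef hΦ z (hKU hz)).posSemidef
    rw [inv_one, one_mul] at h1
    have h2 : (g Φ z).trace.re ≤ max c⁻¹ (max b 1) :=
      (le_abs_self _).trans ((hb z hz).trans ((le_max_left _ _).trans (le_max_right _ _)))
    have e : cI (max c⁻¹ (max b 1)) - g Φ z =
        ((((g Φ z).trace.re : ℝ) : ℂ) • (1 : Matrix (Fin n) (Fin n) ℂ) - g Φ z) +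
          cI (max c⁻¹ (max b 1) - (g Φ z).trace.re) := by
      simp only [cI]
      push_cast
      module
    show (cI (max c⁻¹ (max b 1)) - g Φ z).PosSemidef
    rw [e]
    exact h1.add (rich_posSemidef_cI (by linarith))

/-- derivatives of a time independent smooth function are bounded over compact sets. -/
theorem ly_exists_bound_iter {U K W : Set (CE (Fin n))} (hU : IsOpen U) {G : CE (Fin n) → ℂ}
    (hG : ContDiffOn ℝ ∞ G U) (hK : IsCompact K) (hKU : K ⊆ U) {T : ℝ} (hT : 0 < T) (hW : IsOpen W)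
    (hWK : W ⊆ K) (m : ℕ) :
    ∃ B : ℝ, 0 ≤ B ∧ ∀ t ∈ Set.Icc (0 : ℝ) T, ∀ z ∈ W,
      ‖iteratedFDerivWithin ℝ m (fun q : ℝ × CE (Fin n) => G q.2) (Set.Icc 0 T ×ˢ W) (t, z)‖ ≤ B := by
  have hΩ : IsOpen ((Set.univ : Set ℝ) ×ˢ U) := isOpen_univ.prod hU
  have hF : ContDiffOn ℝ ∞ (fun q : ℝ × CE (Fin n) => G q.2) (Set.univ ×ˢ U) :=
    hG.comp contDiff_snd.contDiffOn (fun q hq => hq.2)
  have hc := hF.continuousOn_iteratedFDerivWithin (m := m) (by exact_mod_cast le_top) hΩ.uniqueDiffOn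
  obtain ⟨B, hB⟩ := (isCompact_Icc.prod hK).exists_bound_of_continuousOn
    (hc.mono (Set.prod_mono (Set.subset_univ (Set.Icc (0 : ℝ) T)) hKU))
  refine ⟨max B 0, le_max_right _ _, fun t ht z hz => ?_⟩
  have hmem : ((t, z) : ℝ × CE (Fin n)) ∈ (Set.univ : Set ℝ) ×ˢ U := ⟨trivial, hKU (hWK hz)⟩
  have hat : ContDiffAt ℝ m (fun q : ℝ × CE (Fin n) => G q.2) (t, z) :=
    (hF.contDiffAt (hΩ.mem_nhds hmem)).of_le (by exact_mod_cast le_top)
  rw [iteratedFDerivWithin_eq_iteratedFDeriv ((uniqueDiffOn_Icc hT).prod hW.uniqueDiffOn) hat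
    ⟨ht, hz⟩, ← iteratedFDerivWithin_eq_iteratedFDeriv hΩ.uniqueDiffOn hat hmem]
  exact (hB (t, z) ⟨ht, hWK hz⟩).trans (le_max_left _ _)

/-- `|P_t h(x)| ≤ C ∫ |h| e^{-ε₀ d²}` for data vanishing on `hball x₀ (3δ/4)`. -/
theorem ly_abs_P_le_far {x₀ : V} {δ T C ε₀ : ℝ}
    (hfb : ∀ t ∈ Set.Ioc 0 T, ∀ x ∈ hcball 𝓜 g x₀ (δ / 2), ∀ y ∈ 𝓜.carrier,
      3 * δ / 4 ≤ hdist 𝓜 g x₀ y → HC.Hk t x y ≤ C * Real.exp (-(ε₀ * hdist 𝓜 g x₀ y ^ 2)))
    {h : V → ℝ}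
    (hi : Integrable (fun y => |h y| * Real.exp (-(ε₀ * hdist 𝓜 g x₀ y ^ 2))) (hvol 𝓜 g))
    (h0 : ∀ y ∈ hball 𝓜 g x₀ (3 * δ / 4), h y = 0) {t : ℝ} (ht : t ∈ Set.Ioc 0 T) {x : V}
    (hx : x ∈ hcball 𝓜 g x₀ (δ / 2)) :
    |HC.P t h x| ≤ C * ∫ y, |h y| * Real.exp (-(ε₀ * hdist 𝓜 g x₀ y ^ 2)) ∂(hvol 𝓜 g) := by
  calc |HC.P t h x| ≤ ∫ y, |HC.Hk t x y * h y| ∂(hvol 𝓜 g) := abs_integral_le_integral_abs
    _ ≤ ∫ y, C * (|h y| * Real.exp (-(ε₀ * hdist 𝓜 g x₀ y ^ 2))) ∂(hvol 𝓜 g) := by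
        refine integral_mono_of_nonneg (Eventually.of_forall fun y => abs_nonneg _)
          (hi.const_mul C) (ae_hvol_of_forall_mem fun y hy => ?_)
        show |HC.Hk t x y * h y| ≤ C * (|h y| * Real.exp (-(ε₀ * hdist 𝓜 g x₀ y ^ 2)))
        rw [abs_mul, abs_of_nonneg (HC.nonneg t ht.1 x y)]
        by_cases hd : hdist 𝓜 g x₀ y < 3 * δ / 4
        · rw [h0 y ⟨hy, hd⟩]; simp
        · have := mul_le_mul_of_nonneg_right (hfb t ht x hx y hy (not_lt.1 hd)) (abs_nonneg (h y))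
          linarith
    _ = _ := integral_const_mul _ _

/-- uniform bounds for test data vanishing near `x₀`. -/
theorem ly_far_test (hReg : S3.StLinLocalReg) (S : AnaSetting 𝓜 g) {x₀ : V} (hx₀ : x₀ ∈ 𝓜.carrier)
    {δ : ℝ} (hδ : 0 < δ) :
    ∃ (Φ : CE (Fin n) → V) (U : Set (CE (Fin n))) (r : ℝ), 𝓜.IsHol Φ U ∧ 0 < r ∧ Φ 0 = x₀ ∧
      Metric.closedBall 0 (2 * r) ⊆ U ∧ Φ '' Metric.closedBall 0 (2 * r) ⊆ hball 𝓜 g x₀ (δ / 2) ∧
      ∀ T : ℝ, 0 < T → ∃ ε₀ : ℝ, 0 < ε₀ ∧ ∀ M₀ : ℝ, ∃ Ck : ℕ → ℝ, ∀ f : V → ℝ, 𝓜.Smooth f → 𝓜.CSupp f →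
        (∀ y ∈ hball 𝓜 g x₀ (3 * δ / 4), f y = 0) →
        ∫ y, |f y| * Real.exp (-(ε₀ * hdist 𝓜 g x₀ y ^ 2)) ∂(hvol 𝓜 g) ≤ M₀ →
        ∀ (m : ℕ), ∀ t ∈ Set.Icc (0 : ℝ) T, ∀ z ∈ Metric.ball (0 : CE (Fin n)) r,
          ‖iteratedFDerivWithin ℝ m
            (fun q : ℝ × CE (Fin n) => if q.1 = 0 then f (Φ q.2) else HC.P q.1 f (Φ q.2))
            (Set.Icc 0 T ×ˢ Metric.ball 0 r) (t, z)‖ ≤ Ck m := by
  have hg : IsMetric 𝓜 g := S.kahler.toIsMetric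
  obtain ⟨O, hO, hOe⟩ := exists_isOpen_hball hg S.conn hx₀ (δ / 2)
  have hxO : x₀ ∈ O := by
    have : x₀ ∈ hball 𝓜 g x₀ (δ / 2) := mem_hball_self hx₀ (by positivity)
    rw [hOe] at this; exact this.2
  obtain ⟨Φ, r₁, hr₁, hΦ, hΦ0, hΦO⟩ := 𝓜.exists_centred_in hx₀ (hO.mem_nhds hxO)
  obtain ⟨r, hrd⟩ : ∃ r : ℝ, r = r₁ / 2 := ⟨_, rfl⟩
  have hr : 0 < r := by rw [hrd]; positivity
  have hcb : Metric.closedBall (0 : CE (Fin n)) (2 * r) ⊆ Metric.ball 0 (2 * r₁) :=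
    Metric.closedBall_subset_ball (by rw [hrd]; linarith)
  have hbc : Metric.ball (0 : CE (Fin n)) (2 * r) ⊆ Metric.closedBall 0 (2 * r) :=
    Metric.ball_subset_closedBall
  have him : Φ '' Metric.closedBall 0 (2 * r) ⊆ hball 𝓜 g x₀ (δ / 2) := by
    rintro _ ⟨z, hz, rfl⟩
    rw [hOe]; exact ⟨CMfd.mem_carrier hΦ (hcb hz), hΦO ⟨z, hcb hz, rfl⟩⟩
  refine ⟨Φ, Metric.ball 0 (2 * r₁), r, hΦ, hr, hΦ0, hcb, him, fun T hT => ?_⟩
  obtain ⟨C, ε₀, hC, hε₀, hfb⟩ := ly_far_bound HC S hx₀ hδ hT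
  refine ⟨ε₀, hε₀, fun M₀ => ?_⟩
  obtain ⟨Λ, hΛ, hell⟩ := ly_exists_pinch hg hΦ (isCompact_closedBall (0 : CE (Fin n)) (2 * r)) hcb
  choose B hB0 hB using fun (m : ℕ) (j l : Fin n) => ly_exists_bound_iter Metric.isOpen_ball
    (hg.smooth hΦ j l) (isCompact_closedBall (0 : CE (Fin n)) (2 * r)) hcb hT
    (Metric.isOpen_ball (x := (0 : CE (Fin n))) (ε := 2 * r)) hbc m
  obtain ⟨Ck, hCk⟩ := hReg n r T Λ (C * M₀) (fun m => ∑ j, ∑ l, B m j l) hr hT hΛ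
  refine ⟨Ck, fun f hf hc hf0 hfM m t ht z hz => ?_⟩
  have hsol := ly_test_heatSol HC hg hf hc
  set w : ℝ → V → ℝ := fun t x => if t = 0 then f x else HC.P t f x with hw
  have hfi : Integrable (fun y => |f y| * Real.exp (-(ε₀ * hdist 𝓜 g x₀ y ^ 2))) (hvol 𝓜 g) := by
    obtain ⟨K, hK, hKM, h0⟩ := hc
    refine integrable_hvol_of_csupp hg (hf.continuousOn.abs.mul (Real.continuous_exp.comp_continuousOn
      (((continuousOn_hdist_right hg S.conn hx₀).pow 2).const_mul ε₀).neg))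
      ⟨K, hK, hKM, fun x hx hxK => by simp [h0 x hx hxK]⟩
  have hM0 : 0 ≤ M₀ := le_trans (integral_nonneg fun y => by positivity) hfM
  have hsub : hball 𝓜 g x₀ (δ / 2) ⊆ hball 𝓜 g x₀ (3 * δ / 4) :=
    fun y hy => ⟨hy.1, hy.2.trans_le (by linarith)⟩
  have key := hCk (fun _ z => g Φ z) (fun _ _ => 0) (fun t z => w t (Φ z))
    (fun t z => lap 𝓜 g (w t) (Φ z))
    (fun j l => (hg.smooth hΦ j l).comp contDiff_snd.contDiffOn (fun q hq => hcb (hbc hq.2)))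
    contDiffOn_const
    ((hsol.1 Φ _ hΦ).mono (Set.prod_mono Set.Icc_subset_Ici_self (hbc.trans hcb)))
    (fun t ht z hz => ?_) (fun m j l t ht z hz => ?_) (fun m t ht z hz => ?_) (fun z hz => ?_)
    m t ht z hz
  · have e : Set.Icc (0 : ℝ) T ×ˢ Metric.ball (0 : CE (Fin n)) r =
        (Set.Icc (0 : ℝ) T ×ˢ Metric.ball (0 : CE (Fin n)) (2 * r)) ∩
          (Set.univ ×ˢ Metric.ball (0 : CE (Fin n)) r) := by
      rw [Set.prod_inter_prod, Set.inter_univ, Set.inter_eq_self_of_subset_right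
        (Metric.ball_subset_ball (by linarith))]
    have hop : IsOpen ((Set.univ : Set ℝ) ×ˢ Metric.ball (0 : CE (Fin n)) r) :=
      isOpen_univ.prod Metric.isOpen_ball
    have hmem : ((t, z) : ℝ × CE (Fin n)) ∈ (Set.univ : Set ℝ) ×ˢ Metric.ball (0 : CE (Fin n)) r :=
      ⟨trivial, hz⟩
    rw [e, iteratedFDerivWithin_inter_open hop hmem]
    exact key
  · have hzU := hcb (hbc hz)
    have hx := CMfd.mem_carrier hΦ hzU
    have hxb : Φ z ∈ hball 𝓜 g x₀ (δ / 2) := him ⟨z, hbc hz, rfl⟩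
    have ht' : t ∈ Set.Ici (0 : ℝ) := ht.1
    refine ⟨hg.herm hΦ z hzU, (hell z (hbc hz)).1, (hell z (hbc hz)).2, ?_,
      (hsol.2 t ht' _ hx).mono Set.Icc_subset_Ici_self, ?_⟩
    · rcases eq_or_lt_of_le ht.1 with rfl | ht0
      · simp only [hw, if_true]
        rw [hf0 _ (hsub hxb), abs_zero]; positivity
      · simp only [hw, if_neg ht0.ne']
        refine (ly_abs_P_le_far HC hfb hfi hf0 ⟨ht0, ht.2⟩ ⟨hxb.1, hxb.2.le⟩).trans ?_
        exact mul_le_mul_of_nonneg_left hfM hC.le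
    · rw [lap_eq_of_c2At hg hΦ hzU ((hsol.1.smooth ht').c2At hx), add_zero]
      rfl
  · refine (hB m j l t ht z hz).trans ?_
    refine le_trans ?_ (Finset.single_le_sum (f := fun j => ∑ l, B m j l)
      (fun j _ => Finset.sum_nonneg fun l _ => hB0 m j l) (Finset.mem_univ j))
    exact Finset.single_le_sum (f := fun l => B m j l) (fun l _ => hB0 m j l) (Finset.mem_univ l)
  · rw [iteratedFDerivWithin_fun_zero]
    simp only [Pi.zero_apply, norm_zero]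
    exact Finset.sum_nonneg fun j _ => Finset.sum_nonneg fun l _ => hB0 m j l
  · simp only [hw, if_true]
    exact hf0 _ (hsub (him ⟨z, hbc hz, rfl⟩))

/-- second derivative of a slice. -/
theorem ly_snd_slice {w : ℝ × CE (Fin n) → ℝ} {t : ℝ} {z : CE (Fin n)}
    (hw : ContDiffAt ℝ 2 w (t, z)) (v : CE (Fin n)) :
    |fderiv ℝ (fun y => fderiv ℝ (fun y' => w (t, y')) y v) z v| ≤
      ‖iteratedFDeriv ℝ 2 w (t, z)‖ * ‖v‖ ^ 2 := by
  have hs : ContDiffAt ℝ 2 (fun y' => w (t, y')) z :=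
    hw.comp z (contDiffAt_const.prodMk contDiffAt_id)
  rw [lv_fderiv_apply_eq hs, lv_snd_line hs]
  have e : (fun s : ℝ => w (t, z + s • v)) = fun s : ℝ => w ((t, z) + s • ((0 : ℝ), v)) := by
    funext s; simp
  rw [e, ← lv_snd_line hw]
  have h1 := (iteratedFDeriv ℝ 2 w (t, z)).le_opNorm ![((0 : ℝ), v), ((0 : ℝ), v)]
  rw [iteratedFDeriv_two_apply] at h1
  have h2 : ‖(((0 : ℝ), v) : ℝ × CE (Fin n))‖ = ‖v‖ := by
    rw [Prod.norm_mk, norm_zero, max_eq_right (norm_nonneg v)]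
  simp only [Fin.prod_univ_two, Matrix.cons_val_zero, Matrix.cons_val_one, h2,
    Real.norm_eq_abs] at h1
  rw [sq]; exact h1

/-- the chart Laplacian of a slice is controlled by the second space-time derivative. -/
theorem ly_abs_lapP_slice_le {H : Matrix (Fin n) (Fin n) ℂ} (hH : H.PosDef) :
    ∃ C : ℝ, 0 ≤ C ∧ ∀ (w : ℝ × CE (Fin n) → ℝ) (t : ℝ) (z : CE (Fin n)),
      ContDiffAt ℝ 2 w (t, z) →
      |lapP H (fun y => w (t, y)) z| ≤ C * ‖iteratedFDeriv ℝ 2 w (t, z)‖ := by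
  obtain ⟨c₀, hc₀, hlow⟩ := exists_pos_smul_one_le hH
  refine ⟨n * (1 / (2 * c₀)), by positivity, fun w t z hw => ?_⟩
  have hs : ContDiffAt ℝ 2 (fun y' => w (t, y')) z :=
    hw.comp z (contDiffAt_const.prodMk contDiffAt_id)
  obtain ⟨D, hD⟩ : ∃ D : ℝ, D = ‖iteratedFDeriv ℝ 2 w (t, z)‖ := ⟨_, rfl⟩
  have hD0 : 0 ≤ D := by rw [hD]; exact norm_nonneg _
  obtain ⟨L, hLd⟩ : ∃ L, L = levi (fun y => w (t, y)) z := ⟨_, rfl⟩
  have hL : L.IsHermitian := by rw [hLd]; exact levi_isHermitian hs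
  have hq : ∀ v : Fin n → ℂ, |qf L v| ≤ D / (2 * c₀) * qf H v := by
    intro v
    have h1 := qf_levi hs (WithLp.toLp 2 v)
    have h2 := ly_snd_slice hw (WithLp.toLp 2 v)
    have h3 := ly_snd_slice hw (Complex.I • WithLp.toLp 2 v)
    have h4 : ‖Complex.I • (WithLp.toLp 2 v : CE (Fin n))‖ = ‖(WithLp.toLp 2 v : CE (Fin n))‖ := by
      rw [norm_smul]; simp
    have h5 : ‖(WithLp.toLp 2 v : CE (Fin n))‖ ^ 2 = ∑ j, ‖v j‖ ^ 2 :=
      EuclideanSpace.norm_sq_eq _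
    have h6 : c₀ * ∑ j, ‖v j‖ ^ 2 ≤ qf H v := by
      have := qf_mono hlow v
      rwa [qf_smul, qf_one] at this
    rw [h4] at h3
    rw [h5, ← hD] at h2 h3
    have h7 : qf L v = qf (levi (fun y' => w (t, y')) z) fun j => (WithLp.toLp 2 v : CE (Fin n)) j := by
      rw [hLd]
    rw [h7, h1, abs_mul, abs_of_pos (by norm_num : (0 : ℝ) < 1 / 4)]
    have h8 := abs_add_le (fderiv ℝ (fun y => fderiv ℝ (fun y' => w (t, y')) y (WithLp.toLp 2 v)) z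
      (WithLp.toLp 2 v)) (fderiv ℝ (fun y => fderiv ℝ (fun y' => w (t, y')) y
        (Complex.I • WithLp.toLp 2 v)) z (Complex.I • WithLp.toLp 2 v))
    have h9 : D * ∑ j, ‖v j‖ ^ 2 ≤ D / c₀ * qf H v := by
      rw [div_mul_eq_mul_div, le_div_iff₀ hc₀]
      nlinarith
    have h10 : D / (2 * c₀) * qf H v = (D / c₀ * qf H v) / 2 := by field_simp
    rw [h10]
    linarith
  have hHs : ((((D / (2 * c₀) : ℝ)) : ℂ) • H).IsHermitian := isHermitian_smul_real _ hH.isHermitian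
  have hc : |(H⁻¹ * L).trace.re| ≤ Fintype.card (Fin n) * (D / (2 * c₀)) := by
    refine abs_trace_inv_mul_le hH ?_ ?_
    · rw [posSemidef_sub_iff_qf hL hHs]
      intro v
      rw [qf_smul]
      exact (le_abs_self _).trans (hq v)
    · rw [posSemidef_iff_qf (hL.add hHs)]
      intro v
      rw [qf_add, qf_smul]
      have := (abs_le.1 (hq v)).1
      linarith
  rw [Fintype.card_fin] at hc
  rw [lapP, ← hLd, ← hD]
  calc |(H⁻¹ * L).trace.re| ≤ n * (D / (2 * c₀)) := hc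
    _ = _ := by ring

/-- the time derivative of a slice. -/
theorem ly_hasDerivAt_slice {w : ℝ × CE (Fin n) → ℝ} {t : ℝ} {z : CE (Fin n)}
    (hw : ContDiffAt ℝ 2 w (t, z)) :
    HasDerivAt (fun s => w (s, z)) (fderiv ℝ w (t, z) (1, 0)) t ∧
      |fderiv ℝ w (t, z) (1, 0)| ≤ ‖iteratedFDeriv ℝ 1 w (t, z)‖ := by
  have hd : HasFDerivAt w (fderiv ℝ w (t, z)) (t, z) :=
    (hw.differentiableAt (by norm_num)).hasFDerivAt
  have h1 : HasDerivAt (fun s : ℝ => ((s, z) : ℝ × CE (Fin n))) (1, 0) t :=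
    (hasDerivAt_id t).prodMk (hasDerivAt_const t z)
  refine ⟨hd.comp_hasDerivAt t h1, ?_⟩
  rw [norm_iteratedFDeriv_one]
  have h2 := (fderiv ℝ w (t, z)).le_opNorm (1, 0)
  have h3 : ‖(((1 : ℝ), (0 : CE (Fin n))) : ℝ × CE (Fin n))‖ = 1 := by
    rw [Prod.norm_mk, norm_zero, norm_one, max_eq_left zero_le_one]
  rwa [h3, mul_one, Real.norm_eq_abs] at h2

/-- approximation in the weighted `L¹` norm by test functions vanishing near `x₀`. -/
theorem ly_exists_far_approx (S : AnaSetting 𝓜 g) {x₀ : V} (hx₀ : x₀ ∈ 𝓜.carrier) {δ : ℝ}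
    (hδ : 0 < δ) {h : V → ℝ} (hh : SubGauss 𝓜 g x₀ h) (h0 : ∀ y ∈ hball 𝓜 g x₀ δ, h y = 0) {ε₀ : ℝ}
    (hε₀ : 0 < ε₀) {η : ℝ} (hη : 0 < η) :
    ∃ f : V → ℝ, 𝓜.Smooth f ∧ 𝓜.CSupp f ∧ (∀ y ∈ hball 𝓜 g x₀ (3 * δ / 4), f y = 0) ∧
      Integrable (fun y => |f y - h y| * Real.exp (-(ε₀ * hdist 𝓜 g x₀ y ^ 2))) (hvol 𝓜 g) ∧
      ∫ y, |f y - h y| * Real.exp (-(ε₀ * hdist 𝓜 g x₀ y ^ 2)) ∂(hvol 𝓜 g) ≤ η := by
  have hg : IsMetric 𝓜 g := S.kahler.toIsMetric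
  obtain ⟨e, he⟩ : ∃ e : V → ℝ, e = fun y => Real.exp (-(ε₀ * hdist 𝓜 g x₀ y ^ 2)) := ⟨_, rfl⟩
  have he0 : ∀ y, 0 < e y := fun y => by rw [he]; exact Real.exp_pos _
  have he1 : ∀ y, e y ≤ 1 := fun y => by
    rw [he]
    refine Real.exp_le_one_iff.2 ?_
    have : 0 ≤ ε₀ * hdist 𝓜 g x₀ y ^ 2 := by positivity
    linarith
  have hhe : Integrable (fun y => h y * e y) (hvol 𝓜 g) := by rw [he]; exact hh ε₀ hε₀
  have hG : Integrable (fun y => |h y| * e y) (hvol 𝓜 g) := by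
    refine hhe.abs.congr (Eventually.of_forall fun y => ?_)
    show |h y * e y| = |h y| * e y
    rw [abs_mul, abs_of_pos (he0 y)]
  show ∃ f : V → ℝ, 𝓜.Smooth f ∧ 𝓜.CSupp f ∧ (∀ y ∈ hball 𝓜 g x₀ (3 * δ / 4), f y = 0) ∧
      Integrable (fun y => |f y - h y| * (fun y => Real.exp (-(ε₀ * hdist 𝓜 g x₀ y ^ 2))) y)
        (hvol 𝓜 g) ∧
      ∫ y, |f y - h y| * (fun y => Real.exp (-(ε₀ * hdist 𝓜 g x₀ y ^ 2))) y ∂(hvol 𝓜 g) ≤ η
  have hec : ContinuousOn e 𝓜.carrier := by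
    rw [he]
    exact Real.continuous_exp.comp_continuousOn
      (((continuousOn_hdist_right hg S.conn hx₀).pow 2).const_mul ε₀).neg
  have hlow : ∀ R : ℝ, ∀ y, hdist 𝓜 g x₀ y < R → 1 ≤ Real.exp (ε₀ * R ^ 2) * e y := by
    intro R y hy
    rw [he, ← Real.exp_add]
    refine Real.one_le_exp ?_
    have h1 := hdist_nonneg 𝓜 g x₀ y
    have h2 : hdist 𝓜 g x₀ y ^ 2 ≤ R ^ 2 := pow_le_pow_left₀ h1 hy.le 2
    nlinarith
  rw [← he]
  -- Step 1: cut off at a large radius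
  have hanti : Antitone fun k : ℕ => (hball 𝓜 g x₀ k)ᶜ := fun a b hab =>
    Set.compl_subset_compl.2 fun y hy => ⟨hy.1, hy.2.trans_le (by exact_mod_cast hab)⟩
  have htend := tendsto_setIntegral_of_antitone (μ := hvol 𝓜 g) (f := fun y => |h y| * e y)
    (fun k : ℕ => (measurableSet_hball hg S.conn x₀ k).compl) hanti ⟨0, hG.integrableOn⟩
  have hnull : hvol 𝓜 g (⋂ k : ℕ, (hball 𝓜 g x₀ k)ᶜ) = 0 := by
    refine measure_mono_null ?_ (ae_iff.1 (ae_mem_carrier 𝓜 g))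
    intro y hy hyM
    obtain ⟨k, hk⟩ := exists_nat_gt (hdist 𝓜 g x₀ y)
    exact (Set.mem_iInter.1 hy k) ⟨hyM, hk⟩
  rw [setIntegral_measure_zero _ hnull] at htend
  obtain ⟨k, hk⟩ := (htend.eventually (gt_mem_nhds (half_pos hη))).exists
  obtain ⟨R, hR⟩ : ∃ R : ℝ, R = k := ⟨_, rfl⟩
  rw [← hR] at hk
  -- Step 2: approximate the truncated function
  obtain ⟨Oδ, hOδ, hOδe⟩ := exists_isOpen_hball hg S.conn hx₀ δ
  obtain ⟨O1, hO1, hO1e⟩ := exists_isOpen_hball hg S.conn hx₀ (R + 1)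
  have hKc : IsCompact (hcball 𝓜 g x₀ R \ Oδ) := (S.proper x₀ hx₀ R).diff hOδ
  have hO : IsOpen (O1 \ hcball 𝓜 g x₀ (3 * δ / 4)) :=
    hO1.sdiff (S.proper x₀ hx₀ _).isClosed
  have hmb := measurableSet_hball hg S.conn x₀ R
  have hRi : Integrable ((hball 𝓜 g x₀ R).indicator h) (hvol 𝓜 g) := by
    refine Integrable.mono' (hG.const_mul (Real.exp (ε₀ * R ^ 2)))
      ((ly_subGauss_aesm S hh).indicator hmb) (Eventually.of_forall fun y => ?_)
    by_cases hy : y ∈ hball 𝓜 g x₀ R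
    · rw [Set.indicator_of_mem hy, Real.norm_eq_abs]
      have := mul_le_mul_of_nonneg_left (hlow R y hy.2) (abs_nonneg (h y))
      linarith
    · rw [Set.indicator_of_notMem hy, norm_zero]
      have := he0 y
      positivity
  have h0R : ∀ y ∈ 𝓜.carrier, y ∉ hcball 𝓜 g x₀ R \ Oδ → (hball 𝓜 g x₀ R).indicator h y = 0 := by
    intro y hy hyK
    by_cases hyR : y ∈ hball 𝓜 g x₀ R
    · rw [Set.indicator_of_mem hyR]
      apply h0
      rw [hOδe]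
      refine ⟨hy, ?_⟩
      by_contra hcon
      exact hyK ⟨⟨hy, hyR.2.le⟩, hcon⟩
    · exact Set.indicator_of_notMem hyR _
  have hKO : hcball 𝓜 g x₀ R \ Oδ ⊆ O1 \ hcball 𝓜 g x₀ (3 * δ / 4) := by
    intro y hy
    refine ⟨?_, fun hcon => hy.2 ?_⟩
    · have : y ∈ hball 𝓜 g x₀ (R + 1) := ⟨hy.1.1, by have := hy.1.2; linarith⟩
      rw [hO1e] at this; exact this.2
    · have : y ∈ hball 𝓜 g x₀ δ := ⟨hy.1.1, by have := hcon.2; linarith⟩
      rw [hOδe] at this; exact this.2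
  have hOK' : 𝓜.carrier ∩ (O1 \ hcball 𝓜 g x₀ (3 * δ / 4)) ⊆ hcball 𝓜 g x₀ (R + 1) := by
    intro y hy
    have : y ∈ hball 𝓜 g x₀ (R + 1) := by rw [hO1e]; exact ⟨hy.1, hy.2.1⟩
    exact ⟨this.1, this.2.le⟩
  obtain ⟨f, hfs, hf0, hfle⟩ := ly_exists_test_approx hg hRi hKc (S.proper x₀ hx₀ (R + 1))
    (hcball_subset_carrier _ _ _ _) hO hKO hOK' h0R (half_pos hη)
  have hfc : 𝓜.CSupp f := ⟨hcball 𝓜 g x₀ (R + 1), S.proper x₀ hx₀ (R + 1),
    hcball_subset_carrier _ _ _ _, fun y hy hyK' => hf0 y hy fun hyO => hyK' (hOK' ⟨hy, hyO⟩)⟩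
  have hfi : Integrable f (hvol 𝓜 g) := integrable_hvol_of_csupp hg hfs.continuousOn hfc
  have hfe : Integrable (fun y => f y * e y) (hvol 𝓜 g) := by
    obtain ⟨K, hK, hKM, hK0⟩ := hfc
    exact integrable_hvol_of_csupp hg (hfs.continuousOn.mul hec)
      ⟨K, hK, hKM, fun x hx hxK => by simp [hK0 x hx hxK]⟩
  have hint : Integrable (fun y => |f y - h y| * e y) (hvol 𝓜 g) := by
    refine (hfe.sub hhe).abs.congr (Eventually.of_forall fun y => ?_)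
    show |f y * e y - h y * e y| = |f y - h y| * e y
    rw [← sub_mul, abs_mul, abs_of_pos (he0 y)]
  refine ⟨f, hfs, hfc, fun y hy => hf0 y hy.1 fun hyO => hyO.2 ⟨hy.1, hy.2.le⟩, hint, ?_⟩
  have hi1 : Integrable (fun y => |f y - (hball 𝓜 g x₀ R).indicator h y|) (hvol 𝓜 g) :=
    (hfi.sub hRi).abs
  have hi2 : Integrable ((hball 𝓜 g x₀ R)ᶜ.indicator fun y => |h y| * e y) (hvol 𝓜 g) :=
    hG.indicator hmb.compl
  calc ∫ y, |f y - h y| * e y ∂(hvol 𝓜 g)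
      ≤ ∫ y, (|f y - (hball 𝓜 g x₀ R).indicator h y| +
          (hball 𝓜 g x₀ R)ᶜ.indicator (fun y => |h y| * e y) y) ∂(hvol 𝓜 g) := by
        refine integral_mono hint (hi1.add hi2) fun y => ?_
        show |f y - h y| * e y ≤ |f y - (hball 𝓜 g x₀ R).indicator h y| +
          (hball 𝓜 g x₀ R)ᶜ.indicator (fun y => |h y| * e y) y
        by_cases hy : y ∈ hball 𝓜 g x₀ R
        · rw [Set.indicator_of_mem hy, Set.indicator_of_notMem (show y ∉ (hball 𝓜 g x₀ R)ᶜ from fun hc => hc hy), add_zero]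
          exact mul_le_of_le_one_right (abs_nonneg _) (he1 y)
        · rw [Set.indicator_of_notMem hy, Set.indicator_of_mem (show y ∈ (hball 𝓜 g x₀ R)ᶜ from hy),
            sub_zero]
          have h1 : |f y - h y| ≤ |f y| + |h y| := abs_sub _ _
          have h2 := mul_le_mul_of_nonneg_right h1 (he0 y).le
          have h3 := mul_le_of_le_one_right (abs_nonneg (f y)) (he1 y)
          linarith
    _ = ∫ y, |f y - (hball 𝓜 g x₀ R).indicator h y| ∂(hvol 𝓜 g) +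
          ∫ y in (hball 𝓜 g x₀ R)ᶜ, |h y| * e y ∂(hvol 𝓜 g) := by
        rw [integral_add hi1 hi2, integral_indicator hmb.compl]
    _ ≤ η / 2 + η / 2 := add_le_add hfle hk.le
    _ = η := by ring

/-- the heat equation in a chart passes to smooth limits. -/
theorem ly_limit_eq {H : Matrix (Fin n) (Fin n) ℂ} (hH : H.PosDef) {T r : ℝ}
    {F : ℕ → ℝ × CE (Fin n) → ℝ} {G : ℝ × CE (Fin n) → ℝ}
    (hF : ∀ k, ContDiffOn ℝ ∞ (F k) (Set.Icc 0 T ×ˢ Metric.ball 0 r))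
    (hG : ContDiffOn ℝ ∞ G (Set.Icc 0 T ×ˢ Metric.ball 0 r)) {t : ℝ} (ht : t ∈ Set.Ioo 0 T)
    {z : CE (Fin n)} (hz : z ∈ Metric.ball (0 : CE (Fin n)) r)
    (hconv : ∀ (m : ℕ) (ε : ℝ), 0 < ε → ∃ k₀ : ℕ, ∀ k, k₀ ≤ k →
      ‖iteratedFDerivWithin ℝ m (fun p => F k p - G p) (Set.Icc 0 T ×ˢ Metric.ball 0 r) (t, z)‖ ≤ ε)
    (heq : ∀ k, HasDerivAt (fun s => F k (s, z)) (lapP H (fun y => F k (t, y)) z) t) :
    HasDerivAt (fun s => G (s, z)) (lapP H (fun y => G (t, y)) z) t := by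
  have hΩ : IsOpen (Set.Ioo (0 : ℝ) T ×ˢ Metric.ball (0 : CE (Fin n)) r) :=
    isOpen_Ioo.prod Metric.isOpen_ball
  have hq : ((t, z) : ℝ × CE (Fin n)) ∈ Set.Ioo (0 : ℝ) T ×ˢ Metric.ball (0 : CE (Fin n)) r :=
    ⟨ht, hz⟩
  have hmem : ((t, z) : ℝ × CE (Fin n)) ∈ Set.Icc (0 : ℝ) T ×ˢ Metric.ball (0 : CE (Fin n)) r :=
    ⟨Set.Ioo_subset_Icc_self ht, hz⟩
  have hnhds : Set.Icc (0 : ℝ) T ×ˢ Metric.ball (0 : CE (Fin n)) r ∈
      𝓝 ((t, z) : ℝ × CE (Fin n)) :=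
    Filter.mem_of_superset (hΩ.mem_nhds hq) (Set.prod_mono Set.Ioo_subset_Icc_self le_rfl)
  have hF2 : ∀ k, ContDiffAt ℝ 2 (F k) (t, z) := fun k =>
    ((hF k).contDiffAt hnhds).of_le (by norm_cast)
  have hG2 : ContDiffAt ℝ 2 G (t, z) := (hG.contDiffAt hnhds).of_le (by norm_cast)
  have hT : 0 < T := ht.1.trans ht.2
  have hud : UniqueDiffOn ℝ (Set.Icc (0 : ℝ) T ×ˢ Metric.ball (0 : CE (Fin n)) r) :=
    (uniqueDiffOn_Icc hT).prod Metric.isOpen_ball.uniqueDiffOn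
  obtain ⟨C, hC0, hC⟩ := ly_abs_lapP_slice_le hH
  obtain ⟨hGd, -⟩ := ly_hasDerivAt_slice hG2
  have hsl : ∀ {w : ℝ × CE (Fin n) → ℝ}, ContDiffAt ℝ 2 w (t, z) →
      ContDiffAt ℝ 2 (fun y => w (t, y)) z := fun hw =>
    hw.comp z (contDiffAt_const.prodMk contDiffAt_id)
  have hkey : fderiv ℝ G (t, z) (1, 0) = lapP H (fun y => G (t, y)) z := by
    refine eq_of_abs_sub_le_all fun ε hε => ?_
    have hε' : 0 < ε / (1 + C) := by positivity
    obtain ⟨k₁, hk₁⟩ := hconv 1 _ hε'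
    obtain ⟨k₂, hk₂⟩ := hconv 2 _ hε'
    have hw2 : ContDiffAt ℝ 2 (fun p => F (max k₁ k₂) p - G p) (t, z) := (hF2 _).sub hG2
    have h1 := hk₁ _ (le_max_left k₁ k₂)
    have h2 := hk₂ _ (le_max_right k₁ k₂)
    rw [iteratedFDerivWithin_eq_iteratedFDeriv hud (hw2.of_le (by norm_num)) hmem] at h1
    rw [iteratedFDerivWithin_eq_iteratedFDeriv hud hw2 hmem] at h2
    obtain ⟨hwd, hwb⟩ := ly_hasDerivAt_slice hw2
    have h3 : fderiv ℝ (fun p => F (max k₁ k₂) p - G p) (t, z) (1, 0) =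
        lapP H (fun y => F (max k₁ k₂) (t, y)) z - fderiv ℝ G (t, z) (1, 0) :=
      hwd.unique ((heq _).sub hGd)
    have h4 := lapP_sub H (hsl (hF2 (max k₁ k₂))) (hsl hG2)
    have h5 := hC _ t z hw2
    rw [h4] at h5
    rw [h3] at hwb
    have h6 : fderiv ℝ G (t, z) (1, 0) - lapP H (fun y => G (t, y)) z =
        (lapP H (fun y => F (max k₁ k₂) (t, y)) z - lapP H (fun y => G (t, y)) z) -
          (lapP H (fun y => F (max k₁ k₂) (t, y)) z - fderiv ℝ G (t, z) (1, 0)) := by ring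
    rw [h6]
    refine (abs_sub _ _).trans ?_
    have h7 : C * ‖iteratedFDeriv ℝ 2 (fun p => F (max k₁ k₂) p - G p) (t, z)‖ ≤
        C * (ε / (1 + C)) := mul_le_mul_of_nonneg_left h2 hC0
    have h8 : C * (ε / (1 + C)) + ε / (1 + C) = ε := by field_simp; ring
    linarith
  rw [← hkey]; exact hGd

/-- continuous compactly supported functions are `SubGauss`. -/
theorem ly_subGauss_of_csupp (S : AnaSetting 𝓜 g) {o : V} (ho : o ∈ 𝓜.carrier) {f : V → ℝ}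
    (hf : ContinuousOn f 𝓜.carrier) (hc : 𝓜.CSupp f) : SubGauss 𝓜 g o f := by
  have hg : IsMetric 𝓜 g := S.kahler.toIsMetric
  intro ε _
  obtain ⟨K, hK, hKM, h0⟩ := hc
  exact integrable_hvol_of_csupp hg (hf.mul (Real.continuous_exp.comp_continuousOn
    (((continuousOn_hdist_right hg S.conn ho).pow 2).const_mul ε).neg))
    ⟨K, hK, hKM, fun x hx hxK => by simp [h0 x hx hxK]⟩

theorem ly_subGauss_sub {o : V} {f f' : V → ℝ} (hf : SubGauss 𝓜 g o f) (hf' : SubGauss 𝓜 g o f') :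
    SubGauss 𝓜 g o (fun y => f y - f' y) := fun ε hε =>
  ((hf ε hε).sub (hf' ε hε)).congr (Eventually.of_forall fun y => by
    show f y * _ - f' y * _ = (f y - f' y) * _
    ring)

theorem ly_subGauss_add {o : V} {f f' : V → ℝ} (hf : SubGauss 𝓜 g o f) (hf' : SubGauss 𝓜 g o f') :
    SubGauss 𝓜 g o (fun y => f y + f' y) := fun ε hε =>
  ((hf ε hε).add (hf' ε hε)).congr (Eventually.of_forall fun y => by
    show f y * _ + f' y * _ = (f y + f' y) * _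
    ring)

theorem ly_subGauss_abs {o : V} {f : V → ℝ} (hf : SubGauss 𝓜 g o f) {ε : ℝ} (hε : 0 < ε) :
    Integrable (fun y => |f y| * Real.exp (-(ε * hdist 𝓜 g o y ^ 2))) (hvol 𝓜 g) :=
  (hf ε hε).abs.congr (Eventually.of_forall fun y => by
    show |f y * _| = |f y| * _
    rw [abs_mul, abs_of_pos (Real.exp_pos _)])

/-- monotonicity in the weight. -/
theorem ly_integral_weight_mono {o : V} {f : V → ℝ} (hf : SubGauss 𝓜 g o f) {ε ε' : ℝ} (hε : 0 < ε)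
    (hεε' : ε ≤ ε') :
    ∫ y, |f y| * Real.exp (-(ε' * hdist 𝓜 g o y ^ 2)) ∂(hvol 𝓜 g) ≤
      ∫ y, |f y| * Real.exp (-(ε * hdist 𝓜 g o y ^ 2)) ∂(hvol 𝓜 g) := by
  refine integral_mono (ly_subGauss_abs hf (hε.trans_le hεε')) (ly_subGauss_abs hf hε) fun y => ?_
  refine mul_le_mul_of_nonneg_left (Real.exp_le_exp.2 ?_) (abs_nonneg _)
  have : 0 ≤ hdist 𝓜 g o y ^ 2 := by positivity
  nlinarith

/-- linearity of `P_t` on `SubGauss` data. -/
theorem ly_P_sub (S : AnaSetting 𝓜 g) {o : V} (ho : o ∈ 𝓜.carrier) {f f' : V → ℝ}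
    (hf : SubGauss 𝓜 g o f) (hf' : SubGauss 𝓜 g o f') {t : ℝ} (ht : 0 < t) {x : V}
    (hx : x ∈ 𝓜.carrier) :
    HC.P t (fun y => f y - f' y) x = HC.P t f x - HC.P t f' x := by
  rw [HeatCore.P, HeatCore.P, HeatCore.P, ← integral_sub (ly_integrable_subGauss HC S ho hf ht hx)
    (ly_integrable_subGauss HC S ho hf' ht hx)]
  refine integral_congr_ae (Eventually.of_forall fun y => ?_)
  show HC.Hk t x y * (f y - f' y) = _
  ring

theorem ly_P_add (S : AnaSetting 𝓜 g) {o : V} (ho : o ∈ 𝓜.carrier) {f f' : V → ℝ}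
    (hf : SubGauss 𝓜 g o f) (hf' : SubGauss 𝓜 g o f') {t : ℝ} (ht : 0 < t) {x : V}
    (hx : x ∈ 𝓜.carrier) :
    HC.P t (fun y => f y + f' y) x = HC.P t f x + HC.P t f' x := by
  rw [HeatCore.P, HeatCore.P, HeatCore.P, ← integral_add (ly_integrable_subGauss HC S ho hf ht hx)
    (ly_integrable_subGauss HC S ho hf' ht hx)]
  refine integral_congr_ae (Eventually.of_forall fun y => ?_)
  show HC.Hk t x y * (f y + f' y) = _
  ring

/-- one time horizon. -/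
theorem ly_far_T (S : AnaSetting 𝓜 g) {x₀ : V} (hx₀ : x₀ ∈ 𝓜.carrier) {δ : ℝ} (hδ : 0 < δ)
    {h : V → ℝ} (hh : SubGauss 𝓜 g x₀ h) (h0 : ∀ y ∈ hball 𝓜 g x₀ δ, h y = 0)
    {Φ : CE (Fin n) → V} {U : Set (CE (Fin n))} {r : ℝ} (hΦ : 𝓜.IsHol Φ U) (hr : 0 < r)
    (hcb : Metric.closedBall 0 (2 * r) ⊆ U)
    (him : Φ '' Metric.closedBall 0 (2 * r) ⊆ hball 𝓜 g x₀ (δ / 2)) {T : ℝ} (hT : 0 < T)
    (hbd : ∃ ε₀ : ℝ, 0 < ε₀ ∧ ∀ M₀ : ℝ, ∃ Ck : ℕ → ℝ, ∀ f : V → ℝ, 𝓜.Smooth f → 𝓜.CSupp f →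
        (∀ y ∈ hball 𝓜 g x₀ (3 * δ / 4), f y = 0) →
        ∫ y, |f y| * Real.exp (-(ε₀ * hdist 𝓜 g x₀ y ^ 2)) ∂(hvol 𝓜 g) ≤ M₀ →
        ∀ (m : ℕ), ∀ t ∈ Set.Icc (0 : ℝ) T, ∀ z ∈ Metric.ball (0 : CE (Fin n)) r,
          ‖iteratedFDerivWithin ℝ m
            (fun q : ℝ × CE (Fin n) => if q.1 = 0 then f (Φ q.2) else HC.P q.1 f (Φ q.2))
            (Set.Icc 0 T ×ˢ Metric.ball 0 r) (t, z)‖ ≤ Ck m) :
    ContDiffOn ℝ ∞ (fun q : ℝ × CE (Fin n) => if q.1 = 0 then 0 else HC.P q.1 h (Φ q.2))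
      (Set.Icc 0 T ×ˢ Metric.ball 0 r) ∧
    ∀ t ∈ Set.Ioo 0 T, ∀ z ∈ Metric.ball (0 : CE (Fin n)) r,
      HasDerivAt (fun s => HC.P s h (Φ z)) (lap 𝓜 g (HC.P t h) (Φ z)) t := by
  have hg : IsMetric 𝓜 g := S.kahler.toIsMetric
  obtain ⟨ε₁, hε₁, hbd⟩ := hbd
  obtain ⟨C, ε₂, hC, hε₂, hfb⟩ := ly_far_bound HC S hx₀ hδ hT
  have hε : 0 < min ε₁ ε₂ := lt_min hε₁ hε₂
  choose f hfs hfc hf0 hfi hfle using fun k : ℕ =>
    ly_exists_far_approx S hx₀ hδ hh h0 hε (η := 1 / ((k : ℝ) + 1)) (by positivity)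
  have hfG : ∀ k, SubGauss 𝓜 g x₀ (f k) := fun k =>
    ly_subGauss_of_csupp S hx₀ (hfs k).continuousOn (hfc k)
  have haG : ∀ k, SubGauss 𝓜 g x₀ (fun y => f k y - h y) := fun k => ly_subGauss_sub (hfG k) hh
  have hbU : Metric.ball (0 : CE (Fin n)) r ⊆ U := fun z hz =>
    hcb (Metric.ball_subset_closedBall (Metric.ball_subset_ball (by linarith) hz))
  have hbh : ∀ z ∈ Metric.ball (0 : CE (Fin n)) r, Φ z ∈ hball 𝓜 g x₀ (δ / 2) := fun z hz =>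
    him ⟨z, Metric.ball_subset_closedBall (Metric.ball_subset_ball (by linarith) hz), rfl⟩
  have hsub : hball 𝓜 g x₀ (δ / 2) ⊆ hball 𝓜 g x₀ (3 * δ / 4) :=
    fun y hy => ⟨hy.1, hy.2.trans_le (by linarith)⟩
  have hsub' : hball 𝓜 g x₀ (3 * δ / 4) ⊆ hball 𝓜 g x₀ δ :=
    fun y hy => ⟨hy.1, hy.2.trans_le (by linarith)⟩
  -- uniform bound of the weighted norms
  obtain ⟨Ck, hCk⟩ := hbd (∫ y, |h y| * Real.exp (-(ε₁ * hdist 𝓜 g x₀ y ^ 2)) ∂(hvol 𝓜 g) + 1)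
  have hM : ∀ k, ∫ y, |f k y| * Real.exp (-(ε₁ * hdist 𝓜 g x₀ y ^ 2)) ∂(hvol 𝓜 g) ≤
      ∫ y, |h y| * Real.exp (-(ε₁ * hdist 𝓜 g x₀ y ^ 2)) ∂(hvol 𝓜 g) + 1 := by
    intro k
    have h1 : ∫ y, |f k y| * Real.exp (-(ε₁ * hdist 𝓜 g x₀ y ^ 2)) ∂(hvol 𝓜 g) ≤
        ∫ y, (|f k y - h y| * Real.exp (-(ε₁ * hdist 𝓜 g x₀ y ^ 2)) +
          |h y| * Real.exp (-(ε₁ * hdist 𝓜 g x₀ y ^ 2))) ∂(hvol 𝓜 g) := by
      refine integral_mono (ly_subGauss_abs (hfG k) hε₁)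
        ((ly_subGauss_abs (haG k) hε₁).add (ly_subGauss_abs hh hε₁)) fun y => ?_
      show |f k y| * _ ≤ |f k y - h y| * _ + |h y| * _
      rw [← add_mul]
      refine mul_le_mul_of_nonneg_right ?_ (Real.exp_pos _).le
      calc |f k y| = |(f k y - h y) + h y| := by ring_nf
        _ ≤ _ := abs_add_le _ _
    rw [integral_add (ly_subGauss_abs (haG k) hε₁) (ly_subGauss_abs hh hε₁)] at h1
    have h2 := ly_integral_weight_mono (haG k) hε (min_le_left ε₁ ε₂)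
    have h3 : 1 / ((k : ℝ) + 1) ≤ 1 := by
      rw [div_le_one (by positivity)]; linarith [(Nat.cast_nonneg k : (0 : ℝ) ≤ k)]
    have h4 := hfle k
    linarith
  -- the approximating solutions
  obtain ⟨F, hFd⟩ : ∃ F : ℕ → ℝ × CE (Fin n) → ℝ, F = fun k q =>
    if q.1 = 0 then f k (Φ q.2) else HC.P q.1 (f k) (Φ q.2) := ⟨_, rfl⟩
  obtain ⟨u, hud⟩ : ∃ u : ℝ × CE (Fin n) → ℝ, u = fun q =>
    if q.1 = 0 then 0 else HC.P q.1 h (Φ q.2) := ⟨_, rfl⟩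
  have hFs : ∀ k, ContDiffOn ℝ ∞ (F k) (Set.Icc 0 T ×ˢ Metric.ball 0 r) := fun k => by
    rw [hFd]
    exact (HC.test (f k) (hfs k) (hfc k) Φ U hΦ).mono (Set.prod_mono Set.Icc_subset_Ici_self hbU)
  have hFu : ∀ k, ∀ q ∈ Set.Icc (0 : ℝ) T ×ˢ Metric.ball (0 : CE (Fin n)) r,
      |F k q - u q| ≤ C / ((k : ℝ) + 1) := by
    intro k q hq
    have hxb := hbh q.2 hq.2
    rcases eq_or_lt_of_le hq.1.1 with h00 | hpos
    · simp only [hFd, hud, if_pos h00.symm]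
      rw [hf0 k _ (hsub hxb)]; simp only [sub_zero, abs_zero]; positivity
    · simp only [hFd, hud, if_neg hpos.ne']
      rw [← ly_P_sub HC S hx₀ (hfG k) hh hpos hxb.1]
      refine (ly_abs_P_le_far HC hfb (ly_subGauss_abs (haG k) hε₂)
        (fun y hy => by rw [hf0 k y hy, h0 y (hsub' hy), sub_zero]) ⟨hpos, hq.1.2⟩
        ⟨hxb.1, hxb.2.le⟩).trans ?_
      rw [div_eq_mul_one_div]
      refine mul_le_mul_of_nonneg_left ?_ hC.le
      exact (ly_integral_weight_mono (haG k) hε (min_le_right ε₁ ε₂)).trans (hfle k)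
  obtain ⟨φ, G, hφ, hG, hGc⟩ := S3.aa_smooth n (Set.Icc 0 T) (Metric.ball 0 r) (convex_Icc 0 T)
    (by rw [interior_Icc]; exact Set.nonempty_Ioo.2 hT) Metric.isOpen_ball F
    (fun K _ _ => ⟨0, fun k _ => ⟨Set.univ, isOpen_univ, Set.subset_univ _, by
      rw [Set.univ_inter]; exact hFs k⟩⟩)
    (fun K _ hK m => ⟨Ck m, 0, fun k _ q hq => by
      have := hCk (f k) (hfs k) (hfc k) (hf0 k) (hM k) m q.1 (hK hq).1 q.2 (hK hq).2
      rw [hFd]; exact this⟩)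
  -- the limit is `u`
  have hGu : ∀ q ∈ Set.Icc (0 : ℝ) T ×ˢ Metric.ball (0 : CE (Fin n)) r, G q = u q := by
    intro q hq
    refine eq_of_abs_sub_le_all fun η hη => ?_
    obtain ⟨k₀, hk₀⟩ := hGc {q} isCompact_singleton (Set.singleton_subset_iff.2 hq) 0 (η / 2)
      (half_pos hη)
    obtain ⟨k₁, hk₁⟩ := exists_nat_gt (2 * C / η)
    have h1 := hk₀ (max k₀ k₁) (le_max_left _ _) q rfl
    rw [norm_iteratedFDerivWithin_zero, Real.norm_eq_abs] at h1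
    have h2 := hFu (φ (max k₀ k₁)) q hq
    have h3 : (k₁ : ℝ) ≤ φ (max k₀ k₁) := by
      exact_mod_cast (le_max_right k₀ k₁).trans (hφ.le_apply)
    have h4 : C / ((φ (max k₀ k₁) : ℝ) + 1) ≤ η / 2 := by
      rw [div_le_div_iff₀ (by positivity) (by positivity)]
      rw [div_lt_iff₀ hη] at hk₁
      nlinarith
    calc |G q - u q| = |(F (φ (max k₀ k₁)) q - u q) - (F (φ (max k₀ k₁)) q - G q)| := by ring_nf
      _ ≤ |F (φ (max k₀ k₁)) q - u q| + |F (φ (max k₀ k₁)) q - G q| := abs_sub _ _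
      _ ≤ η := by linarith
  have hus : ContDiffOn ℝ ∞ u (Set.Icc 0 T ×ˢ Metric.ball 0 r) :=
    hG.congr fun q hq => (hGu q hq).symm
  refine ⟨by rw [← hud]; exact hus, fun t ht z hz => ?_⟩
  have hzU := hbU hz
  have hx := CMfd.mem_carrier hΦ hzU
  have key := ly_limit_eq (H := g Φ z) (hg.posDef hΦ z hzU) (F := fun k => F (φ k)) (G := G)
    (fun k => hFs (φ k)) hG ht hz
    (fun m η hη => by
      obtain ⟨k₀, hk₀⟩ := hGc {(t, z)} isCompact_singleton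
        (Set.singleton_subset_iff.2 ⟨Set.Ioo_subset_Icc_self ht, hz⟩) m η hη
      exact ⟨k₀, fun k hk => hk₀ k hk _ rfl⟩)
    (fun k => by
      have hsol := ly_test_heatSol HC hg (hfs (φ k)) (hfc (φ k))
      have h1 := (hsol.2 t ht.1.le _ hx).hasDerivAt (Ici_mem_nhds ht.1)
      rw [lap_eq_of_c2At hg hΦ hzU ((hsol.1.smooth (Set.mem_Ici.2 ht.1.le)).c2At hx)] at h1
      rw [hFd]; exact h1)
  have hev1 : (fun s => HC.P s h (Φ z)) =ᶠ[𝓝 t] fun s => G (s, z) := by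
    filter_upwards [Ioo_mem_nhds ht.1 ht.2] with s hs
    rw [hGu (s, z) ⟨Set.Ioo_subset_Icc_self hs, hz⟩, hud]
    simp only [if_neg hs.1.ne']
  have hev2 : (HC.P t h ∘ Φ) =ᶠ[𝓝 z] fun y => G (t, y) := by
    filter_upwards [Metric.isOpen_ball.mem_nhds hz] with y hy
    rw [hGu (t, y) ⟨Set.Ioo_subset_Icc_self ht, hy⟩, hud]
    simp only [if_neg ht.1.ne', Function.comp]
  have hG2 : ContDiffAt ℝ 2 (fun y => G (t, y)) z := by
    have hnhds : Set.Icc (0 : ℝ) T ×ˢ Metric.ball (0 : CE (Fin n)) r ∈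
        𝓝 ((t, z) : ℝ × CE (Fin n)) :=
      Filter.mem_of_superset ((isOpen_Ioo.prod Metric.isOpen_ball).mem_nhds
        (show ((t, z) : ℝ × CE (Fin n)) ∈ Set.Ioo (0 : ℝ) T ×ˢ Metric.ball (0 : CE (Fin n)) r from
          ⟨ht, hz⟩)) (Set.prod_mono Set.Ioo_subset_Icc_self le_rfl)
    exact ((hG.contDiffAt hnhds).of_le (by norm_cast)).comp z
      (contDiffAt_const.prodMk contDiffAt_id)
  have hc2 : 𝓜.C2At (HC.P t h) (Φ z) := (CMfd.c2At_iff hΦ hzU).2 (hG2.congr_of_eventuallyEq hev2)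
  rw [lap_eq_of_c2At hg hΦ hzU hc2, lapP_congr _ hev2]
  exact key.congr_of_eventuallyEq hev1

/-- **data vanishing near `x₀`**: `P_t h` is smooth near `x₀` up to `t = 0`, with zero initial values. -/
theorem ly_far (hReg : S3.StLinLocalReg) (S : AnaSetting 𝓜 g) {x₀ : V} (hx₀ : x₀ ∈ 𝓜.carrier) {δ : ℝ}
    (hδ : 0 < δ) {h : V → ℝ} (hh : SubGauss 𝓜 g x₀ h) (h0 : ∀ y ∈ hball 𝓜 g x₀ δ, h y = 0) :
    ∃ (Φ : CE (Fin n) → V) (U : Set (CE (Fin n))), 𝓜.IsHol Φ U ∧ x₀ ∈ Φ '' U ∧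
      ContDiffOn ℝ ∞ (fun q : ℝ × CE (Fin n) => if q.1 = 0 then 0 else HC.P q.1 h (Φ q.2))
        (Set.Ici 0 ×ˢ U) ∧
      ∀ t : ℝ, 0 < t → ∀ z ∈ U,
        HasDerivAt (fun s => HC.P s h (Φ z)) (lap 𝓜 g (HC.P t h) (Φ z)) t := by
  obtain ⟨Φ, U, r, hΦ, hr, hΦ0, hcb, him, hT⟩ := ly_far_test HC hReg S hx₀ hδ
  have hbU : Metric.ball (0 : CE (Fin n)) r ⊆ U := fun z hz =>
    hcb (Metric.ball_subset_closedBall (Metric.ball_subset_ball (by linarith) hz))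
  refine ⟨Φ, Metric.ball 0 r, 𝓜.isHol_mono hΦ Metric.isOpen_ball hbU,
    ⟨0, Metric.mem_ball_self hr, hΦ0⟩, ?_, ?_⟩
  · rintro ⟨t, z⟩ ⟨ht, hz⟩
    have ht0 : 0 ≤ t := ht
    have h1 := (ly_far_T HC S hx₀ hδ hh h0 hΦ hr hcb him (T := t + 1) (by linarith)
      (hT (t + 1) (by linarith))).1 (t, z) ⟨⟨ht0, by linarith⟩, hz⟩
    refine h1.mono_of_mem_nhdsWithin ?_
    refine mem_nhdsWithin.2 ⟨Set.Iio (t + 1) ×ˢ Set.univ, isOpen_Iio.prod isOpen_univ,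
      ⟨by simp, trivial⟩, ?_⟩
    rintro ⟨s, y⟩ ⟨⟨hs1, -⟩, hs2, hy⟩
    exact ⟨⟨hs2, le_of_lt hs1⟩, hy⟩
  · intro t ht z hz
    exact (ly_far_T HC S hx₀ hδ hh h0 hΦ hr hcb him (T := t + 1) (by linarith)
      (hT (t + 1) (by linarith))).2 t ⟨ht, by linarith⟩ z hz

theorem ly_subGauss_indicator {o : V} {f : V → ℝ} (hf : SubGauss 𝓜 g o f) {s : Set V}
    (hs : MeasurableSet s) : SubGauss 𝓜 g o (s.indicator f) := fun ε hε =>
  ((hf ε hε).indicator hs).congr (Eventually.of_forall fun y => by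
    by_cases hy : y ∈ s
    · simp [Set.indicator_of_mem hy]
    · simp [Set.indicator_of_notMem hy])

/-- `SubGauss` data are locally integrable. -/
theorem ly_integrable_indicator_hball (S : AnaSetting 𝓜 g) {x₀ : V} {h : V → ℝ}
    (hh : SubGauss 𝓜 g x₀ h) (R : ℝ) : Integrable ((hball 𝓜 g x₀ R).indicator h) (hvol 𝓜 g) := by
  have hg : IsMetric 𝓜 g := S.kahler.toIsMetric
  refine Integrable.mono' ((ly_subGauss_abs hh one_pos).const_mul (Real.exp (1 * R ^ 2)))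
    ((ly_subGauss_aesm S hh).indicator (measurableSet_hball hg S.conn x₀ R))
    (Eventually.of_forall fun y => ?_)
  by_cases hy : y ∈ hball 𝓜 g x₀ R
  · rw [Set.indicator_of_mem hy, Real.norm_eq_abs]
    have h1 : 1 ≤ Real.exp (1 * R ^ 2) * Real.exp (-(1 * hdist 𝓜 g x₀ y ^ 2)) := by
      rw [← Real.exp_add]
      refine Real.one_le_exp ?_
      have h2 : hdist 𝓜 g x₀ y ^ 2 ≤ R ^ 2 := pow_le_pow_left₀ (hdist_nonneg 𝓜 g x₀ y) hy.2.le 2
      linarith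
    have := mul_le_mul_of_nonneg_left h1 (abs_nonneg (h y))
    linarith
  · rw [Set.indicator_of_notMem hy, norm_zero]
    positivity

/-- local form of `sol`. -/
theorem ly_sol_local (hReg : S3.StLinLocalReg) (S : AnaSetting 𝓜 g) {x₀ : V} (hx₀ : x₀ ∈ 𝓜.carrier)
    {f : V → ℝ} (hf : SubGauss 𝓜 g x₀ f) :
    (∃ (Φ : CE (Fin n) → V) (U : Set (CE (Fin n))), 𝓜.IsHol Φ U ∧ x₀ ∈ Φ '' U ∧
      ContDiffOn ℝ ∞ (fun q : ℝ × CE (Fin n) => HC.P q.1 f (Φ q.2)) (Set.Ioi 0 ×ˢ U)) ∧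
    ∀ t : ℝ, 0 < t → HasDerivAt (fun s => HC.P s f x₀) (lap 𝓜 g (HC.P t f) x₀) t := by
  have hg : IsMetric 𝓜 g := S.kahler.toIsMetric
  have hmb := measurableSet_hball hg S.conn x₀ 1
  obtain ⟨f₁, hf₁⟩ : ∃ f₁ : V → ℝ, f₁ = (hball 𝓜 g x₀ 1).indicator f := ⟨_, rfl⟩
  obtain ⟨f₂, hf₂⟩ : ∃ f₂ : V → ℝ, f₂ = (hball 𝓜 g x₀ 1)ᶜ.indicator f := ⟨_, rfl⟩
  have hsum : f = fun y => f₁ y + f₂ y := by
    funext y
    rw [hf₁, hf₂]
    exact (congrFun (Set.indicator_self_add_compl (hball 𝓜 g x₀ 1) f) y).symm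
  have hG₁ : SubGauss 𝓜 g x₀ f₁ := by rw [hf₁]; exact ly_subGauss_indicator hf hmb
  have hG₂ : SubGauss 𝓜 g x₀ f₂ := by rw [hf₂]; exact ly_subGauss_indicator hf hmb.compl
  have hi₁ : Integrable f₁ (hvol 𝓜 g) := by rw [hf₁]; exact ly_integrable_indicator_hball S hf 1
  have hc₁ : 𝓜.CSupp f₁ := ⟨hcball 𝓜 g x₀ 1, S.proper x₀ hx₀ 1, hcball_subset_carrier _ _ _ _,
    fun y hy hyK => by
      rw [hf₁]; exact Set.indicator_of_notMem (fun hyb => hyK ⟨hyb.1, hyb.2.le⟩) _⟩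
  have h0₂ : ∀ y ∈ hball 𝓜 g x₀ 1, f₂ y = 0 := fun y hy => by
    rw [hf₂]; exact Set.indicator_of_notMem (show y ∉ (hball 𝓜 g x₀ 1)ᶜ from fun hc => hc hy) _
  have N := ly_near HC S hi₁ hc₁
  obtain ⟨Φ, U, hΦ, ⟨z₀, hz₀, hΦz₀⟩, hsm, hder⟩ := ly_far HC hReg S hx₀ one_pos hG₂ h0₂
  have hadd : ∀ t : ℝ, 0 < t → ∀ x ∈ 𝓜.carrier, HC.P t f x = HC.P t f₁ x + HC.P t f₂ x := by
    intro t ht x hx
    rw [← ly_P_add HC S hx₀ hG₁ hG₂ ht hx, ← hsum]
  refine ⟨⟨Φ, U, hΦ, ⟨z₀, hz₀, hΦz₀⟩, ?_⟩, fun t ht => ?_⟩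
  · refine ((N.1 Φ U hΦ).add (hsm.mono (Set.prod_mono Set.Ioi_subset_Ici_self le_rfl))).congr ?_
    intro q hq
    have hq1 : 0 < q.1 := hq.1
    show HC.P q.1 f (Φ q.2) = HC.P q.1 f₁ (Φ q.2) + if q.1 = 0 then 0 else HC.P q.1 f₂ (Φ q.2)
    rw [if_neg hq1.ne', hadd q.1 hq1 _ (CMfd.mem_carrier hΦ hq.2)]
  · have h1 := (N.2 t ht x₀ hx₀).hasDerivAt (Ioi_mem_nhds ht)
    have h2 := hder t ht z₀ hz₀
    rw [hΦz₀] at h2
    have hc2 : 𝓜.C2At (HC.P t f₂) x₀ := by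
      rw [← hΦz₀, CMfd.c2At_iff hΦ hz₀]
      have hopen : IsOpen (Set.Ioi (0 : ℝ) ×ˢ U) := isOpen_Ioi.prod (CMfd.isOpen_dom hΦ)
      have h3 : ContDiffAt ℝ ∞ (fun q : ℝ × CE (Fin n) => if q.1 = 0 then 0 else HC.P q.1 f₂ (Φ q.2))
          (t, z₀) :=
        (hsm.mono (Set.prod_mono Set.Ioi_subset_Ici_self le_rfl)).contDiffAt
          (hopen.mem_nhds ⟨ht, hz₀⟩)
      have h4 := (h3.of_le (m := 2) (by norm_cast)).comp z₀
        (contDiffAt_const.prodMk contDiffAt_id : ContDiffAt ℝ 2 (fun y : CE (Fin n) => (t, y)) z₀)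
      refine h4.congr_of_eventuallyEq (Eventually.of_forall fun y => ?_)
      simp [Function.comp, ht.ne']
    have h5 : lap 𝓜 g (HC.P t f) x₀ = lap 𝓜 g (HC.P t f₁) x₀ + lap 𝓜 g (HC.P t f₂) x₀ := by
      rw [← lap_add g ((N.1.smooth (Set.mem_Ioi.2 ht)).c2At hx₀) hc2]
      exact lap_congr_of_eqOn g (fun y hy => hadd t ht y hy) hx₀
    rw [h5]
    refine (h1.add h2).congr_of_eventuallyEq ?_
    filter_upwards [Ioi_mem_nhds ht] with s hs
    exact hadd s hs x₀ hx₀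

/-- field `sol`. -/
theorem ly_sol (hReg : S3.StLinLocalReg) (S : AnaSetting 𝓜 g) {o : V} (ho : o ∈ 𝓜.carrier)
    {f : V → ℝ} (hf : SubGauss 𝓜 g o f) :
    𝓜.SmoothST (Set.Ioi 0) (fun t x => ∫ y, HC.Hk t x y * f y ∂(hvol 𝓜 g)) ∧
    ∀ t : ℝ, 0 < t → ∀ x ∈ 𝓜.carrier,
      HasDerivAt (fun s => ∫ y, HC.Hk s x y * f y ∂(hvol 𝓜 g))
        (lap 𝓜 g (fun x' => ∫ y, HC.Hk t x' y * f y ∂(hvol 𝓜 g)) x) t :=
  ⟨CMfd.smoothST_of_cover fun x hx => (ly_sol_local HC hReg S hx (ly_subGauss_base S ho hx hf)).1,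
    fun t ht x hx => (ly_sol_local HC hReg S hx (ly_subGauss_base S ho hx hf)).2 t ht⟩

/-- field `init`. -/
theorem ly_init (hReg : S3.StLinLocalReg) (S : AnaSetting 𝓜 g) {o : V} (ho : o ∈ 𝓜.carrier)
    {f : V → ℝ} (hf : SubGauss 𝓜 g o f) (hs : 𝓜.Smooth f) :
    𝓜.SmoothST (Set.Ici 0)
      (fun t x => if t = 0 then f x else ∫ y, HC.Hk t x y * f y ∂(hvol 𝓜 g)) := by
  have hg : IsMetric 𝓜 g := S.kahler.toIsMetric
  refine CMfd.smoothST_of_cover fun x₀ hx₀ => ?_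
  have hfx := ly_subGauss_base S ho hx₀ hf
  obtain ⟨_, _, hcut⟩ := ly_cutoff S
  obtain ⟨χ, hχs, -, hχ1, hχ0, -, -⟩ := hcut x₀ hx₀ 1 one_pos
  have hs₁ : 𝓜.Smooth (fun y => χ y * f y) := hχs.mul hs
  have hc₁ : 𝓜.CSupp (fun y => χ y * f y) := ly_csupp_of_eq_zero S hx₀ (R := 2 * 1)
    fun y hy hd => by rw [hχ0 y hy hd, zero_mul]
  have hG₁ : SubGauss 𝓜 g x₀ (fun y => χ y * f y) := ly_subGauss_of_csupp S hx₀ hs₁.continuousOn hc₁
  have hG₂ : SubGauss 𝓜 g x₀ (fun y => f y - χ y * f y) := ly_subGauss_sub hfx hG₁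
  have h0₂ : ∀ y ∈ hball 𝓜 g x₀ 1, f y - χ y * f y = 0 := fun y hy => by rw [hχ1 y hy]; ring
  obtain ⟨Φ, U, hΦ, ⟨z₀, hz₀, hΦz₀⟩, hsm, -⟩ := ly_far HC hReg S hx₀ one_pos hG₂ h0₂
  obtain ⟨O, hO, hOe⟩ := exists_isOpen_hball hg S.conn hx₀ 1
  have hU' : IsOpen (U ∩ Φ ⁻¹' O) := (𝓜.isParam hΦ).isOpen_inter_preimage hO
  have hxO : x₀ ∈ O := by
    have : x₀ ∈ hball 𝓜 g x₀ 1 := mem_hball_self hx₀ one_pos
    rw [hOe] at this; exact this.2
  refine ⟨Φ, U ∩ Φ ⁻¹' O, 𝓜.isHol_mono hΦ hU' Set.inter_subset_left,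
    ⟨z₀, ⟨hz₀, by show Φ z₀ ∈ O; rw [hΦz₀]; exact hxO⟩, hΦz₀⟩, ?_⟩
  have ht1 := (HC.test _ hs₁ hc₁ Φ U hΦ).mono
    (Set.prod_mono (le_refl (Set.Ici (0 : ℝ))) (Set.inter_subset_left (t := Φ ⁻¹' O)))
  have ht2 := hsm.mono
    (Set.prod_mono (le_refl (Set.Ici (0 : ℝ))) (Set.inter_subset_left (t := Φ ⁻¹' O)))
  refine (ht1.add ht2).congr fun q hq => ?_
  have hx := CMfd.mem_carrier hΦ hq.2.1
  show (if q.1 = 0 then f (Φ q.2) else HC.P q.1 f (Φ q.2)) =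
    (if q.1 = 0 then χ (Φ q.2) * f (Φ q.2) else HC.P q.1 (fun y => χ y * f y) (Φ q.2)) +
      (if q.1 = 0 then 0 else HC.P q.1 (fun y => f y - χ y * f y) (Φ q.2))
  rcases eq_or_lt_of_le (show (0 : ℝ) ≤ q.1 from hq.1) with h00 | hpos
  · rw [if_pos h00.symm, if_pos h00.symm, if_pos h00.symm, hχ1 _ (by rw [hOe]; exact ⟨hx, hq.2.2⟩)]
    ring
  · rw [if_neg hpos.ne', if_neg hpos.ne', if_neg hpos.ne', ← ly_P_add HC S hx₀ hG₁ hG₂ hpos hx]
    congr 1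
    funext y; ring

end Claimed.Agent.R316
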